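import Mathlib
import Vale.Agent.P245.Moments

/-!
Gaussian tilts of a subgaussian density: integrals, derivatives and moment bounds.
-/

namespace Vale.Agent.P245

open MeasureTheory Set Filter Topology Function Finset
open scoped ENNReal

variable {n : ℕ}

/-- The pairing `∑ θ i * x i`. -/
noncomputable def dot (θ x : Fin n → ℝ) : ℝ := ∑ i, θ i * x i

@[fun_prop]
lemma continuous_dot {α : Type*} [TopologicalSpace α] {f g : α → Fin n → ℝ} (hf : Continuous f)
    (hg : Continuous g) : Continuous fun a => dot (f a) (g a) := by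
  unfold dot; fun_prop

lemma dot_comm (θ x : Fin n → ℝ) : dot θ x = dot x θ :=
  Finset.sum_congr rfl fun _ _ => mul_comm _ _

lemma dot_self (x : Fin n → ℝ) : dot x x = sumSq x :=
  Finset.sum_congr rfl fun _ _ => (sq _).symm

lemma dot_single (i : Fin n) (x : Fin n → ℝ) : dot (Pi.single i 1) x = x i := by
  simp [dot, Pi.single_apply]

lemma dot_le_sumSq (θ x : Fin n → ℝ) {k : ℝ} (hk : 0 < k) :
    dot θ x ≤ k * sumSq x + sumSq θ / (4 * k) := by
  unfold dot sumSq
  rw [Finset.mul_sum, Finset.sum_div, ← Finset.sum_add_distrib]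
  refine Finset.sum_le_sum fun i _ => ?_
  rw [← sub_nonneg]
  have e : k * x i ^ 2 + θ i ^ 2 / (4 * k) - θ i * x i = (2 * k * x i - θ i) ^ 2 / (4 * k) := by
    field_simp; ring
  rw [e]; positivity

lemma abs_dot_le (θ x : Fin n → ℝ) : |dot θ x| ≤ Real.sqrt (sumSq θ) * Real.sqrt (sumSq x) := by
  rw [← Real.sqrt_sq_eq_abs, ← Real.sqrt_mul (sumSq_nonneg θ)]
  exact Real.sqrt_le_sqrt (Finset.sum_mul_sq_le_sq_mul_sq _ _ _)

/-- Continuous functions growing slower than every Gaussian. -/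
def Mild (φ : (Fin n → ℝ) → ℝ) : Prop :=
  Continuous φ ∧ ∀ c : ℝ, 0 < c → ∃ C : ℝ, ∀ x, |φ x| ≤ C * Real.exp (c * sumSq x)

namespace Mild

variable {φ ψ : (Fin n → ℝ) → ℝ}

lemma cont (h : Mild φ) : Continuous φ := h.1

lemma bdd (hc : Continuous φ) {B : ℝ} (hB : ∀ x, |φ x| ≤ B) : Mild φ :=
  ⟨hc, fun _ hc' => ⟨B, fun x => (hB x).trans (le_mul_of_one_le_right ((abs_nonneg _).trans (hB x))
    (Real.one_le_exp (mul_nonneg hc'.le (sumSq_nonneg x))))⟩⟩

lemma const (r : ℝ) : Mild fun _ : Fin n → ℝ => r := bdd continuous_const fun _ => le_rfl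

lemma sumSq' : Mild (sumSq : (Fin n → ℝ) → ℝ) := by
  refine ⟨continuous_sumSq, fun c hc => ⟨1 / c, fun x => ?_⟩⟩
  rw [abs_of_nonneg (sumSq_nonneg x), div_mul_eq_mul_div, one_mul, le_div_iff₀ hc]
  linarith [Real.add_one_le_exp (c * sumSq x), mul_comm c (sumSq x)]

lemma add (h : Mild φ) (h' : Mild ψ) : Mild fun x => φ x + ψ x := by
  refine ⟨h.1.add h'.1, fun c hc => ?_⟩
  obtain ⟨C, hC⟩ := h.2 c hc
  obtain ⟨D, hD⟩ := h'.2 c hc
  exact ⟨C + D, fun x => (abs_add_le _ _).trans (by rw [add_mul]; exact add_le_add (hC x) (hD x))⟩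

lemma mul (h : Mild φ) (h' : Mild ψ) : Mild fun x => φ x * ψ x := by
  refine ⟨h.1.mul h'.1, fun c hc => ?_⟩
  obtain ⟨C, hC⟩ := h.2 (c / 2) (half_pos hc)
  obtain ⟨D, hD⟩ := h'.2 (c / 2) (half_pos hc)
  refine ⟨C * D, fun x => ?_⟩
  rw [abs_mul]
  refine (mul_le_mul (hC x) (hD x) (abs_nonneg _) ((abs_nonneg _).trans (hC x))).trans (le_of_eq ?_)
  rw [mul_mul_mul_comm, ← Real.exp_add]; ring_nf

lemma const_mul (h : Mild φ) (r : ℝ) : Mild fun x => r * φ x := (Mild.const r).mul h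

lemma sub (h : Mild φ) (h' : Mild ψ) : Mild fun x => φ x - ψ x := by
  simpa [sub_eq_add_neg] using h.add (h'.const_mul (-1))

lemma sub_const (h : Mild φ) (r : ℝ) : Mild fun x => φ x - r := h.sub (Mild.const r)

lemma pow (h : Mild φ) (k : ℕ) : Mild fun x => φ x ^ k := by
  induction k with
  | zero => simpa using Mild.const 1
  | succ k ih => simpa [pow_succ] using ih.mul h

lemma of_le (h : Mild ψ) (hc : Continuous φ) {r : ℝ} (hle : ∀ x, |φ x| ≤ r * |ψ x|) : Mild φ := by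
  refine ⟨hc, fun c hc' => ?_⟩
  obtain ⟨C, hC⟩ := h.2 c hc'
  refine ⟨|r| * C, fun x => (hle x).trans ?_⟩
  rw [mul_assoc]
  exact mul_le_mul (le_abs_self r) (hC x) (abs_nonneg _) (abs_nonneg r)

lemma coord (i : Fin n) : Mild fun x : Fin n → ℝ => x i := by
  refine ((Mild.const 1).add sumSq').of_le (continuous_apply i) (r := 1) fun x => ?_
  rw [one_mul, abs_of_nonneg (by linarith [sumSq_nonneg x] : 0 ≤ 1 + sumSq x)]
  nlinarith [sq_le_sumSq x i, sq_abs (x i), sq_nonneg (|x i| - 1)]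

lemma sum {ι : Type*} (s : Finset ι) {φ : ι → (Fin n → ℝ) → ℝ} (h : ∀ i ∈ s, Mild (φ i)) :
    Mild fun x => ∑ i ∈ s, φ i x := by
  classical
  induction s using Finset.induction with
  | empty => simpa using Mild.const 0
  | insert i s hi ih =>
    simp only [Finset.sum_insert hi]
    exact (h i (Finset.mem_insert_self i s)).add (ih fun j hj => h j (Finset.mem_insert_of_mem hj))

lemma dot_left (v : Fin n → ℝ) : Mild fun x => dot v x :=
  sum _ fun i _ => (coord i).const_mul (v i)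

end Mild

/-- The tilted weight. -/
noncomputable def wt (ρ : (Fin n → ℝ) → ℝ) (s : ℝ) (θ x : Fin n → ℝ) : ℝ :=
  Real.exp (dot θ x - s / 2 * sumSq x) * ρ x

/-- Integral against the tilted weight. -/
noncomputable def mo (ρ : (Fin n → ℝ) → ℝ) (φ : (Fin n → ℝ) → ℝ) (s : ℝ) (θ : Fin n → ℝ) : ℝ :=
  ∫ x, φ x * wt ρ s θ x

/-- Normalising constant of the tilt. -/
noncomputable def zz (ρ : (Fin n → ℝ) → ℝ) (s : ℝ) (θ : Fin n → ℝ) : ℝ := ∫ x, wt ρ s θ x

/-- Mean under the tilted probability density. -/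
noncomputable def pm (ρ : (Fin n → ℝ) → ℝ) (φ : (Fin n → ℝ) → ℝ) (s : ℝ) (θ : Fin n → ℝ) : ℝ :=
  mo ρ φ s θ / zz ρ s θ

/-- Covariance under the tilted probability density. -/
noncomputable def pcov (ρ : (Fin n → ℝ) → ℝ) (φ ψ : (Fin n → ℝ) → ℝ) (s : ℝ) (θ : Fin n → ℝ) : ℝ :=
  pm ρ (fun x => φ x * ψ x) s θ - pm ρ φ s θ * pm ρ ψ s θ

/-- The barycentre. -/
noncomputable def bar (ρ : (Fin n → ℝ) → ℝ) (s : ℝ) (θ : Fin n → ℝ) (i : Fin n) : ℝ :=
  pm ρ (fun x => x i) s θ

/-- The covariance matrix. -/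
noncomputable def covM (ρ : (Fin n → ℝ) → ℝ) (s : ℝ) (θ : Fin n → ℝ) (i j : Fin n) : ℝ :=
  pcov ρ (fun x => x i) (fun x => x j) s θ

/-- Third central moments. -/
noncomputable def thirdM (ρ : (Fin n → ℝ) → ℝ) (s : ℝ) (θ : Fin n → ℝ) (l i j : Fin n) : ℝ :=
  pm ρ (fun x => (x l - bar ρ s θ l) * (x i - bar ρ s θ i) * (x j - bar ρ s θ j)) s θ

/-- The lower end of the admissible times. -/
noncomputable def kap (a : ℝ) : ℝ := 1 / (64 * a ^ 2)

namespace SubDensity

variable {ρ : (Fin n → ℝ) → ℝ} {a : ℝ} (h : SubDensity ρ a)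
include h

lemma kap_pos : 0 < kap a := by have := h.a_pos; unfold kap; positivity

lemma integrable_exp_sq :
    Integrable (fun x => Real.exp (8 * kap a * sumSq x) * ρ x) ∧
      ∫ x, Real.exp (8 * kap a * sumSq x) * ρ x ≤ Real.sqrt 2 ^ n := by
  have hs := h.exp_sq_le Finset.univ
  rw [Finset.card_univ, Fintype.card_fin] at hs
  have e : ∀ x : Fin n → ℝ, ∑ i, x i ^ 2 / (8 * a ^ 2) = 8 * kap a * sumSq x := fun x => by
    rw [← Finset.sum_div, sumSq, kap]
    have := h.a_pos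
    field_simp; ring
  simp only [e] at hs
  have hm : Measurable fun x => Real.exp (8 * kap a * sumSq x) * ρ x := by
    have := h.meas; fun_prop
  have h0 : ∀ x, 0 ≤ Real.exp (8 * kap a * sumSq x) * ρ x := fun x =>
    mul_nonneg (Real.exp_pos _).le (h.nonneg x)
  refine ⟨(lintegral_ofReal_ne_top_iff_integrable hm.aestronglyMeasurable (Eventually.of_forall h0)).1
    (ne_top_of_le_ne_top ENNReal.ofReal_ne_top hs), ?_⟩
  rw [integral_eq_lintegral_of_nonneg_ae (Eventually.of_forall h0) hm.aestronglyMeasurable]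
  exact ENNReal.toReal_le_of_le_ofReal (by positivity) hs

lemma wt_le {s : ℝ} (hs : -kap a ≤ s) (θ x : Fin n → ℝ) :
    wt ρ s θ x ≤ Real.exp (sumSq θ / (4 * kap a)) * (Real.exp (2 * kap a * sumSq x) * ρ x) := by
  rw [wt, ← mul_assoc, ← Real.exp_add]
  refine mul_le_mul_of_nonneg_right (Real.exp_le_exp.2 ?_) (h.nonneg x)
  have h1 := dot_le_sumSq θ x h.kap_pos
  have h2 := mul_le_mul_of_nonneg_right hs (sumSq_nonneg x)
  nlinarith [mul_nonneg h.kap_pos.le (sumSq_nonneg x)]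

lemma wt_nonneg (s : ℝ) (θ x : Fin n → ℝ) : 0 ≤ wt ρ s θ x :=
  mul_nonneg (Real.exp_pos _).le (h.nonneg x)

lemma measurable_wt (s : ℝ) (θ : Fin n → ℝ) : Measurable (wt ρ s θ) := by
  have := h.meas; unfold wt; fun_prop

/-- A common integrable majorant. -/
lemma exists_bound {φ : (Fin n → ℝ) → ℝ} (hφ : Mild φ) (R : ℝ) :
    ∃ b : (Fin n → ℝ) → ℝ, Integrable b ∧
      ∀ s θ, -kap a ≤ s → sumSq θ ≤ R → ∀ x, |φ x * wt ρ s θ x| ≤ b x := by
  obtain ⟨C, hC⟩ := hφ.2 (kap a) h.kap_pos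
  refine ⟨fun x => C * Real.exp (R / (4 * kap a)) * (Real.exp (8 * kap a * sumSq x) * ρ x),
    h.integrable_exp_sq.1.const_mul _, fun s θ hs hθ x => ?_⟩
  have hC0 : 0 ≤ C := by
    have := hC 0
    nlinarith [abs_nonneg (φ 0), Real.exp_pos (kap a * sumSq (0 : Fin n → ℝ))]
  rw [abs_mul, abs_of_nonneg (h.wt_nonneg s θ x)]
  refine (mul_le_mul (hC x) (h.wt_le hs θ x) (h.wt_nonneg s θ x) (by positivity)).trans ?_
  rw [show C * Real.exp (kap a * sumSq x) * (Real.exp (sumSq θ / (4 * kap a))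
      * (Real.exp (2 * kap a * sumSq x) * ρ x))
    = C * Real.exp (sumSq θ / (4 * kap a))
      * (Real.exp (kap a * sumSq x + 2 * kap a * sumSq x) * ρ x) by rw [Real.exp_add]; ring]
  refine mul_le_mul ?_ ?_ (mul_nonneg (Real.exp_pos _).le (h.nonneg x)) (by positivity)
  · have := h.kap_pos
    gcongr
  · refine mul_le_mul_of_nonneg_right (Real.exp_le_exp.2 ?_) (h.nonneg x)
    nlinarith [mul_nonneg h.kap_pos.le (sumSq_nonneg x)]

lemma integrable_mo {φ : (Fin n → ℝ) → ℝ} (hφ : Mild φ) {s : ℝ} (hs : -kap a ≤ s) (θ : Fin n → ℝ) :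
    Integrable fun x => φ x * wt ρ s θ x := by
  obtain ⟨b, hb, hle⟩ := h.exists_bound hφ (sumSq θ)
  exact hb.mono' (hφ.cont.measurable.mul (h.measurable_wt s θ)).aestronglyMeasurable
    (Eventually.of_forall fun x => hle s θ hs le_rfl x)

lemma integrable_wt {s : ℝ} (hs : -kap a ≤ s) (θ : Fin n → ℝ) : Integrable (wt ρ s θ) := by
  simpa using h.integrable_mo (Mild.const 1) hs θ

lemma zz_pos {s : ℝ} (hs : -kap a ≤ s) (θ : Fin n → ℝ) : 0 < zz ρ s θ := by
  rw [zz, integral_pos_iff_support_of_nonneg (h.wt_nonneg s θ) (h.integrable_wt hs θ)]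
  have e : Function.support (wt ρ s θ) = Function.support ρ := by
    ext x; simp [wt]
  rw [e, ← integral_pos_iff_support_of_nonneg h.nonneg h.int, h.one]
  exact one_pos

lemma hasDerivAt_mo {φ : (Fin n → ℝ) → ℝ} (hφ : Mild φ) {c c' : ℝ → Fin n → ℝ} {s s' : ℝ → ℝ}
    {u0 : ℝ} (hd : ∀ᶠ u in 𝓝 u0, (∀ i, HasDerivAt (fun v => c v i) (c' u i) u) ∧ HasDerivAt s (s' u) u)
    (hc' : ContinuousAt c' u0) (hs' : ContinuousAt s' u0) (hs : -kap a < s u0) :
    HasDerivAt (fun u => mo ρ φ (s u) (c u))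
      (mo ρ (fun x => φ x * (dot (c' u0) x - s' u0 / 2 * sumSq x)) (s u0) (c u0)) u0 := by
  have hcc : ContinuousAt c u0 :=
    continuousAt_pi.2 fun i => (hd.self_of_nhds.1 i).continuousAt
  have hsc : ContinuousAt s u0 := hd.self_of_nhds.2.continuousAt
  set R := sumSq (c u0) + 1
  set R' := sumSq (c' u0) + 1
  set K := |s' u0| + 1
  have hev : ∀ᶠ u in 𝓝 u0, ((∀ i, HasDerivAt (fun v => c v i) (c' u i) u) ∧ HasDerivAt s (s' u) u)
      ∧ -kap a < s u ∧ sumSq (c u) < R ∧ sumSq (c' u) < R' ∧ |s' u| < K :=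
    hd.and ((hsc.eventually (eventually_gt_nhds hs)).and
      (((continuous_sumSq.continuousAt.comp hcc).eventually (eventually_lt_nhds (lt_add_one _))).and
      (((continuous_sumSq.continuousAt.comp hc').eventually (eventually_lt_nhds (lt_add_one _))).and
      (hs'.abs.eventually (eventually_lt_nhds (lt_add_one _))))))
  obtain ⟨b0, hb0, hle0⟩ := h.exists_bound hφ R
  obtain ⟨b1, hb1, hle1⟩ := h.exists_bound (φ := fun x => φ x * ((1 + R') * (1 + sumSq x) + K * sumSq x))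
    (hφ.mul ((((Mild.const 1).add Mild.sumSq').const_mul (1 + R')).add (Mild.sumSq'.const_mul K))) R
  have key := hasDerivAt_integral_of_dominated_loc_of_deriv_le (μ := (volume : Measure (Fin n → ℝ)))
    (F := fun u x => φ x * wt ρ (s u) (c u) x)
    (F' := fun u x => φ x * ((dot (c' u) x - s' u / 2 * sumSq x) * wt ρ (s u) (c u) x))
    (bound := b1) (x₀ := u0) hev
    (Eventually.of_forall fun u => (hφ.cont.measurable.mul (h.measurable_wt _ _)).aestronglyMeasurable)
    (h.integrable_mo hφ hs.le _) ?_ ?_ hb1 ?_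
  · have := key.2
    simpa only [mo, mul_assoc] using this
  · have := h.measurable_wt (s u0) (c u0)
    have := hφ.cont.measurable
    exact Measurable.aestronglyMeasurable (by fun_prop)
  · refine Eventually.of_forall fun x u hu => ?_
    obtain ⟨-, hsu, hcu, hc'u, hs'u⟩ := hu
    refine le_trans ?_ (hle1 (s u) (c u) hsu.le hcu.le x)
    have h0 : 0 ≤ (1 + R') * (1 + sumSq x) + K * sumSq x := by
      have := sumSq_nonneg x; have := sumSq_nonneg (c' u0); have := abs_nonneg (s' u0)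
      positivity
    rw [Real.norm_eq_abs, abs_mul, abs_mul, abs_mul, abs_mul, abs_of_nonneg h0, mul_assoc (|φ x|)]
    refine mul_le_mul_of_nonneg_left (mul_le_mul_of_nonneg_right ?_ (abs_nonneg _)) (abs_nonneg _)
    refine (abs_sub _ _).trans (add_le_add ?_ ?_)
    · have h1 := dot_le_sumSq (c' u) x (show (0:ℝ) < 1 / 2 by norm_num)
      have h2 := dot_le_sumSq (-c' u) x (show (0:ℝ) < 1 / 2 by norm_num)
      have e1 : dot (-c' u) x = -dot (c' u) x := by simp [dot, Finset.sum_neg_distrib]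
      have e2 : sumSq (-c' u) = sumSq (c' u) := by simp [sumSq]
      rw [e1, e2] at h2
      rw [abs_le]
      constructor <;> nlinarith [sumSq_nonneg x, sumSq_nonneg (c' u)]
    · rw [abs_mul, abs_of_nonneg (sumSq_nonneg x), abs_div, abs_two]
      nlinarith [sumSq_nonneg x, abs_nonneg (s' u)]
  · refine Eventually.of_forall fun x u hu => ?_
    obtain ⟨⟨hcu, hsu⟩, -⟩ := hu
    have h1 : HasDerivAt (fun v => dot (c v) x) (dot (c' u) x) u :=
      HasDerivAt.fun_sum fun i _ => (hcu i).mul_const (x i)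
    have h2 := (((h1.sub ((hsu.div_const 2).mul_const (sumSq x))).exp).mul_const (ρ x)).const_mul (φ x)
    refine h2.congr_deriv ?_
    simp only [wt, Pi.sub_apply]; ring

lemma hasDerivAt_pm {φ : (Fin n → ℝ) → ℝ} (hφ : Mild φ) {c c' : ℝ → Fin n → ℝ} {s s' : ℝ → ℝ}
    {u0 : ℝ} (hd : ∀ᶠ u in 𝓝 u0, (∀ i, HasDerivAt (fun v => c v i) (c' u i) u) ∧ HasDerivAt s (s' u) u)
    (hc' : ContinuousAt c' u0) (hs' : ContinuousAt s' u0) (hs : -kap a < s u0) :
    HasDerivAt (fun u => pm ρ φ (s u) (c u))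
      (pcov ρ φ (fun x => dot (c' u0) x - s' u0 / 2 * sumSq x) (s u0) (c u0)) u0 := by
  have h1 := h.hasDerivAt_mo hφ hd hc' hs' hs
  have h2 := h.hasDerivAt_mo (Mild.const 1) hd hc' hs' hs
  have e : ∀ s θ, mo ρ (fun _ => (1:ℝ)) s θ = zz ρ s θ := fun s θ => by simp [mo, zz]
  simp only [e, one_mul] at h2
  have hz := (h.zz_pos hs.le (c u0)).ne'
  refine (h1.div h2 hz).congr_deriv ?_
  simp only [pcov, pm]
  generalize mo ρ (fun x => φ x * (dot (c' u0) x - s' u0 / 2 * sumSq x)) (s u0) (c u0) = A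
  generalize mo ρ (fun x => dot (c' u0) x - s' u0 / 2 * sumSq x) (s u0) (c u0) = B
  generalize mo ρ φ (s u0) (c u0) = D
  field_simp

lemma hasDerivAt_zz_line (s : ℝ) (θ v : Fin n → ℝ) (u : ℝ) (hs : -kap a < s) :
    HasDerivAt (fun r : ℝ => zz ρ s (θ + r • v)) (mo ρ (fun x => dot v x) s (θ + u • v)) u := by
  have := h.hasDerivAt_mo (Mild.const 1) (c := fun r : ℝ => θ + r • v) (c' := fun _ => v)
    (s := fun _ => s) (s' := fun _ => 0) (u0 := u)
    (Eventually.of_forall fun r => ⟨fun i => by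
      simpa using ((hasDerivAt_id' r).mul_const (v i)).const_add (θ i), hasDerivAt_const r s⟩)
    continuousAt_const continuousAt_const hs
  simpa [mo, zz] using this

lemma hasDerivAt_pm_line {φ : (Fin n → ℝ) → ℝ} (hφ : Mild φ) (s : ℝ) (θ v : Fin n → ℝ) (u : ℝ)
    (hs : -kap a < s) :
    HasDerivAt (fun r : ℝ => pm ρ φ s (θ + r • v)) (pcov ρ φ (fun x => dot v x) s (θ + u • v)) u := by
  have := h.hasDerivAt_pm hφ (c := fun r : ℝ => θ + r • v) (c' := fun _ => v) (s := fun _ => s)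
    (s' := fun _ => 0) (u0 := u)
    (Eventually.of_forall fun r => ⟨fun i => by
      simpa using ((hasDerivAt_id' r).mul_const (v i)).const_add (θ i), hasDerivAt_const r s⟩)
    continuousAt_const continuousAt_const hs
  simpa using this

lemma continuousAt_mo {φ : (Fin n → ℝ) → ℝ} (hφ : Mild φ) {p : ℝ × (Fin n → ℝ)}
    (hp : -kap a < p.1) : ContinuousAt (fun q : ℝ × (Fin n → ℝ) => mo ρ φ q.1 q.2) p := by
  obtain ⟨b, hb, hle⟩ := h.exists_bound hφ (sumSq p.2 + 1)
  refine continuousAt_of_dominated (Eventually.of_forall fun q =>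
    (hφ.cont.measurable.mul (h.measurable_wt _ _)).aestronglyMeasurable) ?_ hb
    (Eventually.of_forall fun x => ?_)
  · filter_upwards [continuous_fst.continuousAt.eventually (eventually_gt_nhds hp),
      (continuous_sumSq.comp continuous_snd).continuousAt.eventually
        (eventually_lt_nhds (lt_add_one (sumSq p.2)))] with q hq1 hq2
    exact Eventually.of_forall fun x => hle _ _ hq1.le (le_of_lt hq2) x
  · unfold wt; fun_prop

lemma continuousAt_pm {φ : (Fin n → ℝ) → ℝ} (hφ : Mild φ) {p : ℝ × (Fin n → ℝ)}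
    (hp : -kap a < p.1) : ContinuousAt (fun q : ℝ × (Fin n → ℝ) => pm ρ φ q.1 q.2) p := by
  have h2 := h.continuousAt_mo (Mild.const 1) hp
  simp only [show ∀ s θ, mo ρ (fun _ => (1:ℝ)) s θ = zz ρ s θ from fun s θ => by simp [mo, zz]] at h2
  exact (h.continuousAt_mo hφ hp).div h2 (h.zz_pos hp.le _).ne'

lemma continuous_pm {φ : (Fin n → ℝ) → ℝ} (hφ : Mild φ) {s : ℝ} (hs : -kap a < s) :
    Continuous fun θ => pm ρ φ s θ :=
  continuous_iff_continuousAt.2 fun θ =>
    ContinuousAt.comp (f := fun θ : Fin n → ℝ => (s, θ)) (g := fun q : ℝ × (Fin n → ℝ) => pm ρ φ q.1 q.2)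
      (h.continuousAt_pm hφ (p := (s, θ)) hs) (Continuous.prodMk_right s).continuousAt

lemma continuous_zz {s : ℝ} (hs : -kap a < s) : Continuous fun θ => zz ρ s θ :=
  continuous_iff_continuousAt.2 fun θ => by
    have := ContinuousAt.comp (f := fun θ : Fin n → ℝ => (s, θ))
      (g := fun q : ℝ × (Fin n → ℝ) => mo ρ (fun _ => (1:ℝ)) q.1 q.2)
      (h.continuousAt_mo (Mild.const 1) (p := (s, θ)) hs) (Continuous.prodMk_right s).continuousAt
    simpa [mo, zz, comp_def] using this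

/-! ### Elementary algebra of means -/

lemma pm_add {φ ψ : (Fin n → ℝ) → ℝ} (hφ : Mild φ) (hψ : Mild ψ) {s : ℝ} (hs : -kap a ≤ s)
    (θ : Fin n → ℝ) : pm ρ (fun x => φ x + ψ x) s θ = pm ρ φ s θ + pm ρ ψ s θ := by
  simp only [pm, mo, add_mul]
  rw [integral_add (h.integrable_mo hφ hs θ) (h.integrable_mo hψ hs θ), add_div]

lemma pm_sub {φ ψ : (Fin n → ℝ) → ℝ} (hφ : Mild φ) (hψ : Mild ψ) {s : ℝ} (hs : -kap a ≤ s)
    (θ : Fin n → ℝ) : pm ρ (fun x => φ x - ψ x) s θ = pm ρ φ s θ - pm ρ ψ s θ := by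
  simp only [pm, mo, sub_mul]
  rw [integral_sub (h.integrable_mo hφ hs θ) (h.integrable_mo hψ hs θ), sub_div]

lemma pm_sum {ι : Type*} (t : Finset ι) {φ : ι → (Fin n → ℝ) → ℝ} (hφ : ∀ i, Mild (φ i)) {s : ℝ}
    (hs : -kap a ≤ s) (θ : Fin n → ℝ) :
    pm ρ (fun x => ∑ i ∈ t, φ i x) s θ = ∑ i ∈ t, pm ρ (φ i) s θ := by
  simp only [pm, mo, Finset.sum_mul]
  rw [integral_finsetSum _ fun i _ => h.integrable_mo (hφ i) hs θ, Finset.sum_div]

lemma pm_const {s : ℝ} (hs : -kap a ≤ s) (θ : Fin n → ℝ) (r : ℝ) :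
    pm ρ (fun _ => r) s θ = r := by
  rw [pm, mo, integral_const_mul, mul_div_assoc, ← zz, div_self (h.zz_pos hs θ).ne', mul_one]

omit h in
lemma pm_const_mul (φ : (Fin n → ℝ) → ℝ) (s : ℝ) (θ : Fin n → ℝ) (r : ℝ) :
    pm ρ (fun x => r * φ x) s θ = r * pm ρ φ s θ := by
  simp only [pm, mo, mul_assoc, integral_const_mul, mul_div_assoc]

lemma pm_mono {φ ψ : (Fin n → ℝ) → ℝ} (hφ : Mild φ) (hψ : Mild ψ) {s : ℝ} (hs : -kap a ≤ s)
    (θ : Fin n → ℝ) (hle : ∀ x, φ x ≤ ψ x) : pm ρ φ s θ ≤ pm ρ ψ s θ :=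
  div_le_div_of_nonneg_right (integral_mono (h.integrable_mo hφ hs θ) (h.integrable_mo hψ hs θ)
    fun x => mul_le_mul_of_nonneg_right (hle x) (h.wt_nonneg s θ x)) (h.zz_pos hs θ).le

lemma pm_nonneg {φ : (Fin n → ℝ) → ℝ} (hφ : ∀ x, 0 ≤ φ x) {s : ℝ} (hs : -kap a ≤ s)
    (θ : Fin n → ℝ) : 0 ≤ pm ρ φ s θ :=
  div_nonneg (integral_nonneg fun x => mul_nonneg (hφ x) (h.wt_nonneg s θ x)) (h.zz_pos hs θ).le

lemma abs_pm_le {φ ψ : (Fin n → ℝ) → ℝ} (hφ : Mild φ) (hψ : Mild ψ) {s : ℝ} (hs : -kap a ≤ s)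
    (θ : Fin n → ℝ) (hle : ∀ x, |φ x| ≤ ψ x) : |pm ρ φ s θ| ≤ pm ρ ψ s θ := by
  rw [abs_le]
  refine ⟨?_, h.pm_mono hφ hψ hs θ fun x => (le_abs_self _).trans (hle x)⟩
  have := h.pm_mono (hψ.const_mul (-1)) hφ hs θ fun x => by linarith [(abs_le.1 (hle x)).1]
  rw [pm_const_mul] at this
  linarith

/-! ### Moments -/

lemma sq_dir_le {v : Fin n → ℝ} : ∫ x, dot v x ^ 2 * ρ x ≤ a ^ 2 * sumSq v := by
  rcases (sumSq_nonneg v).eq_or_lt with h0 | h0
  · have : v = 0 := funext fun i => pow_eq_zero_iff (n := 2) (by norm_num) |>.1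
      (le_antisymm (by linarith [sq_le_sumSq v i]) (sq_nonneg _))
    subst this
    rw [← h0]; simp [dot]
  set q := Real.sqrt (sumSq v)
  have hq : 0 < q := Real.sqrt_pos.2 h0
  have hq2 : q ^ 2 = sumSq v := Real.sq_sqrt h0.le
  set w : Fin n → ℝ := fun i => v i / q with hw
  have hw1 : sumSq w = 1 := by
    simp only [sumSq, hw, div_pow, ← Finset.sum_div]
    rw [hq2]; exact div_self h0.ne'
  obtain ⟨hi, hle⟩ := h.dir w hw1
  have ha := h.a_pos
  have hint : Integrable fun x => a ^ 2 * sumSq v * (Real.exp ((∑ i, w i * x i) ^ 2 / a ^ 2) * ρ x - ρ x) :=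
    (hi.sub h.int).const_mul _
  refine (integral_mono_of_nonneg (Eventually.of_forall fun x => mul_nonneg (sq_nonneg _) (h.nonneg x))
    hint (Eventually.of_forall fun x => ?_)).trans ?_
  · show dot v x ^ 2 * ρ x ≤ _
    have e : dot v x = q * ∑ i, w i * x i := by
      rw [Finset.mul_sum]
      exact Finset.sum_congr rfl fun i _ => by simp only [hw]; field_simp
    show dot v x ^ 2 * ρ x ≤ a ^ 2 * sumSq v * _
    rw [e, mul_pow, hq2, ← sub_one_mul, ← mul_assoc]
    refine mul_le_mul_of_nonneg_right ?_ (h.nonneg x)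
    rw [mul_comm (a ^ 2), mul_assoc]
    refine mul_le_mul_of_nonneg_left ?_ h0.le
    set y := ∑ i, w i * x i
    have := Real.add_one_le_exp (y ^ 2 / a ^ 2)
    calc y ^ 2 = a ^ 2 * (y ^ 2 / a ^ 2) := by field_simp
      _ ≤ _ := mul_le_mul_of_nonneg_left (by linarith) (sq_nonneg a)
  · rw [integral_const_mul, integral_sub hi h.int, h.one]
    exact mul_le_of_le_one_right (by positivity) (by linarith)

lemma sumSq_moment : Integrable (fun x => sumSq x * ρ x) ∧ ∫ x, sumSq x * ρ x ≤ n * a ^ 2 := by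
  have hi : ∀ i, Integrable fun x => x i ^ 2 * ρ x := fun i => by
    have e : ∀ x : Fin n → ℝ, wt ρ 0 0 x = ρ x := fun x => by simp [wt, dot]
    simpa [e] using h.integrable_mo ((Mild.coord i).pow 2) (s := 0) (by linarith [h.kap_pos]) 0
  have e : (fun x => sumSq x * ρ x) = fun x => ∑ i, x i ^ 2 * ρ x := by
    funext x; rw [sumSq, Finset.sum_mul]
  rw [e]
  refine ⟨integrable_finsetSum _ fun i _ => hi i, ?_⟩
  rw [integral_finsetSum _ fun i _ => hi i]
  refine (Finset.sum_le_sum fun i _ => ?_).trans (le_of_eq (by simp : ∑ _i : Fin n, a ^ 2 = n * a ^ 2))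
  have := h.sq_dir_le (v := Pi.single i (1:ℝ))
  simpa [dot_single, sumSq, Pi.single_apply] using this

/-- Jensen's lower bound for the normalising constant. -/
lemma zz_lower {s : ℝ} (hs : 0 ≤ s) (θ : Fin n → ℝ) :
    Real.exp (-(s / 2 * (n * a ^ 2))) ≤ zz ρ s θ := by
  have hk : -kap a ≤ s := by linarith [h.kap_pos]
  obtain ⟨hi2, hle2⟩ := h.sumSq_moment
  set m := -(s / 2 * ∫ x, sumSq x * ρ x)
  have hi1 : Integrable fun x => dot θ x * ρ x := by
    simp only [dot, Finset.sum_mul, mul_assoc]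
    exact integrable_finsetSum _ fun i _ => (h.coord_single i).const_mul (θ i)
  have i1 : Integrable fun x => Real.exp m * (dot θ x * ρ x) := hi1.const_mul _
  have i2 : Integrable fun x => Real.exp m * (s / 2) * (sumSq x * ρ x) := hi2.const_mul _
  have i3 : Integrable fun x => Real.exp m * (1 - m) * ρ x := h.int.const_mul _
  have i12 : Integrable fun x => Real.exp m * (dot θ x * ρ x) - Real.exp m * (s / 2) * (sumSq x * ρ x) :=
    i1.sub i2
  have key : ∫ x, (Real.exp m * (dot θ x * ρ x) - Real.exp m * (s / 2) * (sumSq x * ρ x)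
      + Real.exp m * (1 - m) * ρ x) ≤ zz ρ s θ := by
    refine integral_mono (i12.add i3) (h.integrable_wt hk θ) fun x => ?_
    rw [wt]
    have h1 := Real.add_one_le_exp (dot θ x - s / 2 * sumSq x - m)
    have h2 := mul_le_mul_of_nonneg_left h1 (Real.exp_pos m).le
    rw [← Real.exp_add, add_sub_cancel] at h2
    have h3 := mul_le_mul_of_nonneg_right h2 (h.nonneg x)
    linarith
  rw [integral_add i12 i3, integral_sub i1 i2, integral_const_mul, integral_const_mul,
    integral_const_mul, show ∫ x, dot θ x * ρ x = 0 from h.lin_zero θ, h.one] at key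
  refine le_trans (Real.exp_le_exp.2 (neg_le_neg (mul_le_mul_of_nonneg_left hle2 (by linarith)))) ?_
  have e : Real.exp m * 0 - Real.exp m * (s / 2) * (∫ x, sumSq x * ρ x) + Real.exp m * (1 - m) * 1
      = Real.exp m := by simp only [m]; ring
  linarith

lemma zz_upper {s : ℝ} (hs : 0 ≤ s) (θ : Fin n → ℝ) : zz ρ s θ ≤ Real.exp (a ^ 2 * sumSq θ) := by
  have hk : -kap a ≤ s := by linarith [h.kap_pos]
  have h1 := h.mgf_le θ
  simp only [← show ∀ x, dot θ x = ∑ i, θ i * x i from fun _ => rfl] at h1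
  have hm : Measurable fun x => Real.exp (dot θ x) * ρ x := by have := h.meas; fun_prop
  have h0 : ∀ x, 0 ≤ Real.exp (dot θ x) * ρ x := fun x => mul_nonneg (Real.exp_pos _).le (h.nonneg x)
  have hi : Integrable fun x => Real.exp (dot θ x) * ρ x :=
    (lintegral_ofReal_ne_top_iff_integrable hm.aestronglyMeasurable (Eventually.of_forall h0)).1
      (ne_top_of_le_ne_top ENNReal.ofReal_ne_top h1)
  refine (integral_mono (h.integrable_wt hk θ) hi fun x => ?_).trans ?_
  · exact mul_le_mul_of_nonneg_right (Real.exp_le_exp.2 (sub_le_self _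
      (mul_nonneg (by linarith) (sumSq_nonneg x)))) (h.nonneg x)
  · rw [integral_eq_lintegral_of_nonneg_ae (Eventually.of_forall h0) hm.aestronglyMeasurable]
    exact ENNReal.toReal_le_of_le_ofReal (Real.exp_pos _).le h1

omit h in
lemma sq_le_exp_shift {y L : ℝ} (hy : 0 ≤ y) (hL : 2 ≤ L) :
    y ^ 2 ≤ L ^ 2 * (1 + Real.exp (y - L)) := by
  rcases le_or_gt y L with hyL | hyL
  · nlinarith [mul_nonneg (sq_nonneg L) (Real.exp_pos (y - L)).le]
  · have h1 : y ^ 2 ≤ L ^ 2 * Real.exp (y - L) := by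
      have h2 := Real.add_one_le_exp ((y - L) / 2)
      have h3 : y ≤ L * Real.exp ((y - L) / 2) := by
        refine le_trans ?_ (mul_le_mul_of_nonneg_left h2 (by linarith))
        nlinarith
      calc y ^ 2 ≤ (L * Real.exp ((y - L) / 2)) ^ 2 := pow_le_pow_left₀ hy h3 2
        _ = _ := by rw [mul_pow, ← Real.exp_nat_mul]; push_cast; ring_nf
    nlinarith [sq_nonneg L]

/-- Fourth moments of the tilts grow polynomially. -/
lemma exists_moment_bound :
    ∃ C : ℝ, 0 ≤ C ∧ ∀ s θ, 0 ≤ s → s * a ^ 2 ≤ 1 →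
      pm ρ (fun x => (1 + sumSq x) ^ 2) s θ ≤ C * (1 + sumSq θ) ^ 2 := by
  have hk := h.kap_pos
  refine ⟨2 + 2 * (1 / (2 * kap a)) ^ 2 * (2 * (1 / (4 * kap a) + (n:ℝ) + n + 2) ^ 2), by positivity,
    fun s θ hs hsa => ?_⟩
  have hks : -kap a ≤ s := by linarith
  set L := sumSq θ / (4 * kap a) + ((n:ℝ) + n) + 2
  have hθ0 := sumSq_nonneg θ
  have hL0 : 2 ≤ L := by
    have : 0 ≤ sumSq θ / (4 * kap a) := div_nonneg hθ0 (by positivity)
    have : (0:ℝ) ≤ n := Nat.cast_nonneg n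
    simp only [L]; linarith
  set ψ := fun x : Fin n → ℝ => Real.exp (2 * kap a * sumSq x - L)
  have hint : Integrable fun x => ψ x * wt ρ s θ x := by
    refine ((h.integrable_exp_sq.1).const_mul (Real.exp (sumSq θ / (4 * kap a)) * Real.exp (-L))).mono'
      (((by fun_prop : Continuous ψ).measurable.mul (h.measurable_wt s θ)).aestronglyMeasurable)
      (Eventually.of_forall fun x => ?_)
    rw [Real.norm_eq_abs, abs_mul, abs_of_pos (Real.exp_pos _), abs_of_nonneg (h.wt_nonneg s θ x)]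
    refine (mul_le_mul_of_nonneg_left (h.wt_le hks θ x) (Real.exp_pos _).le).trans ?_
    simp only [sub_eq_add_neg, Real.exp_add]
    have : Real.exp (2 * kap a * sumSq x) * Real.exp (2 * kap a * sumSq x)
        ≤ Real.exp (8 * kap a * sumSq x) := by
      rw [← Real.exp_add]; exact Real.exp_le_exp.2 (by nlinarith [mul_nonneg hk.le (sumSq_nonneg x)])
    have := mul_le_mul_of_nonneg_right this (mul_nonneg (mul_nonneg (Real.exp_pos (sumSq θ / (4 * kap a))).le
      (Real.exp_pos (-L)).le) (h.nonneg x))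
    linarith
  have hψ : ∫ x, ψ x * wt ρ s θ x ≤ zz ρ s θ := by
    refine le_trans ?_ (h.zz_lower hs θ)
    refine (integral_mono hint ((h.integrable_exp_sq.1).const_mul
      (Real.exp (sumSq θ / (4 * kap a)) * Real.exp (-L))) fun x => ?_).trans ?_
    · refine (mul_le_mul_of_nonneg_left (h.wt_le hks θ x) (Real.exp_pos _).le).trans ?_
      simp only [sub_eq_add_neg, Real.exp_add]
      have : Real.exp (2 * kap a * sumSq x) * Real.exp (2 * kap a * sumSq x)
          ≤ Real.exp (8 * kap a * sumSq x) := by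
        rw [← Real.exp_add]; exact Real.exp_le_exp.2 (by nlinarith [mul_nonneg hk.le (sumSq_nonneg x)])
      have := mul_le_mul_of_nonneg_right this (mul_nonneg (mul_nonneg (Real.exp_pos (sumSq θ / (4 * kap a))).le
        (Real.exp_pos (-L)).le) (h.nonneg x))
      linarith
    · rw [integral_const_mul]
      refine (mul_le_mul_of_nonneg_left (h.integrable_exp_sq.2.trans ?_) (by positivity)).trans
        (?_ : _ * Real.exp n ≤ _)
      · calc Real.sqrt 2 ^ n ≤ Real.exp 1 ^ n := pow_le_pow_left₀ (Real.sqrt_nonneg 2)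
              (Real.sqrt_le_iff.2 ⟨(Real.exp_pos _).le,
                by nlinarith [Real.add_one_le_exp (1:ℝ)]⟩) n
          _ = _ := by rw [← Real.exp_nat_mul, mul_one]
      · rw [← Real.exp_add, ← Real.exp_add]
        refine Real.exp_le_exp.2 ?_
        have : s / 2 * (n * a ^ 2) ≤ n := by
          have := mul_le_mul_of_nonneg_left hsa (Nat.cast_nonneg n : (0:ℝ) ≤ n)
          nlinarith [mul_nonneg hs (sq_nonneg a), (Nat.cast_nonneg n : (0:ℝ) ≤ n)]
        simp only [L]; linarith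
  have hM : Mild fun x : Fin n → ℝ => (1 + sumSq x) ^ 2 := ((Mild.const 1).add Mild.sumSq').pow 2
  set K := 2 * (1 / (2 * kap a)) ^ 2
  have hpt : ∀ x : Fin n → ℝ, (1 + sumSq x) ^ 2 ≤ 2 + K * (L ^ 2 * (1 + ψ x)) := by
    intro x
    have h1 := sq_le_exp_shift (mul_nonneg (by positivity : 0 ≤ 2 * kap a) (sumSq_nonneg x)) hL0
    have h2 : sumSq x = 1 / (2 * kap a) * (2 * kap a * sumSq x) := by field_simp
    have h3 : (1 + sumSq x) ^ 2 ≤ 2 + 2 * sumSq x ^ 2 := by nlinarith [sq_nonneg (sumSq x - 1)]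
    refine h3.trans ?_
    rw [h2, mul_pow, ← mul_assoc]
    exact add_le_add le_rfl (mul_le_mul_of_nonneg_left h1 (by positivity))
  have hz := h.zz_pos hks θ
  have hmo : mo ρ (fun x => (1 + sumSq x) ^ 2) s θ ≤ (2 + K * L ^ 2 * 2) * zz ρ s θ := by
    have i0 := h.integrable_wt hks θ
    have iR : Integrable fun x => (2 + K * L ^ 2) * wt ρ s θ x + K * L ^ 2 * (ψ x * wt ρ s θ x) :=
      (i0.const_mul _).add (hint.const_mul _)
    refine (integral_mono (h.integrable_mo hM hks θ) iR fun x => ?_).trans ?_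
    · refine (mul_le_mul_of_nonneg_right (hpt x) (h.wt_nonneg s θ x)).trans (le_of_eq ?_)
      ring
    · rw [integral_add (i0.const_mul _) (hint.const_mul _), integral_const_mul, integral_const_mul, ← zz]
      have := mul_le_mul_of_nonneg_left hψ (show 0 ≤ K * L ^ 2 by positivity)
      linarith
  refine ((div_le_iff₀ hz).2 hmo).trans ?_
  have hL : L ≤ (1 / (4 * kap a) + (n:ℝ) + n + 2) * (1 + sumSq θ) := by
    have e : sumSq θ / (4 * kap a) = 1 / (4 * kap a) * sumSq θ := by ring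
    have h1 : 0 ≤ ((n:ℝ) + n + 2) * sumSq θ := by positivity
    have h2 : 0 ≤ 1 / (4 * kap a) := by positivity
    simp only [L, e]; linarith
  have h1 := pow_le_pow_left₀ (by linarith) hL 2
  rw [mul_pow] at h1
  have h2 : 1 ≤ (1 + sumSq θ) ^ 2 := one_le_pow₀ (by linarith)
  have h3 := mul_le_mul_of_nonneg_left h1 (show 0 ≤ K * 2 by positivity)
  linarith

end SubDensity

end Vale.Agent.P245
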