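import Mathlib
import Vale.Agent.P245.Cube.Tilt

/-!
Calculus with coordinate derivatives, and mollification.
-/

namespace Vale.Agent.P245

open MeasureTheory Set Filter Topology Function Finset
open scoped ContDiff Convolution

variable {n : ℕ}

/-- Partial derivative. -/
noncomputable def pd (i : Fin n) (f : (Fin n → ℝ) → ℝ) (x : Fin n → ℝ) : ℝ :=
  fderiv ℝ f x (Pi.single i 1)

variable {f g : (Fin n → ℝ) → ℝ}

lemma contDiff_pd (hf : ContDiff ℝ ∞ f) (i : Fin n) : ContDiff ℝ ∞ (pd i f) :=
  (hf.fderiv_right (by exact_mod_cast le_top)).clm_apply contDiff_const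

lemma continuous_pd (hf : ContDiff ℝ 1 f) (i : Fin n) : Continuous (pd i f) :=
  (hf.continuous_fderiv one_ne_zero).clm_apply continuous_const

lemma hasCompactSupport_pd (hf : HasCompactSupport f) (i : Fin n) : HasCompactSupport (pd i f) :=
  (hf.fderiv ℝ).comp_left (g := fun L : (Fin n → ℝ) →L[ℝ] ℝ => L (Pi.single i 1)) rfl

lemma pd_add (hf : Differentiable ℝ f) (hg : Differentiable ℝ g) (i : Fin n) (x : Fin n → ℝ) :
    pd i (fun y => f y + g y) x = pd i f x + pd i g x := by
  simp [pd, fderiv_fun_add (hf x) (hg x)]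

lemma pd_sub (hf : Differentiable ℝ f) (hg : Differentiable ℝ g) (i : Fin n) (x : Fin n → ℝ) :
    pd i (fun y => f y - g y) x = pd i f x - pd i g x := by
  simp [pd, fderiv_fun_sub (hf x) (hg x)]

lemma pd_const_mul (hf : Differentiable ℝ f) (r : ℝ) (i : Fin n) (x : Fin n → ℝ) :
    pd i (fun y => r * f y) x = r * pd i f x := by
  simp [pd, fderiv_const_mul (hf x)]

lemma pd_mul (hf : Differentiable ℝ f) (hg : Differentiable ℝ g) (i : Fin n) (x : Fin n → ℝ) :
    pd i (fun y => f y * g y) x = pd i f x * g x + f x * pd i g x := by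
  simp [pd, fderiv_fun_mul (hf x) (hg x)]; ring

lemma pd_exp (hf : Differentiable ℝ f) (i : Fin n) (x : Fin n → ℝ) :
    pd i (fun y => Real.exp (f y)) x = Real.exp (f x) * pd i f x := by
  simp [pd, fderiv_exp (hf x)]

lemma pd_neg (i : Fin n) (x : Fin n → ℝ) : pd i (fun y => -f y) x = -pd i f x := by
  simp [pd, fderiv_fun_neg]

lemma pd_sum {ι : Type*} (s : Finset ι) {F : ι → (Fin n → ℝ) → ℝ}
    (hF : ∀ j, Differentiable ℝ (F j)) (i : Fin n) (x : Fin n → ℝ) :
    pd i (fun y => ∑ j ∈ s, F j y) x = ∑ j ∈ s, pd i (F j) x := by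
  simp [pd, fderiv_fun_sum fun j _ => hF j x]

lemma pd_comm (hf : ContDiff ℝ ∞ f) (i j : Fin n) (x : Fin n → ℝ) :
    pd i (pd j f) x = pd j (pd i f) x := by
  have hd : DifferentiableAt ℝ (fderiv ℝ f) x :=
    ((hf.fderiv_right (m := ∞) (by exact_mod_cast le_top)).differentiable (by simp)) x
  have e : ∀ k l : Fin n, pd k (pd l f) x
      = fderiv ℝ (fderiv ℝ f) x (Pi.single k 1) (Pi.single l 1) := by
    intro k l
    show fderiv ℝ (fun y => fderiv ℝ f y (Pi.single l 1)) x (Pi.single k 1) = _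
    rw [fderiv_clm_apply hd (differentiableAt_const _)]
    simp
  rw [e, e]
  exact (hf.contDiffAt.isSymmSndFDerivAt (by simp; norm_cast)).eq _ _

lemma pd_hasDerivAt (hf : Differentiable ℝ f) (i : Fin n) (x : Fin n → ℝ) :
    HasDerivAt (fun t : ℝ => f (update x i t)) (pd i f x) (x i) := by
  have h1 : HasDerivAt (fun t : ℝ => update x i t) (Pi.single i 1 : Fin n → ℝ) (x i) :=
    hasDerivAt_update x i (x i)
  have h2 := (hf (update x i (x i))).hasFDerivAt.comp_hasDerivAt (x i) h1
  rw [update_eq_self] at h2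
  exact h2

lemma eq_zero_of_pd (x : Fin n → ℝ) (h : ∀ i, pd i f x = 0) : fderiv ℝ f x = 0 := by
  ext v
  have e : v = ∑ i, v i • (Pi.single i (1:ℝ) : Fin n → ℝ) := by
    funext j; simp [Finset.sum_apply, Pi.single_apply]
  rw [e, map_sum]
  simp only [map_smul, smul_eq_mul]
  simp only [pd] at h
  simp [h]

/-- Integration by parts. -/
lemma ibp_pd (hf : ContDiff ℝ 1 f) (hg : ContDiff ℝ 1 g) (hc : HasCompactSupport g) (i : Fin n) :
    ∫ x, f x * pd i g x = -∫ x, pd i f x * g x := by
  refine integral_mul_fderiv_eq_neg_fderiv_mul_of_integrable ?_ ?_ ?_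
    (fun x _ => hf.differentiable one_ne_zero x) (fun x _ => hg.differentiable one_ne_zero x)
  · exact ((continuous_pd hf i).mul hg.continuous).integrable_of_hasCompactSupport hc.mul_left
  · exact (hf.continuous.mul (continuous_pd hg i)).integrable_of_hasCompactSupport
      (hasCompactSupport_pd hc i).mul_left
  · exact (hf.continuous.mul hg.continuous).integrable_of_hasCompactSupport hc.mul_left

/-- Mollification. -/
noncomputable def cv (η k : (Fin n → ℝ) → ℝ) (x : Fin n → ℝ) : ℝ := ∫ y, η (x - y) * k y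

lemma cv_eq (η k : (Fin n → ℝ) → ℝ) :
    cv η k = (η ⋆[ContinuousLinearMap.lsmul ℝ ℝ, volume] k) := by
  funext x
  rw [convolution_eq_swap]
  rfl

variable {η k : (Fin n → ℝ) → ℝ}

lemma integrable_cv (hη : Continuous η) (hc : HasCompactSupport η) (hk : LocallyIntegrable k)
    (x : Fin n → ℝ) : Integrable fun y => η (x - y) * k y := by
  have := hk.integrable_smul_left_of_hasCompactSupport (g := fun y => η (x - y)) (by fun_prop)
    (hc.comp_homeomorph (Homeomorph.subLeft x))
  simpa using this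

lemma continuous_cv (hη : Continuous η) (hc : HasCompactSupport η) (hk : LocallyIntegrable k) :
    Continuous (cv η k) := by
  rw [cv_eq]
  exact hc.continuous_convolution_left _ hη hk

lemma contDiff_cv (hη : ContDiff ℝ ∞ η) (hc : HasCompactSupport η) (hk : LocallyIntegrable k) :
    ContDiff ℝ ∞ (cv η k) := by
  rw [cv_eq]
  exact hc.contDiff_convolution_left _ hη hk

lemma pd_cv (hη : ContDiff ℝ 1 η) (hc : HasCompactSupport η) (hk : LocallyIntegrable k) (i : Fin n)
    (x : Fin n → ℝ) : pd i (cv η k) x = cv (pd i η) k x := by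
  rw [pd, cv_eq, (hc.hasFDerivAt_convolution_left (ContinuousLinearMap.lsmul ℝ ℝ) hη hk x).fderiv]
  have hi : ConvolutionExistsAt (fderiv ℝ η) k x
      ((ContinuousLinearMap.lsmul ℝ ℝ : ℝ →L[ℝ] ℝ →L[ℝ] ℝ).precompL (Fin n → ℝ)) volume :=
    (hc.fderiv ℝ).convolutionExists_left _ (hη.continuous_fderiv one_ne_zero) hk x
  have hi' := hi.integrable_swap
  rw [convolution_eq_swap, ContinuousLinearMap.integral_apply hi']
  simp [cv, pd]

lemma cv_le_of_nonneg {k' : (Fin n → ℝ) → ℝ} (hη : Continuous η) (hc : HasCompactSupport η)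
    (h0 : ∀ x, 0 ≤ η x) (hk : LocallyIntegrable k) (hk' : LocallyIntegrable k')
    (x : Fin n → ℝ) (hle : ∀ y, η (x - y) ≠ 0 → k y ≤ k' y) : cv η k x ≤ cv η k' x := by
  refine integral_mono (integrable_cv hη hc hk x) (integrable_cv hη hc hk' x) fun y => ?_
  by_cases hy : η (x - y) = 0
  · simp [hy]
  · exact mul_le_mul_of_nonneg_left (hle y hy) (h0 _)

/-- A bump of radius `δ`. -/
noncomputable def bumpAt (n : ℕ) {δ : ℝ} (hδ : 0 < δ) : ContDiffBump (0 : Fin n → ℝ) :=
  ⟨δ / 2, δ, half_pos hδ, half_lt_self hδ⟩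

/-- The normalised bump of radius `1 / (k + 1)`. -/
noncomputable def moll (n k : ℕ) : (Fin n → ℝ) → ℝ :=
  (bumpAt n (Nat.one_div_pos_of_nat (α := ℝ) (n := k))).normed volume

lemma contDiff_moll (k : ℕ) : ContDiff ℝ ∞ (moll n k) := ContDiffBump.contDiff_normed _

lemma continuous_moll (k : ℕ) : Continuous (moll n k) := (contDiff_moll k).continuous

lemma hasCompactSupport_moll (k : ℕ) : HasCompactSupport (moll n k) :=
  ContDiffBump.hasCompactSupport_normed _

lemma moll_nonneg (k : ℕ) (x : Fin n → ℝ) : 0 ≤ moll n k x := ContDiffBump.nonneg_normed _ _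

lemma moll_neg (k : ℕ) (x : Fin n → ℝ) : moll n k (-x) = moll n k x := ContDiffBump.normed_neg _ _

lemma integral_moll (k : ℕ) : ∫ x, moll n k x = 1 := ContDiffBump.integral_normed _

lemma norm_le_of_moll_ne {k : ℕ} {x : Fin n → ℝ} (h : moll n k x ≠ 0) : ‖x‖ ≤ 1 / ((k:ℝ) + 1) := by
  have h2 : x ∈ Function.support (moll n k) := h
  rw [moll, ContDiffBump.support_normed_eq] at h2
  exact le_of_lt (by simpa [bumpAt] using h2)

lemma cv_moll_const (k : ℕ) (r : ℝ) (x : Fin n → ℝ) : cv (moll n k) (fun _ => r) x = r := by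
  rw [cv, integral_mul_const, integral_sub_left_eq_self (moll n k) volume x, integral_moll, one_mul]

lemma tendsto_cv_moll (hf : Continuous f) (x : Fin n → ℝ) :
    Tendsto (fun k => cv (moll n k) f x) atTop (𝓝 (f x)) := by
  simp only [cv_eq, moll]
  exact ContDiffBump.convolution_tendsto_right_of_continuous
    (by simpa [bumpAt] using tendsto_one_div_add_atTop_nhds_zero_nat (𝕜 := ℝ)) hf x

lemma ae_tendsto_cv_moll (hf : LocallyIntegrable f) :
    ∀ᵐ x, Tendsto (fun k => cv (moll n k) f x) atTop (𝓝 (f x)) := by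
  simp only [cv_eq, moll]
  exact ContDiffBump.ae_convolution_tendsto_right_of_locallyIntegrable (K := 2)
    (by simpa [bumpAt] using tendsto_one_div_add_atTop_nhds_zero_nat (𝕜 := ℝ))
    (Eventually.of_forall fun k => le_of_eq (by simp [bumpAt]; ring)) hf

/-- Moving a mollifier to the test function. -/
lemma integral_cv_mul (hη : Continuous η) (hc : HasCompactSupport η) (hk : Integrable k)
    (hf : Continuous f) (hfc : HasCompactSupport f) :
    ∫ x, cv η k x * f x = ∫ y, k y * ∫ x, η (x - y) * f x := by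
  obtain ⟨C, hC⟩ := hη.bounded_above_of_compact_support hc
  have hfi : Integrable f := hf.integrable_of_hasCompactSupport hfc
  have hint : Integrable (uncurry fun x y => η (x - y) * k y * f x)
      ((volume : Measure (Fin n → ℝ)).prod volume) := by
    have h2 : Integrable (fun z : (Fin n → ℝ) × (Fin n → ℝ) => f z.1 * k z.2)
        (volume.prod volume) := hfi.mul_prod hk
    refine (h2.bdd_mul (c := C) (f := fun z => η (z.1 - z.2)) (by fun_prop)
      (Eventually.of_forall fun z => hC _)).congr (Eventually.of_forall fun z => ?_)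
    show η (z.1 - z.2) * (f z.1 * k z.2) = η (z.1 - z.2) * k z.2 * f z.1
    ring
  simp only [cv, ← integral_mul_const, ← integral_const_mul]
  rw [integral_integral_swap hint]
  congr 1; funext y; congr 1; funext x; ring

lemma integral_cv (hη : Continuous η) (hc : HasCompactSupport η) (hk : Integrable k) :
    Integrable (cv η k) ∧ ∫ x, cv η k x = (∫ x, η x) * ∫ x, k x := by
  have hi := hη.integrable_of_hasCompactSupport hc (μ := volume)
  rw [cv_eq]
  refine ⟨hi.integrable_convolution _ hk, ?_⟩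
  rw [integral_convolution _ hi hk]
  rfl

end Vale.Agent.P245
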