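import Mathlib
import Vale.Agent.P245.Cube.Smooth

/-!
The Bochner identity, and density of the range of the generator for a smooth potential.
-/

namespace Vale.Agent.P245

open MeasureTheory Set Filter Topology Function Finset
open scoped ContDiff RealInnerProductSpace

/-- A smooth potential with convexity parameter `t`. -/
structure Smo (n : ℕ) (t : ℝ) where
  V : (Fin n → ℝ) → ℝ
  smooth : ContDiff ℝ ∞ V
  hess : ∀ x v, t * sumSq v ≤ ∑ i, ∑ j, v i * v j * pd i (pd j V) x
  one : ∫ x, Real.exp (-V x) = 1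
  second : Integrable fun x => sumSq x * Real.exp (-V x)

lemma hasCompactSupport_sq {n : ℕ} {f : (Fin n → ℝ) → ℝ} (hf : HasCompactSupport f) :
    HasCompactSupport fun x => f x ^ 2 :=
  hf.comp_left (g := fun r : ℝ => r ^ 2) (by simp)

namespace Smo

variable {n : ℕ} {t : ℝ} (S : Smo n t)

/-- The density. -/
noncomputable def p (x : Fin n → ℝ) : ℝ := Real.exp (-S.V x)

lemma p_pos (x : Fin n → ℝ) : 0 < S.p x := Real.exp_pos _

lemma contDiff_p : ContDiff ℝ ∞ S.p := S.smooth.neg.exp

lemma continuous_p : Continuous S.p := S.contDiff_p.continuous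

lemma pd_p (i : Fin n) (x : Fin n → ℝ) : pd i S.p x = -(pd i S.V x * S.p x) := by
  show pd i (fun y => Real.exp (-S.V y)) x = _
  rw [pd_exp (S.smooth.differentiable (by simp)).fun_neg, pd_neg, p]; ring

lemma integrable_p : Integrable S.p := Integrable.of_integral_ne_zero (by
  show ∫ x, Real.exp (-S.V x) ≠ 0
  rw [S.one]; norm_num)

/-- The probability measure. -/
noncomputable def μ : Measure (Fin n → ℝ) := volume.withDensity fun x => ENNReal.ofReal (S.p x)

instance : IsProbabilityMeasure S.μ := by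
  constructor
  rw [μ, withDensity_apply _ MeasurableSet.univ, Measure.restrict_univ,
    ← ofReal_integral_eq_lintegral_ofReal S.integrable_p (Eventually.of_forall fun x => (S.p_pos x).le),
    show ∫ x, S.p x = 1 from S.one, ENNReal.ofReal_one]

lemma integral_μ (g : (Fin n → ℝ) → ℝ) : ∫ x, g x ∂S.μ = ∫ x, S.p x * g x := by
  rw [μ, integral_withDensity_eq_integral_toReal_smul S.continuous_p.measurable.ennreal_ofReal
    (Eventually.of_forall fun x => ENNReal.ofReal_lt_top)]
  simp [ENNReal.toReal_ofReal (S.p_pos _).le]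

lemma integrable_μ_iff (g : (Fin n → ℝ) → ℝ) :
    Integrable g S.μ ↔ Integrable fun x => S.p x * g x := by
  rw [μ, integrable_withDensity_iff_integrable_smul' S.continuous_p.measurable.ennreal_ofReal
    (Eventually.of_forall fun x => ENNReal.ofReal_lt_top)]
  simp [ENNReal.toReal_ofReal (S.p_pos _).le]

lemma ae_μ_iff {P : (Fin n → ℝ) → Prop} : (∀ᵐ x ∂S.μ, P x) ↔ ∀ᵐ x, P x := by
  rw [μ, ae_withDensity_iff S.continuous_p.measurable.ennreal_ofReal]
  refine ⟨fun h => h.mono fun x hx => hx (by simp [S.p_pos x]), fun h => h.mono fun x hx _ => hx⟩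

/-- The generator. -/
noncomputable def gen (u : (Fin n → ℝ) → ℝ) (x : Fin n → ℝ) : ℝ :=
  ∑ i, (pd i (pd i u) x - pd i S.V x * pd i u x)

/-- Smooth compactly supported functions. -/
def IsTest (u : (Fin n → ℝ) → ℝ) : Prop := ContDiff ℝ ∞ u ∧ HasCompactSupport u

variable {S} {f g u : (Fin n → ℝ) → ℝ}

lemma IsTest.pd (hu : IsTest u) (i : Fin n) : IsTest (pd i u) :=
  ⟨contDiff_pd hu.1 i, hasCompactSupport_pd hu.2 i⟩

variable (S)

lemma contDiff_gen (hu : IsTest u) : ContDiff ℝ ∞ (S.gen u) := by
  unfold gen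
  exact ContDiff.sum fun i _ =>
    (contDiff_pd (contDiff_pd hu.1 i) i).sub ((contDiff_pd S.smooth i).mul (contDiff_pd hu.1 i))

lemma hasCompactSupport_gen (hu : IsTest u) : HasCompactSupport (S.gen u) := by
  refine HasCompactSupport.intro hu.2 fun x hx => ?_
  have h1 : ∀ i, pd i u x = 0 := fun i =>
    image_eq_zero_of_notMem_tsupport fun h => hx ((tsupport_fderiv_apply_subset ℝ _) h)
  have h2 : ∀ i, pd i (pd i u) x = 0 := fun i =>
    image_eq_zero_of_notMem_tsupport fun h =>
      hx ((tsupport_fderiv_apply_subset ℝ _) ((tsupport_fderiv_apply_subset ℝ _) h))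
  simp [gen, h1, h2]

lemma memLp_of_continuous (hf : Continuous f) (hc : HasCompactSupport f) : MemLp f 2 S.μ :=
  hf.memLp_of_hasCompactSupport hc

lemma gen_ibp (hf : ContDiff ℝ 1 f) (hu : IsTest u) :
    ∫ x, f x * S.gen u x ∂S.μ = -∑ i, ∫ x, pd i f x * pd i u x ∂S.μ := by
  have hd : ∀ i, Differentiable ℝ (pd i u) := fun i => (contDiff_pd hu.1 i).differentiable (by simp)
  have e1 : ∀ i x, pd i (fun y => pd i u y * S.p y) x
      = S.p x * (pd i (pd i u) x - pd i S.V x * pd i u x) := fun i x => by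
    rw [pd_mul (hd i) (S.contDiff_p.differentiable (by simp)), S.pd_p]; ring
  have hψ : ∀ i, ContDiff ℝ 1 fun y => pd i u y * S.p y := fun i =>
    ((contDiff_pd hu.1 i).mul S.contDiff_p).of_le (by simp)
  have hψc : ∀ i, HasCompactSupport fun y => pd i u y * S.p y := fun i =>
    (hasCompactSupport_pd hu.2 i).mul_right
  have hi : ∀ i, Integrable fun x => f x * pd i (fun y => pd i u y * S.p y) x := fun i =>
    (hf.continuous.mul (continuous_pd (hψ i) i)).integrable_of_hasCompactSupport
      (hasCompactSupport_pd (hψc i) i).mul_left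
  calc ∫ x, f x * S.gen u x ∂S.μ = ∫ x, ∑ i, f x * pd i (fun y => pd i u y * S.p y) x := by
        rw [S.integral_μ]; congr 1; funext x
        simp only [gen, e1, Finset.mul_sum]
        exact Finset.sum_congr rfl fun i _ => by ring
    _ = ∑ i, ∫ x, f x * pd i (fun y => pd i u y * S.p y) x := integral_finsetSum _ fun i _ => hi i
    _ = _ := by
        rw [← Finset.sum_neg_distrib]
        refine Finset.sum_congr rfl fun i _ => ?_
        rw [ibp_pd hf (hψ i) (hψc i) i, S.integral_μ]
        congr 2; funext x; ring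

lemma integral_gen (hu : IsTest u) : ∫ x, S.gen u x ∂S.μ = 0 := by
  have h := S.gen_ibp (f := fun _ => (1:ℝ)) contDiff_const hu
  simpa [pd] using h

lemma pd_gen (hu : IsTest u) (i : Fin n) (x : Fin n → ℝ) :
    pd i (S.gen u) x = S.gen (pd i u) x - ∑ j, pd i (pd j S.V) x * pd j u x := by
  have d2 : ∀ j, Differentiable ℝ (pd j (pd j u)) := fun j =>
    (contDiff_pd (contDiff_pd hu.1 j) j).differentiable (by simp)
  have d1 : ∀ j, Differentiable ℝ (pd j u) := fun j => (contDiff_pd hu.1 j).differentiable (by simp)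
  have dV : ∀ j, Differentiable ℝ (pd j S.V) := fun j =>
    (contDiff_pd S.smooth j).differentiable (by simp)
  show pd i (fun y => ∑ j, (pd j (pd j u) y - pd j S.V y * pd j u y)) x = _
  rw [pd_sum _ (fun j => (d2 j).fun_sub ((dV j).fun_mul (d1 j))), gen, ← Finset.sum_sub_distrib]
  refine Finset.sum_congr rfl fun j _ => ?_
  rw [pd_sub (d2 j) ((dV j).fun_mul (d1 j)), pd_mul (dV j) (d1 j)]
  have h1 : pd i (pd j u) = pd j (pd i u) := funext fun y => pd_comm hu.1 i j y
  rw [pd_comm (contDiff_pd hu.1 j) i j, h1]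
  ring

/-- The Bochner inequality. -/
lemma bochner (hu : IsTest u) :
    (∑ i, ∫ x, (∑ j, pd j (pd i u) x ^ 2) ∂S.μ) + t * ∫ x, (∑ i, pd i u x ^ 2) ∂S.μ
      ≤ ∫ x, S.gen u x ^ 2 ∂S.μ := by
  have hg := S.contDiff_gen hu
  have hci : ∀ {F : (Fin n → ℝ) → ℝ}, Continuous F → HasCompactSupport F → Integrable F S.μ :=
    fun {F} hF hFc => hF.integrable_of_hasCompactSupport hFc
  have c1 : ∀ i, Continuous (pd i u) := fun i => (contDiff_pd hu.1 i).continuous
  have c2 : ∀ i j, Continuous (pd i (pd j u)) := fun i j =>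
    (contDiff_pd (contDiff_pd hu.1 j) i).continuous
  have cV : ∀ i j, Continuous (pd i (pd j S.V)) := fun i j =>
    (contDiff_pd (contDiff_pd S.smooth j) i).continuous
  have iA : ∀ i, Integrable (fun x => S.gen (pd i u) x * pd i u x) S.μ := fun i =>
    hci ((S.contDiff_gen (hu.pd i)).continuous.mul (c1 i)) (hasCompactSupport_pd hu.2 i).mul_left
  have iB : ∀ i, Integrable (fun x => (∑ j, pd i (pd j S.V) x * pd j u x) * pd i u x) S.μ := fun i =>
    hci (by fun_prop) (hasCompactSupport_pd hu.2 i).mul_left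
  have e1 : ∫ x, S.gen u x ^ 2 ∂S.μ
      = (∑ i, -∫ x, S.gen (pd i u) x * pd i u x ∂S.μ)
        + ∑ i, ∫ x, (∑ j, pd i (pd j S.V) x * pd j u x) * pd i u x ∂S.μ := by
    simp only [sq]
    rw [S.gen_ibp (hg.of_le (by simp)) hu, ← Finset.sum_neg_distrib, ← Finset.sum_add_distrib]
    refine Finset.sum_congr rfl fun i _ => ?_
    simp only [S.pd_gen hu, sub_mul]
    rw [integral_sub (iA i) (iB i)]
    ring
  have e2 : ∀ i, -∫ x, S.gen (pd i u) x * pd i u x ∂S.μ = ∫ x, (∑ j, pd j (pd i u) x ^ 2) ∂S.μ := by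
    intro i
    simp only [mul_comm (S.gen (pd i u) _)]
    rw [S.gen_ibp ((contDiff_pd hu.1 i).of_le (by simp)) (hu.pd i), neg_neg,
      integral_finsetSum _ fun j _ => hci (by fun_prop)
        (hasCompactSupport_sq (hasCompactSupport_pd (hu.pd i).2 j))]
    simp [sq]
  have e3 : t * ∫ x, (∑ i, pd i u x ^ 2) ∂S.μ
      ≤ ∑ i, ∫ x, (∑ j, pd i (pd j S.V) x * pd j u x) * pd i u x ∂S.μ := by
    rw [← integral_const_mul, ← integral_finsetSum _ fun i _ => iB i]
    refine integral_mono ?_ (integrable_finsetSum _ fun i _ => iB i) fun x => ?_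
    · refine (integrable_finsetSum _ fun i _ => hci (by fun_prop) ?_).const_mul _
      exact hasCompactSupport_sq (hasCompactSupport_pd hu.2 i)
    · refine (S.hess x fun i => pd i u x).trans (le_of_eq ?_)
      simp only [Finset.sum_mul]
      exact Finset.sum_congr rfl fun i _ => Finset.sum_congr rfl fun j _ => by ring
  rw [e1, Finset.sum_congr rfl fun i _ => e2 i]
  linarith

lemma cs (hf : MemLp f 2 S.μ) (hg : MemLp g 2 S.μ) :
    (∫ x, f x * g x ∂S.μ) ^ 2 ≤ (∫ x, f x ^ 2 ∂S.μ) * ∫ x, g x ^ 2 ∂S.μ := by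
  have i1 := hf.integrable_sq
  have i2 := hg.integrable_sq
  have i3 : Integrable (fun x => f x * g x) S.μ := hf.integrable_mul hg
  have key : ∀ r : ℝ, 0 ≤ (∫ x, g x ^ 2 ∂S.μ) * (r * r) + (2 * ∫ x, f x * g x ∂S.μ) * r
      + ∫ x, f x ^ 2 ∂S.μ := by
    intro r
    have h0 : 0 ≤ ∫ x, ((r * r) * g x ^ 2 + 2 * r * (f x * g x) + f x ^ 2) ∂S.μ :=
      integral_nonneg fun x => by
        show (0:ℝ) ≤ _
        nlinarith [sq_nonneg (r * g x + f x)]
    have j1 : Integrable (fun x => r * r * g x ^ 2) S.μ := i2.const_mul _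
    have j2 : Integrable (fun x => 2 * r * (f x * g x)) S.μ := i3.const_mul _
    have j12 : Integrable (fun x => r * r * g x ^ 2 + 2 * r * (f x * g x)) S.μ := j1.add j2
    rw [integral_add j12 i1, integral_add j1 j2, integral_const_mul, integral_const_mul] at h0
    linarith
  have := discrim_le_zero key
  unfold discrim at this
  nlinarith

/-! ### Density of the range of the generator -/

lemma locallyIntegrable_of_mul_p {k : (Fin n → ℝ) → ℝ} (hk : Integrable fun x => S.p x * k x) :
    LocallyIntegrable k := by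
  have h := hk.locallyIntegrable
  have : LocallyIntegrable fun x => (Real.exp (S.V x)) • (S.p x * k x) :=
    locallyIntegrableOn_univ.1 ((h.locallyIntegrableOn univ).continuousOn_smul isOpen_univ.isLocallyClosed
      (S.smooth.continuous.rexp).continuousOn)
  refine this.congr (Eventually.of_forall fun x => ?_)
  show Real.exp (S.V x) * (S.p x * k x) = k x
  rw [← mul_assoc, p, ← Real.exp_add, add_neg_cancel, Real.exp_zero, one_mul]

section Reg

variable (hgm : Measurable g) (hg2 : MemLp g 2 S.μ)
  (horth : ∀ u, IsTest u → ∫ x, g x * S.gen u x ∂S.μ = 0)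

include hg2

lemma integrable_sq_mul : Integrable fun x => S.p x * g x ^ 2 :=
  (S.integrable_μ_iff _).1 hg2.integrable_sq

lemma integrable_mul_p : Integrable fun x => S.p x * g x :=
  (S.integrable_μ_iff _).1 (hg2.integrable (by norm_num))

lemma locInt_drift (i : Fin n) : LocallyIntegrable fun x => S.p x * g x * pd i S.V x := by
  have := locallyIntegrableOn_univ.1 (((S.integrable_mul_p hg2).locallyIntegrable.locallyIntegrableOn
    univ).continuousOn_smul isOpen_univ.isLocallyClosed (contDiff_pd S.smooth i).continuous.continuousOn)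
  simpa [mul_comm] using this

lemma cv_sq_le {η : (Fin n → ℝ) → ℝ} (hη : Continuous η) (hc : HasCompactSupport η)
    (h0 : ∀ x, 0 ≤ η x) (x : Fin n → ℝ) :
    cv η (fun y => |S.p y * g y|) x ^ 2 ≤ cv η (fun y => S.p y * g y ^ 2) x * cv η S.p x := by
  have i1 := integrable_cv hη hc (S.integrable_sq_mul hg2).locallyIntegrable x
  have i2 := integrable_cv hη hc S.integrable_p.locallyIntegrable x
  have i3 := integrable_cv hη hc (S.integrable_mul_p hg2).abs.locallyIntegrable x
  have key : ∀ r : ℝ, 0 ≤ cv η (fun y => S.p y * g y ^ 2) x * (r * r)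
      + (-2 * cv η (fun y => |S.p y * g y|) x) * r + cv η S.p x := by
    intro r
    have h : 0 ≤ ∫ y, (r * r * (η (x - y) * (S.p y * g y ^ 2))
        + -2 * r * (η (x - y) * |S.p y * g y|) + η (x - y) * S.p y) := by
      refine integral_nonneg fun y => ?_
      show (0:ℝ) ≤ _
      rw [abs_mul, abs_of_pos (S.p_pos y)]
      have := mul_nonneg (mul_nonneg (h0 (x - y)) (S.p_pos y).le) (sq_nonneg (r * |g y| - 1))
      rw [← sq_abs (g y)]
      linarith
    have j1 : Integrable fun y => r * r * (η (x - y) * (S.p y * g y ^ 2)) := i1.const_mul _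
    have j2 : Integrable fun y => -2 * r * (η (x - y) * |S.p y * g y|) := i3.const_mul _
    have j12 : Integrable fun y => r * r * (η (x - y) * (S.p y * g y ^ 2))
        + -2 * r * (η (x - y) * |S.p y * g y|) := j1.add j2
    rw [integral_add j12 i2, integral_add j1 j2, integral_const_mul, integral_const_mul] at h
    simp only [cv] at h ⊢
    linarith
  have := discrim_le_zero key
  unfold discrim at this
  nlinarith

/-- The energy of the mollified density on a ball. -/
lemma energy_bound (i0 : Fin n) {χ : (Fin n → ℝ) → ℝ} (hχ : ContDiff ℝ ∞ χ) (hχc : HasCompactSupport χ)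
    (hχ1 : ∀ x, |χ x| ≤ 1) {D : ℝ} (hD : ∀ i x, |pd i χ x| ≤ D) (k : ℕ) {om : ℝ}
    (hom : ∀ x ∈ tsupport χ, ∀ y : Fin n → ℝ, ‖y - x‖ ≤ 1 / ((k:ℝ) + 1) →
      (∀ i, |pd i S.V x - pd i S.V y| ≤ om) ∧ S.p y ≤ 2 * S.p x)
    (horth : ∀ u, IsTest u → ∫ x, g x * S.gen u x ∂S.μ = 0) :
    ∫ x, S.p x * χ x ^ 2 *
        pd i0 (fun z => cv (moll n k) (fun y => S.p y * g y) z * Real.exp (S.V z)) x ^ 2
      ≤ 20 * n * (D ^ 2 + om ^ 2) * ∫ x, S.p x * g x ^ 2 := by
  set η := moll n k with hηdef
  have hη := contDiff_moll (n := n) k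
  have hηc := hasCompactSupport_moll (n := n) k
  set h := fun y => S.p y * g y with hh
  set H := cv η h with hH
  set K := fun i => cv η fun y => S.p y * g y * pd i S.V y with hK
  have hhi := S.integrable_mul_p hg2
  have hHs : ContDiff ℝ ∞ H := contDiff_cv hη hηc hhi.locallyIntegrable
  have hKs : ∀ i, ContDiff ℝ ∞ (K i) := fun i => contDiff_cv hη hηc (S.locInt_drift hg2 i)
  set φ := fun z => H z * Real.exp (S.V z) with hφ
  have hφs : ContDiff ℝ ∞ φ := hHs.mul S.smooth.exp
  set G2 := cv η fun y => S.p y * g y ^ 2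
  set P := cv η S.p
  -- the equation
  have heq : ∀ x, ∑ i, (pd i (pd i H) x + pd i (K i) x) = 0 := by
    intro x
    have hu : IsTest fun y => η (x - y) :=
      ⟨hη.comp (contDiff_const.sub contDiff_id), hηc.comp_homeomorph (Homeomorph.subLeft x)⟩
    have d1 : ∀ (F : (Fin n → ℝ) → ℝ), Differentiable ℝ F → ∀ i y,
        pd i (fun z => F (x - z)) y = -pd i F (x - y) := by
      intro F hF i y
      have e : (fun z : Fin n → ℝ => F (x - z)) = F ∘ fun z => x - z := rfl
      have hcomp := (hF (x - y)).hasFDerivAt.comp y ((hasFDerivAt_id y).const_sub x)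
      rw [pd, e, hcomp.fderiv]
      simp [pd]
    have hd := hη.differentiable (by simp)
    have e1 : ∀ i, pd i (fun y => η (x - y)) = fun y => -pd i η (x - y) := fun i => funext (d1 η hd i)
    have e2 : ∀ i y, pd i (pd i fun y => η (x - y)) y = pd i (pd i η) (x - y) := by
      intro i y
      rw [e1, pd_neg, d1 _ ((contDiff_pd hη i).differentiable (by simp)), neg_neg]
    have hO := horth _ hu
    rw [S.integral_μ] at hO
    have i1 : ∀ i, Integrable fun y => pd i (pd i η) (x - y) * h y := fun i =>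
      integrable_cv (contDiff_pd (contDiff_pd hη i) i).continuous
        (hasCompactSupport_pd (hasCompactSupport_pd hηc i) i) hhi.locallyIntegrable x
    have i2 : ∀ i, Integrable fun y => pd i η (x - y) * (S.p y * g y * pd i S.V y) := fun i =>
      integrable_cv (contDiff_pd hη i).continuous (hasCompactSupport_pd hηc i) (S.locInt_drift hg2 i) x
    have e3 : ∀ y, S.p y * (g y * S.gen (fun y => η (x - y)) y)
        = ∑ i, (pd i (pd i η) (x - y) * h y + pd i η (x - y) * (S.p y * g y * pd i S.V y)) := by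
      intro y
      simp only [gen, hh, Finset.mul_sum, e2, fun i => congrFun (e1 i) y]
      exact Finset.sum_congr rfl fun i _ => by ring
    simp only [e3] at hO
    rw [integral_finsetSum _ fun i _ => (i1 i).fun_add (i2 i),
      Finset.sum_congr rfl fun i _ => integral_add (i1 i) (i2 i)] at hO
    rw [← hO]
    refine Finset.sum_congr rfl fun i _ => congrArg₂ (· + ·) ?_ ?_
    · rw [show pd i H = cv (pd i η) h from
        funext fun z => pd_cv (hη.of_le (by simp)) hηc hhi.locallyIntegrable i z]
      exact pd_cv ((contDiff_pd hη i).of_le (by simp)) (hasCompactSupport_pd hηc i)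
        hhi.locallyIntegrable i x
    · exact pd_cv (hη.of_le (by simp)) hηc (S.locInt_drift hg2 i) i x
  -- test against `φ χ²`
  set ψ := fun z => φ z * χ z ^ 2 with hψ
  have hψs : ContDiff ℝ ∞ ψ := hφs.mul (hχ.pow 2)
  have hψc : HasCompactSupport ψ :=
    (hasCompactSupport_sq hχc).mul_left
  have one_le : (1 : WithTop ℕ∞) ≤ ∞ := by simp
  set J := fun i z => pd i H z + K i z with hJ
  have hJs : ∀ i, ContDiff ℝ ∞ (J i) := fun i => (contDiff_pd hHs i).add (hKs i)
  have h0 : ∑ i, ∫ x, J i x * pd i ψ x = 0 := by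
    have e : ∀ i, ∫ x, J i x * pd i ψ x = -∫ x, pd i (J i) x * ψ x := fun i =>
      ibp_pd ((hJs i).of_le one_le) (hψs.of_le one_le) hψc i
    rw [Finset.sum_congr rfl fun i _ => e i, Finset.sum_neg_distrib, ← integral_finsetSum _ fun i _ =>
      ((contDiff_pd (hJs i) i).continuous.fun_mul hψs.continuous).integrable_of_hasCompactSupport
        hψc.mul_left]
    have : ∀ x, ∑ i, pd i (J i) x * ψ x = 0 := fun x => by
      rw [← Finset.sum_mul]
      simp only [hJ, pd_add ((contDiff_pd hHs _).differentiable (by simp)) ((hKs _).differentiable (by simp)),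
        heq, zero_mul]
    simp [this]
  set r := fun i z => H z * pd i S.V z - K i z with hr
  have hHφ : ∀ z, H z = S.p z * φ z := fun z => by
    simp only [hφ, p]; rw [mul_left_comm, ← Real.exp_add, neg_add_cancel, Real.exp_zero, mul_one]
  have eJ : ∀ i z, J i z = S.p z * pd i φ z - r i z := by
    intro i z
    have : pd i H z = pd i (fun y => S.p y * φ y) z := by
      rw [show H = fun y => S.p y * φ y from funext hHφ]
    simp only [hJ, hr, this, pd_mul (S.contDiff_p.differentiable (by simp)) (hφs.differentiable (by simp)),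
      S.pd_p, hHφ]
    ring
  have eψ : ∀ i z, pd i ψ z = χ z ^ 2 * pd i φ z + 2 * φ z * χ z * pd i χ z := by
    intro i z
    have hχd := hχ.differentiable (by simp)
    simp only [hψ, sq, pd_mul (hφs.differentiable (by simp)) (hχd.fun_mul hχd), pd_mul hχd hχd]
    ring
  have hpt : ∀ i z, 1 / 2 * (S.p z * χ z ^ 2 * pd i φ z ^ 2)
      ≤ J i z * pd i ψ z + 5 * (S.p z * φ z ^ 2 * pd i χ z ^ 2) + 2 * (χ z ^ 2 * r i z ^ 2 / S.p z) := by
    intro i z
    rw [eJ, eψ]
    have hp := S.p_pos z
    generalize S.p z = q at hp ⊢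
    generalize pd i φ z = u
    generalize φ z = w
    generalize pd i χ z = d
    generalize χ z = c
    generalize r i z = s
    have e : c ^ 2 * s ^ 2 / q = (c * s) ^ 2 / q := by rw [mul_pow]
    rw [e]
    set m := c * s / q with hm
    have hm2 : (c * s) ^ 2 / q = q * m ^ 2 := by rw [hm]; field_simp
    have hs : c * s = q * m := by rw [hm]; field_simp
    rw [hm2]
    have k1 := mul_nonneg hp.le (sq_nonneg (c * u / 2 + 2 * w * d))
    have k2 := mul_nonneg hp.le (sq_nonneg (c * u / 2 - m))
    have k3 := mul_nonneg hp.le (sq_nonneg (w * d - m))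
    have k4 : s * (c ^ 2 * u) = q * m * (c * u) := by rw [← hs]; ring
    have k5 : s * (2 * w * c * d) = 2 * q * m * (w * d) := by rw [mul_assoc 2 q, ← hs]; ring
    linarith
  have hcs : ∀ z, cv η (fun y => |S.p y * g y|) z ^ 2 ≤ G2 z * P z :=
    S.cv_sq_le hg2 hη.continuous hηc (moll_nonneg k)
  have hHabs : ∀ z, |H z| ≤ cv η (fun y => |S.p y * g y|) z := fun z => by
    refine abs_integral_le_integral_abs.trans (le_of_eq (integral_congr_ae (Eventually.of_forall fun y => ?_)))
    show |η (z - y) * h y| = _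
    rw [abs_mul, abs_of_nonneg (moll_nonneg k _)]
  have hG0 : ∀ z, 0 ≤ G2 z := fun z => integral_nonneg fun y =>
    mul_nonneg (moll_nonneg k _) (mul_nonneg (S.p_pos y).le (sq_nonneg _))
  have hP : ∀ z ∈ tsupport χ, P z ≤ 2 * S.p z := fun z hz => by
    refine (cv_le_of_nonneg hη.continuous hηc (moll_nonneg k) S.integrable_p.locallyIntegrable
      (k' := fun _ => 2 * S.p z) continuous_const.locallyIntegrable z fun y hy => (hom z hz y ?_).2).trans
      (le_of_eq (cv_moll_const k _ z))
    rw [norm_sub_rev]; exact norm_le_of_moll_ne hy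
  have hrb : ∀ i, ∀ z ∈ tsupport χ, r i z ^ 2 ≤ om ^ 2 * (G2 z * P z) := by
    intro i z hz
    refine le_trans ?_ (mul_le_mul_of_nonneg_left (hcs z) (sq_nonneg om))
    rw [← mul_pow, ← sq_abs]
    refine pow_le_pow_left₀ (abs_nonneg _) ?_ 2
    have hI1 := (integrable_cv hη.continuous hηc hhi.locallyIntegrable z).mul_const (pd i S.V z)
    have hI2 := integrable_cv hη.continuous hηc (S.locInt_drift hg2 i) z
    simp only [hr, hH, hK, cv]
    rw [← integral_mul_const, ← integral_sub hI1 hI2, ← integral_const_mul]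
    refine abs_integral_le_integral_abs.trans (integral_mono (hI1.sub hI2).abs
      ((integrable_cv hη.continuous hηc hhi.abs.locallyIntegrable z).const_mul om) fun y => ?_)
    show |η (z - y) * h y * pd i S.V z - η (z - y) * (S.p y * g y * pd i S.V y)| ≤ om * (η (z - y) * |h y|)
    rw [show η (z - y) * h y * pd i S.V z - η (z - y) * (S.p y * g y * pd i S.V y)
      = η (z - y) * h y * (pd i S.V z - pd i S.V y) by simp only [hh]; ring,
      abs_mul, abs_mul, abs_of_nonneg (moll_nonneg k _), mul_comm om]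
    by_cases hy : η (z - y) = 0
    · simp [hηdef] at hy; simp [hηdef, hy]
    · exact mul_le_mul_of_nonneg_left ((hom z hz y (by rw [norm_sub_rev]; exact norm_le_of_moll_ne hy)).1 i)
        (mul_nonneg (moll_nonneg k _) (abs_nonneg _))
  have hG2i := integral_cv hη.continuous hηc (S.integrable_sq_mul hg2)
  rw [integral_moll, one_mul] at hG2i
  have cD : ∀ i, Continuous fun z => pd i φ z := fun i => (contDiff_pd hφs i).continuous
  have hχ2 := hasCompactSupport_sq hχc
  have iL : ∀ i, Integrable fun z => 1 / 2 * (S.p z * χ z ^ 2 * pd i φ z ^ 2) := fun i =>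
    ((S.continuous_p.fun_mul (hχ.continuous.pow 2)).fun_mul ((cD i).pow 2)
      |>.integrable_of_hasCompactSupport (hχ2.mul_left.mul_right)).const_mul _
  have iJ : ∀ i, Integrable fun z => J i z * pd i ψ z := fun i =>
    ((hJs i).continuous.fun_mul (contDiff_pd hψs i).continuous).integrable_of_hasCompactSupport
      (hasCompactSupport_pd hψc i).mul_left
  have iR : Integrable fun z => (10 * D ^ 2 + 4 * om ^ 2) * G2 z := hG2i.1.const_mul _
  have hpt2 : ∀ i z, 1 / 2 * (S.p z * χ z ^ 2 * pd i φ z ^ 2)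
      ≤ J i z * pd i ψ z + (10 * D ^ 2 + 4 * om ^ 2) * G2 z := by
    intro i z
    refine (hpt i z).trans ?_
    have hp := S.p_pos z
    by_cases hz : z ∈ tsupport χ
    · have k1 : S.p z * φ z ^ 2 ≤ 2 * G2 z := by
        refine le_of_mul_le_mul_left ?_ hp
        calc S.p z * (S.p z * φ z ^ 2) = H z ^ 2 := by rw [hHφ]; ring
          _ ≤ G2 z * P z := by
              rw [← sq_abs]; exact (pow_le_pow_left₀ (abs_nonneg _) (hHabs z) 2).trans (hcs z)
          _ ≤ G2 z * (2 * S.p z) := mul_le_mul_of_nonneg_left (hP z hz) (hG0 z)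
          _ = _ := by ring
      have k2 : pd i χ z ^ 2 ≤ D ^ 2 := by
        rw [← sq_abs]; exact pow_le_pow_left₀ (abs_nonneg _) (hD i z) 2
      have k3 : χ z ^ 2 * r i z ^ 2 / S.p z ≤ 2 * om ^ 2 * G2 z := by
        rw [div_le_iff₀ hp]
        have h1 : χ z ^ 2 ≤ 1 := by rw [← sq_abs]; exact pow_le_one₀ (abs_nonneg _) (hχ1 z)
        refine (mul_le_of_le_one_left (sq_nonneg _) h1).trans ((hrb i z hz).trans ?_)
        have := mul_le_mul_of_nonneg_left (hP z hz) (mul_nonneg (sq_nonneg om) (hG0 z))
        linarith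
      have k4 := mul_le_mul k1 k2 (sq_nonneg _) (by linarith [hG0 z])
      linarith
    · have z1 : pd i χ z = 0 := image_eq_zero_of_notMem_tsupport fun h =>
        hz ((tsupport_fderiv_apply_subset ℝ _) h)
      have z2 : χ z = 0 := image_eq_zero_of_notMem_tsupport hz
      rw [z1, z2]
      have := mul_nonneg (show (0:ℝ) ≤ 10 * D ^ 2 + 4 * om ^ 2 by positivity) (hG0 z)
      simp only [zero_pow two_ne_zero, mul_zero, zero_mul, zero_div, add_zero]
      linarith
  have hsum : ∑ i, ∫ z, 1 / 2 * (S.p z * χ z ^ 2 * pd i φ z ^ 2)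
      ≤ n * ((10 * D ^ 2 + 4 * om ^ 2) * ∫ z, S.p z * g z ^ 2) := by
    refine (Finset.sum_le_sum fun i _ => (integral_mono (iL i) ((iJ i).add iR) (hpt2 i)).trans
      (le_of_eq (integral_add (iJ i) iR))).trans (le_of_eq ?_)
    rw [Finset.sum_add_distrib, h0, zero_add, integral_const_mul, hG2i.2]
    simp
  have h1 := Finset.single_le_sum (f := fun i => ∫ z, 1 / 2 * (S.p z * χ z ^ 2 * pd i φ z ^ 2))
    (fun i _ => integral_nonneg fun z => mul_nonneg (by norm_num)
      (mul_nonneg (mul_nonneg (S.p_pos z).le (sq_nonneg _)) (sq_nonneg _))) (Finset.mem_univ i0)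
  rw [integral_const_mul] at h1
  have hN2 : 0 ≤ ∫ z, S.p z * g z ^ 2 :=
    integral_nonneg fun z => mul_nonneg (S.p_pos z).le (sq_nonneg _)
  have := mul_nonneg (mul_nonneg (Nat.cast_nonneg n : (0:ℝ) ≤ n) hN2) (sq_nonneg om)
  linarith

include hgm horth in
/-- Orthogonality to the range of the generator forces a function to be constant. -/
lemma const_of_orth : ∃ c, g =ᵐ[S.μ] fun _ => c := by
  have hgl : LocallyIntegrable g := S.locallyIntegrable_of_mul_p (S.integrable_mul_p hg2)
  have hweak : ∀ (i : Fin n) (ψ : (Fin n → ℝ) → ℝ), IsTest ψ → ∫ x, g x * pd i ψ x = 0 := by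
    intro i ψ hψ
    set b : ContDiffBump (0 : Fin n → ℝ) := ⟨1, 2, one_pos, one_lt_two⟩
    obtain ⟨Db, hDb⟩ := (b.contDiff (n := (⊤ : ℕ∞))).continuous_fderiv (by simp)
      |>.bounded_above_of_compact_support (b.hasCompactSupport.fderiv ℝ)
    obtain ⟨Rψ, hRψ⟩ := hψ.2.isBounded.exists_norm_le
    set N2 := ∫ x, S.p x * g x ^ 2
    set Sψ := ∫ x, ψ x ^ 2 * Real.exp (S.V x)
    set hfun := fun y => S.p y * g y
    have hk : Continuous fun x => Real.exp (S.V x) * pd i ψ x :=
      S.smooth.continuous.rexp.mul (contDiff_pd hψ.1 i).continuous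
    have hkc : HasCompactSupport fun x => Real.exp (S.V x) * pd i ψ x :=
      (hasCompactSupport_pd hψ.2 i).mul_left
    obtain ⟨Mk, hMk⟩ := hk.bounded_above_of_compact_support hkc
    set Φ := fun k x => cv (moll n k) hfun x * Real.exp (S.V x)
    have hlim : Tendsto (fun k => ∫ x, Φ k x * pd i ψ x) atTop (𝓝 (∫ x, g x * pd i ψ x)) := by
      have e : ∀ k, ∫ x, Φ k x * pd i ψ x
          = ∫ y, hfun y * cv (moll n k) (fun x => Real.exp (S.V x) * pd i ψ x) y := by
        intro k
        simp only [Φ, mul_assoc]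
        rw [integral_cv_mul (continuous_moll k) (hasCompactSupport_moll k) (S.integrable_mul_p hg2) hk hkc]
        congr 1; funext y; congr 1
        simp only [cv]
        congr 1; funext x
        rw [← moll_neg k (y - x), neg_sub]
      simp only [e]
      have e2 : ∫ x, g x * pd i ψ x = ∫ y, hfun y * (Real.exp (S.V y) * pd i ψ y) := by
        congr 1; funext y
        simp only [hfun, p]
        rw [show Real.exp (-S.V y) * g y * (Real.exp (S.V y) * pd i ψ y)
          = (Real.exp (-S.V y) * Real.exp (S.V y)) * (g y * pd i ψ y) by ring,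
          ← Real.exp_add, neg_add_cancel, Real.exp_zero, one_mul]
      rw [e2]
      refine tendsto_integral_of_dominated_convergence (fun y => |hfun y| * Mk)
        (fun k => (S.continuous_p.measurable.mul hgm).aestronglyMeasurable.mul
          (continuous_cv (continuous_moll k) (hasCompactSupport_moll k)
            hk.locallyIntegrable).aestronglyMeasurable)
        ((S.integrable_mul_p hg2).abs.mul_const _) (fun k => Eventually.of_forall fun y => ?_)
        (Eventually.of_forall fun y => (tendsto_cv_moll hk y).const_mul _)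
      rw [Real.norm_eq_abs, abs_mul]
      refine mul_le_mul_of_nonneg_left ?_ (abs_nonneg _)
      refine (abs_integral_le_integral_abs).trans ?_
      refine (integral_mono (integrable_cv (continuous_moll k) (hasCompactSupport_moll k)
        hk.locallyIntegrable y).abs (integrable_cv (continuous_moll k) (hasCompactSupport_moll k)
        (continuous_const (y := Mk)).locallyIntegrable y) fun z => ?_).trans
        (le_of_eq (cv_moll_const k Mk y))
      show |moll n k (y - z) * _| ≤ _
      rw [abs_mul, abs_of_nonneg (moll_nonneg k _)]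
      exact mul_le_mul_of_nonneg_left (hMk z) (moll_nonneg k _)
    have hbound : ∀ R : ℝ, 1 ≤ R → Rψ ≤ R → ∀ s : ℝ, 0 < s →
        |∫ x, g x * pd i ψ x| ≤ s * (20 * n * ((Db / R) ^ 2 + (1 / R) ^ 2) * N2) + Sψ / (4 * s) := by
      intro R hR1 hRψR s hs
      have hR : 0 < R := by linarith
      set χ := fun x : Fin n → ℝ => b (R⁻¹ • x) with hχdef
      have hχ : ContDiff ℝ ∞ χ := b.contDiff.comp (contDiff_const_smul R⁻¹)
      have hχc : HasCompactSupport χ :=
        b.hasCompactSupport.comp_homeomorph (Homeomorph.smulOfNeZero R⁻¹ (inv_ne_zero hR.ne'))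
      have hχ1 : ∀ x, |χ x| ≤ 1 := fun x => abs_le.2 ⟨by linarith [b.nonneg (x := R⁻¹ • x)], b.le_one⟩
      have hD : ∀ j x, |pd j χ x| ≤ Db / R := by
        intro j x
        have hd : DifferentiableAt ℝ (fun z => b z) (R⁻¹ • x) :=
          (b.contDiff (n := (⊤ : ℕ∞))).differentiable (by simp) _
        have hh : HasFDerivAt χ ((fderiv ℝ (fun z => b z) (R⁻¹ • x)).comp
            (R⁻¹ • ContinuousLinearMap.id ℝ (Fin n → ℝ))) x :=
          hd.hasFDerivAt.comp x ((hasFDerivAt_id x).const_smul R⁻¹)
        rw [pd, hh.fderiv]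
        simp only [ContinuousLinearMap.comp_apply, _root_.smul_apply,
          ContinuousLinearMap.id_apply, map_smul, smul_eq_mul, abs_mul, abs_inv, abs_of_pos hR]
        rw [div_eq_inv_mul]
        refine mul_le_mul_of_nonneg_left ?_ (by positivity)
        refine le_trans ?_ (hDb (R⁻¹ • x))
        refine le_trans ((fderiv ℝ (fun z => b z) (R⁻¹ • x)).le_opNorm _) (le_of_eq ?_)
        rw [show ‖(Pi.single j 1 : Fin n → ℝ)‖ = 1 by simp [Pi.norm_single], mul_one]
      have hev : ∀ᶠ k : ℕ in atTop, ∀ x ∈ tsupport χ, ∀ y : Fin n → ℝ, ‖y - x‖ ≤ 1 / ((k:ℝ) + 1) →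
          (∀ j, |pd j S.V x - pd j S.V y| ≤ 1 / R) ∧ S.p y ≤ 2 * S.p x := by
        have hT : Tendsto (fun k : ℕ => 1 / ((k:ℝ) + 1)) atTop (𝓝 0) :=
          tendsto_one_div_add_atTop_nhds_zero_nat
        set F := fun z : (Fin n → ℝ) => ((fun j => pd j S.V z), S.V z) with hF
        have hFc : Continuous F :=
          (continuous_pi fun j => (contDiff_pd S.smooth j).continuous).prodMk S.smooth.continuous
        have hu := IsCompact.uniformContinuousAt_of_continuousAt hχc (fun z => F z)
          (fun z _ => hFc.continuousAt) (r := {q | dist q.1 q.2 < min (1 / R) (Real.log 2)})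
          (Metric.dist_mem_uniformity (lt_min (by positivity) (Real.log_pos one_lt_two)))
        obtain ⟨ε, hε, hεs⟩ := Metric.mem_uniformity_dist.1 hu
        filter_upwards [hT.eventually (eventually_lt_nhds hε)] with k hk x hx y hy
        have h := hεs (a := x) (b := y) (by rw [dist_eq_norm, norm_sub_rev]; linarith) hx
        change dist (F x) (F y) < _ at h
        rw [Prod.dist_eq, max_lt_iff, lt_min_iff, lt_min_iff] at h
        refine ⟨fun j => le_of_lt (lt_of_le_of_lt ?_ h.1.1), ?_⟩
        · rw [← Real.dist_eq]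
          exact dist_le_pi_dist (fun j => pd j S.V x) (fun j => pd j S.V y) j
        · have h2 := h.2.2
          simp only [hF, Real.dist_eq, abs_lt] at h2
          rw [p, p, show (2:ℝ) = Real.exp (Real.log 2) from (Real.exp_log two_pos).symm, ← Real.exp_add]
          exact Real.exp_le_exp.2 (by linarith)
      refine le_of_tendsto hlim.abs (hev.mono fun k hk => ?_)
      have hE := S.energy_bound hg2 i hχ hχc hχ1 hD k hk horth
      have hΦ : ContDiff ℝ ∞ (Φ k) :=
        (contDiff_cv (contDiff_moll k) (hasCompactSupport_moll k)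
          (S.integrable_mul_p hg2).locallyIntegrable).mul S.smooth.exp
      rw [ibp_pd (hΦ.of_le (by simp)) (hψ.1.of_le (by simp)) hψ.2, abs_neg]
      refine abs_integral_le_integral_abs.trans ?_
      have i1 : Integrable fun x => S.p x * χ x ^ 2 * pd i (Φ k) x ^ 2 :=
        ((S.continuous_p.fun_mul (hχ.continuous.pow 2)).fun_mul ((contDiff_pd hΦ i).continuous.pow 2))
          |>.integrable_of_hasCompactSupport
          ((hasCompactSupport_sq hχc).mul_left.mul_right)
      have i2 : Integrable fun x => ψ x ^ 2 * Real.exp (S.V x) :=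
        ((hψ.1.continuous.pow 2).fun_mul S.smooth.continuous.rexp).integrable_of_hasCompactSupport
          (hasCompactSupport_sq hψ.2).mul_right
      refine (integral_mono ((((contDiff_pd hΦ i).continuous.fun_mul hψ.1.continuous
        ).integrable_of_hasCompactSupport hψ.2.mul_left).abs) ((i1.const_mul s).add (i2.div_const (4 * s)))
        fun x => ?_).trans ?_
      · show |pd i (Φ k) x * ψ x| ≤ s * _ + _ / _
        by_cases hx : ψ x = 0
        · rw [hx]; simp only [mul_zero, abs_zero, zero_pow two_ne_zero, zero_mul, zero_div, add_zero]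
          have := S.p_pos x; positivity
        · have hxn : ‖x‖ ≤ R := (hRψ x (subset_tsupport _ hx)).trans hRψR
          have hc1 : χ x = 1 := b.one_of_mem_closedBall (by
            rw [Metric.mem_closedBall, dist_zero_right, norm_smul, Real.norm_eq_abs, abs_inv, abs_of_pos hR]
            rw [inv_mul_le_iff₀ hR, mul_one]; exact hxn)
          rw [hc1, one_pow, mul_one]
          have hp := S.p_pos x
          have hep : Real.exp (S.V x) = 1 / S.p x := by rw [p, Real.exp_neg, one_div, inv_inv]
          rw [hep, abs_mul]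
          generalize S.p x = q at hp ⊢
          generalize pd i (Φ k) x = u
          generalize ψ x = w
          rw [show s * (q * u ^ 2) + w ^ 2 * (1 / q) / (4 * s)
            = ((2 * s * q * |u| - |w|) ^ 2 + 4 * s * q * (|u| * |w|)) / (4 * s * q) by
              field_simp; rw [← sq_abs u, ← sq_abs w]; ring, le_div_iff₀ (by positivity)]
          nlinarith [sq_nonneg (2 * s * q * |u| - |w|)]
      · simp only [Pi.add_apply]
        rw [integral_add (i1.const_mul s) (i2.div_const _), integral_const_mul, integral_div]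
        exact add_le_add (mul_le_mul_of_nonneg_left hE hs.le) le_rfl
    have hs0 : ∀ s : ℝ, 0 < s → |∫ x, g x * pd i ψ x| ≤ Sψ / (4 * s) := by
      intro s hs
      have hlimR : Tendsto (fun R : ℝ => s * (20 * n * ((Db / R) ^ 2 + (1 / R) ^ 2) * N2) + Sψ / (4 * s))
          atTop (𝓝 (Sψ / (4 * s))) := by
        have h1 : Tendsto (fun R : ℝ => R⁻¹) atTop (𝓝 0) := tendsto_inv_atTop_zero
        have h2 := ((by fun_prop : Continuous fun u : ℝ =>
          s * (20 * (n:ℝ) * ((Db * u) ^ 2 + u ^ 2) * N2) + Sψ / (4 * s)).tendsto 0).comp h1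
        simpa [div_eq_mul_inv, comp_def] using h2
      exact ge_of_tendsto hlimR
        (eventually_atTop.2 ⟨max 1 Rψ, fun R hR =>
          hbound R ((le_max_left _ _).trans hR) ((le_max_right _ _).trans hR) s hs⟩)
    refine abs_eq_zero.1 (le_antisymm ?_ (abs_nonneg _))
    have hlim0 : Tendsto (fun s : ℝ => Sψ / (4 * s)) atTop (𝓝 0) :=
      tendsto_const_nhds.div_atTop (tendsto_id.const_mul_atTop (by norm_num))
    exact ge_of_tendsto hlim0 (eventually_atTop.2 ⟨1, fun s hs => hs0 s (by linarith)⟩)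
  have hc : ∀ k x y, cv (moll n k) g x = cv (moll n k) g y := by
    intro k x y
    have hd : ∀ z, fderiv ℝ (cv (moll n k) g) z = 0 := fun z => eq_zero_of_pd z fun i => by
      rw [pd_cv ((contDiff_moll k).of_le (by simp)) (hasCompactSupport_moll k) hgl]
      have ht : IsTest fun w => moll n k (z - w) :=
        ⟨(contDiff_moll k).comp (contDiff_const.sub contDiff_id),
          (hasCompactSupport_moll k).comp_homeomorph (Homeomorph.subLeft z)⟩
      have hw := hweak i _ ht
      have e : ∀ w, pd i (fun w => moll n k (z - w)) w = -pd i (moll n k) (z - w) := by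
        intro w
        have hcomp : HasFDerivAt (fun v => moll n k (z - v))
            ((fderiv ℝ (moll n k) (z - w)).comp (-ContinuousLinearMap.id ℝ (Fin n → ℝ))) w :=
          (((contDiff_moll k).differentiable (by simp)) (z - w)).hasFDerivAt.comp w
            ((hasFDerivAt_id w).const_sub z)
        rw [pd, hcomp.fderiv]
        simp [pd]
      simp only [e, mul_neg, integral_neg, neg_eq_zero] at hw
      rw [cv, ← hw]
      congr 1; funext w; ring
    exact is_const_of_fderiv_eq_zero
      ((contDiff_cv (contDiff_moll k) (hasCompactSupport_moll k) hgl).differentiable (by simp)) hd x y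
  have hae := ae_tendsto_cv_moll hgl
  obtain ⟨x0, hx0⟩ := hae.exists
  refine ⟨g x0, S.ae_μ_iff.2 (hae.mono fun x hx => ?_)⟩
  exact tendsto_nhds_unique hx (hx0.congr fun k => hc k x0 x)

end Reg

lemma gen_add {v : (Fin n → ℝ) → ℝ} (hu : IsTest u) (hv : IsTest v) :
    S.gen (fun x => u x + v x) = fun x => S.gen u x + S.gen v x := by
  funext x
  have d := fun (w : (Fin n → ℝ) → ℝ) (hw : IsTest w) (i : Fin n) =>
    (contDiff_pd hw.1 i).differentiable (by simp)
  simp only [gen, ← Finset.sum_add_distrib]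
  refine Finset.sum_congr rfl fun i _ => ?_
  have e : pd i (fun x => u x + v x) = fun x => pd i u x + pd i v x :=
    funext (pd_add (hu.1.differentiable (by simp)) (hv.1.differentiable (by simp)) i)
  rw [e, pd_add (d u hu i) (d v hv i)]
  ring

lemma gen_zero : S.gen (fun _ => 0) = fun _ => 0 := by
  funext x
  have e : ∀ i, pd i (fun _ : Fin n → ℝ => (0:ℝ)) = fun _ => 0 := fun i => funext fun y => by simp [pd]
  simp [gen, e]

lemma gen_smul (hu : IsTest u) (r : ℝ) : S.gen (fun x => r * u x) = fun x => r * S.gen u x := by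
  funext x
  simp only [gen, Finset.mul_sum]
  refine Finset.sum_congr rfl fun i _ => ?_
  have e : pd i (fun x => r * u x) = fun x => r * pd i u x :=
    funext (pd_const_mul (hu.1.differentiable (by simp)) r i)
  rw [e, pd_const_mul ((contDiff_pd hu.1 i).differentiable (by simp))]
  ring

/-- Mean zero functions are approximated by values of the generator. -/
lemma exists_gen_near (hf : MemLp f 2 S.μ) (hf0 : ∫ x, f x ∂S.μ = 0) {ε : ℝ} (hε : 0 < ε) :
    ∃ u, IsTest u ∧ ∫ x, (f x - S.gen u x) ^ 2 ∂S.μ ≤ ε := by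
  let K : Submodule ℝ (Lp ℝ 2 S.μ) :=
    { carrier := {F | ∃ u c, IsTest u ∧ (F : (Fin n → ℝ) → ℝ) =ᵐ[S.μ] fun x => S.gen u x + c}
      add_mem' := by
        rintro F G ⟨u, c, hu, hF⟩ ⟨v, d, hv, hG⟩
        refine ⟨fun x => u x + v x, c + d, ⟨hu.1.add hv.1, hu.2.add hv.2⟩, ?_⟩
        filter_upwards [Lp.coeFn_add F G, hF, hG] with x h1 h2 h3
        rw [h1, Pi.add_apply, h2, h3, S.gen_add hu hv]; ring
      zero_mem' := ⟨fun _ => 0, 0, ⟨contDiff_const, HasCompactSupport.zero⟩, by
        filter_upwards [Lp.coeFn_zero ℝ 2 S.μ] with x hx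
        simp [S.gen_zero]⟩
      smul_mem' := by
        rintro r F ⟨u, c, hu, hF⟩
        refine ⟨fun x => r * u x, r * c, ⟨contDiff_const.mul hu.1, hu.2.mul_left⟩, ?_⟩
        filter_upwards [Lp.coeFn_smul r F, hF] with x h1 h2
        rw [h1, Pi.smul_apply, h2, S.gen_smul hu, smul_eq_mul]; ring }
  have hgenL : ∀ u, IsTest u → MemLp (S.gen u) 2 S.μ := fun u hu =>
    S.memLp_of_continuous (S.contDiff_gen hu).continuous (S.hasCompactSupport_gen hu)
  have hperp : Kᗮ = ⊥ := by
    rw [Submodule.eq_bot_iff]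
    intro G hG
    rw [Submodule.mem_orthogonal'] at hG
    have horth : ∀ u c, IsTest u → ∫ x, G x * (S.gen u x + c) ∂S.μ = 0 := by
      intro u c hu
      have hm : MemLp (fun x => S.gen u x + c) 2 S.μ := (hgenL u hu).add (memLp_const c)
      have h := hG (hm.toLp _) ⟨u, c, hu, hm.coeFn_toLp⟩
      rw [L2.inner_def] at h
      rw [← h]
      refine integral_congr_ae ?_
      filter_upwards [hm.coeFn_toLp] with x hx
      rw [hx, Real.inner_apply]
    have h1 : ∀ u, IsTest u → ∫ x, G x * S.gen u x ∂S.μ = 0 := fun u hu => by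
      simpa using horth u 0 hu
    obtain ⟨c, hc⟩ := S.const_of_orth (Lp.stronglyMeasurable G).measurable (Lp.memLp G) h1
    have h2 := horth (fun _ => 0) 1 ⟨contDiff_const, HasCompactSupport.zero⟩
    simp only [S.gen_zero, zero_add, mul_one] at h2
    rw [integral_congr_ae hc] at h2
    simp only [integral_const, probReal_univ, one_smul] at h2
    subst h2
    exact Lp.eq_zero_iff_ae_eq_zero.2 hc
  have hdense : K.topologicalClosure = ⊤ := Submodule.topologicalClosure_eq_top_iff.2 hperp
  have hmem : hf.toLp f ∈ K.topologicalClosure := by rw [hdense]; trivial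
  rw [← SetLike.mem_coe, Submodule.topologicalClosure_coe, Metric.mem_closure_iff] at hmem
  obtain ⟨F, ⟨u, c, hu, hF⟩, hd⟩ := hmem (Real.sqrt ε) (Real.sqrt_pos.2 hε)
  refine ⟨u, hu, ?_⟩
  have hm : MemLp (fun x => f x - S.gen u x) 2 S.μ := hf.sub (hgenL u hu)
  have h0 : ∫ x, (f x - S.gen u x) ∂S.μ = 0 := by
    rw [integral_sub (hf.integrable (by norm_num)) ((hgenL u hu).integrable (by norm_num)), hf0,
      S.integral_gen hu, sub_zero]
  have hd2 : ‖hf.toLp f - F‖ ^ 2 ≤ ε := by
    rw [← dist_eq_norm, ← Real.sq_sqrt hε.le]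
    exact pow_le_pow_left₀ dist_nonneg hd.le 2
  rw [← real_inner_self_eq_norm_sq, L2.inner_def] at hd2
  refine le_trans ?_ hd2
  have i1 := hm.integrable_sq
  have i2 : Integrable (fun x => 2 * c * (f x - S.gen u x)) S.μ := (hm.integrable (by norm_num)).const_mul _
  have i12 : Integrable (fun x => (f x - S.gen u x) ^ 2 - 2 * c * (f x - S.gen u x)) S.μ := i1.sub i2
  have e : ∫ x, ⟪(hf.toLp f - F : Lp ℝ 2 S.μ) x, (hf.toLp f - F : Lp ℝ 2 S.μ) x⟫ ∂S.μ
      = ∫ x, ((f x - S.gen u x) ^ 2 - 2 * c * (f x - S.gen u x) + c ^ 2) ∂S.μ := by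
    refine integral_congr_ae ?_
    filter_upwards [Lp.coeFn_sub (hf.toLp f) F, hf.coeFn_toLp, hF] with x h1 h2 h3
    rw [h1, Pi.sub_apply, h2, h3, Real.inner_apply]; ring
  rw [e, integral_add i12 (integrable_const _), integral_sub i1 i2, integral_const_mul, h0]
  simp [sq_nonneg]

end Smo

end Vale.Agent.P245
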