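import Mathlib
import Vale.Agent.P245.Cube.Bochner

/-!
The improved Lichnerowicz inequality for smooth uniformly convex potentials.
-/

namespace Vale.Agent.P245

open MeasureTheory Set Filter Topology Function Finset
open scoped ContDiff

namespace Smo

variable {n : ℕ} {t : ℝ} (S : Smo n t)

/-- A Poincaré inequality with constant `C`. -/
def Valid (C : ℝ) : Prop :=
  ∀ f : (Fin n → ℝ) → ℝ, ContDiff ℝ 1 f → MemLp f 2 S.μ → (∀ i, MemLp (pd i f) 2 S.μ) →
    ∫ x, (f x - ∫ y, f y ∂S.μ) ^ 2 ∂S.μ ≤ C * ∫ x, (∑ i, pd i f x ^ 2) ∂S.μ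

lemma memLp_coord (i : Fin n) : MemLp (fun x : Fin n → ℝ => x i) 2 S.μ := by
  refine (memLp_two_iff_integrable_sq (measurable_pi_apply i).aestronglyMeasurable).2 ?_
  refine (S.integrable_μ_iff _).2 (S.second.mono'
    (S.continuous_p.mul ((continuous_apply i).pow 2)).aestronglyMeasurable (Eventually.of_forall fun x => ?_))
  show |S.p x * x i ^ 2| ≤ _
  rw [abs_of_nonneg (mul_nonneg (S.p_pos x).le (sq_nonneg _)), mul_comm]
  exact mul_le_mul_of_nonneg_right (sq_le_sumSq x i) (Real.exp_pos _).le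

/-- The gradient energy. -/
noncomputable def en (u : (Fin n → ℝ) → ℝ) : ℝ := ∫ x, (∑ i, pd i u x ^ 2) ∂S.μ

lemma en_nonneg (u : (Fin n → ℝ) → ℝ) : 0 ≤ S.en u :=
  integral_nonneg fun _ => Finset.sum_nonneg fun _ _ => sq_nonneg _

variable {u : (Fin n → ℝ) → ℝ}

lemma valid_of_gen {K : ℝ} (hK : 0 ≤ K) (h : ∀ u, IsTest u → S.en u ≤ K * ∫ x, S.gen u x ^ 2 ∂S.μ) :
    S.Valid K := by
  intro f hf hf2 hdf
  set m := ∫ y, f y ∂S.μ
  set f0 := fun x => f x - m
  have hf0L : MemLp f0 2 S.μ := hf2.sub (memLp_const m)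
  have hf00 : ∫ x, f0 x ∂S.μ = 0 := by
    simp only [f0]
    rw [integral_sub (hf2.integrable (by norm_num)) (integrable_const _)]
    simp [m]
  set A := ∫ x, f0 x ^ 2 ∂S.μ
  set E := ∫ x, (∑ i, pd i f x ^ 2) ∂S.μ
  have hA : 0 ≤ A := integral_nonneg fun _ => sq_nonneg _
  have hE : 0 ≤ E := integral_nonneg fun _ => Finset.sum_nonneg fun _ _ => sq_nonneg _
  show A ≤ K * E
  have key : ∀ e : ℝ, 0 < e → A ≤ Real.sqrt A * e + Real.sqrt (K * E) * (Real.sqrt A + e) := by
    intro e he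
    obtain ⟨u, hu, hclose⟩ := S.exists_gen_near hf0L hf00 (sq_pos_of_pos he)
    have hL : MemLp (S.gen u) 2 S.μ :=
      S.memLp_of_continuous (S.contDiff_gen hu).continuous (S.hasCompactSupport_gen hu)
    have hd : MemLp (fun x => f0 x - S.gen u x) 2 S.μ := hf0L.sub hL
    set Q := ∫ x, S.gen u x ^ 2 ∂S.μ
    have h1 : A = (∫ x, f0 x * (f0 x - S.gen u x) ∂S.μ) + ∫ x, f0 x * S.gen u x ∂S.μ := by
      have j1 : Integrable (fun x => f0 x * (f0 x - S.gen u x)) S.μ := hf0L.integrable_mul hd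
      have j2 : Integrable (fun x => f0 x * S.gen u x) S.μ := hf0L.integrable_mul hL
      rw [← integral_add j1 j2]
      exact integral_congr_ae (Eventually.of_forall fun x => by dsimp only; ring)
    have h2 : ∫ x, f0 x * (f0 x - S.gen u x) ∂S.μ ≤ Real.sqrt A * e := by
      refine (le_abs_self _).trans ?_
      rw [← Real.sqrt_sq_eq_abs]
      refine (Real.sqrt_le_sqrt ((S.cs hf0L hd).trans
        (mul_le_mul_of_nonneg_left hclose hA))).trans (le_of_eq ?_)
      rw [Real.sqrt_mul hA, Real.sqrt_sq he.le]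
    have hQ : Real.sqrt Q ≤ Real.sqrt A + e := by
      have hQ0 : 0 ≤ Q := integral_nonneg fun _ => sq_nonneg _
      have hc := S.cs hf0L hd
      have i1 := hf0L.integrable_sq
      have i2 := hd.integrable_sq
      have i3 : Integrable (fun x => -2 * (f0 x * (f0 x - S.gen u x))) S.μ :=
        (hf0L.integrable_mul hd).const_mul _
      have i13 : Integrable (fun x => f0 x ^ 2 + -2 * (f0 x * (f0 x - S.gen u x))) S.μ := i1.add i3
      have e1 : Q = A + -2 * (∫ x, f0 x * (f0 x - S.gen u x) ∂S.μ) + ∫ x, (f0 x - S.gen u x) ^ 2 ∂S.μ := by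
        rw [← integral_const_mul, ← integral_add i1 i3, ← integral_add i13 i2]
        exact integral_congr_ae (Eventually.of_forall fun x => by dsimp only; ring)
      rw [Real.sqrt_le_iff]
      refine ⟨by positivity, ?_⟩
      have h4 : |∫ x, f0 x * (f0 x - S.gen u x) ∂S.μ| ≤ Real.sqrt A * e := by
        rw [← Real.sqrt_sq_eq_abs]
        refine (Real.sqrt_le_sqrt (hc.trans (mul_le_mul_of_nonneg_left hclose hA))).trans (le_of_eq ?_)
        rw [Real.sqrt_mul hA, Real.sqrt_sq he.le]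
      rw [e1, add_sq, Real.sq_sqrt hA]
      linarith [(abs_le.1 h4).1]
    have h3 : ∫ x, f0 x * S.gen u x ∂S.μ ≤ Real.sqrt (K * E) * (Real.sqrt A + e) := by
      have hfd : ContDiff ℝ 1 f0 := hf.sub contDiff_const
      have hpd : ∀ i, pd i f0 = pd i f := fun i => funext fun x => by simp only [f0, pd, fderiv_sub_const]
      rw [S.gen_ibp hfd hu]
      simp only [hpd]
      have ui : ∀ i, MemLp (pd i u) 2 S.μ := fun i =>
        S.memLp_of_continuous (contDiff_pd hu.1 i).continuous (hasCompactSupport_pd hu.2 i)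
      have hcs : (∑ i, ∫ x, pd i f x * pd i u x ∂S.μ) ^ 2 ≤ E * S.en u := by
        have hb : ∀ i, (∫ x, pd i f x * pd i u x ∂S.μ) ^ 2
            ≤ (∫ x, pd i f x ^ 2 ∂S.μ) * ∫ x, pd i u x ^ 2 ∂S.μ := fun i => S.cs (hdf i) (ui i)
        have e1 : E = ∑ i, ∫ x, pd i f x ^ 2 ∂S.μ := integral_finsetSum _ fun i _ => (hdf i).integrable_sq
        have e2 : S.en u = ∑ i, ∫ x, pd i u x ^ 2 ∂S.μ :=
          integral_finsetSum _ fun i _ => (ui i).integrable_sq
        rw [e1, e2]
        refine Finset.sum_sq_le_sum_mul_sum_of_sq_le_mul _ (fun i _ => integral_nonneg fun _ => sq_nonneg _)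
          (fun i _ => integral_nonneg fun _ => sq_nonneg _) fun i _ => hb i
      refine (neg_le_abs _).trans ?_
      rw [← Real.sqrt_sq_eq_abs]
      refine (Real.sqrt_le_sqrt (hcs.trans (mul_le_mul_of_nonneg_left (h u hu) hE))).trans ?_
      rw [← mul_assoc, mul_comm E K, Real.sqrt_mul (mul_nonneg hK hE)]
      exact mul_le_mul_of_nonneg_left hQ (Real.sqrt_nonneg _)
    linarith
  have hlim : A ≤ Real.sqrt (K * E) * Real.sqrt A := by
    refine ge_of_tendsto (f := fun e : ℝ => Real.sqrt A * e + Real.sqrt (K * E) * (Real.sqrt A + e))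
      (x := 𝓝[>] (0:ℝ)) ?_ (eventually_mem_nhdsWithin.mono fun e he => key e he)
    exact tendsto_nhdsWithin_of_tendsto_nhds (Continuous.tendsto' (by fun_prop) _ _ (by simp))
  rcases hA.eq_or_lt with hA0 | hA0
  · rw [← hA0]; positivity
  · have hs := Real.sqrt_pos.2 hA0
    have : Real.sqrt A ≤ Real.sqrt (K * E) := by
      refine le_of_mul_le_mul_right ?_ hs
      rw [Real.mul_self_sqrt hA]; exact hlim
    exact (Real.sqrt_le_sqrt_iff (by positivity)).1 this

lemma valid_step (ht : 0 < t) {lam C : ℝ} (hlam : 0 ≤ lam) (hC : 0 < C) (hV : S.Valid C)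
    (hcov : ∀ v : Fin n → ℝ, ∫ x, (dot v x - ∫ y, dot v y ∂S.μ) ^ 2 ∂S.μ ≤ lam * sumSq v) :
    S.Valid ((C + lam) / (1 + t * C)) := by
  refine S.valid_of_gen (by positivity) fun u hu => ?_
  set Q := ∫ x, S.gen u x ^ 2 ∂S.μ
  set w : Fin n → ℝ := fun i => ∫ x, pd i u x ∂S.μ
  have hb := S.bochner hu
  have ci : ∀ i, Continuous (pd i u) := fun i => (contDiff_pd hu.1 i).continuous
  have ui : ∀ i, MemLp (pd i u) 2 S.μ := fun i =>
    S.memLp_of_continuous (ci i) (hasCompactSupport_pd hu.2 i)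
  have hgL : MemLp (S.gen u) 2 S.μ :=
    S.memLp_of_continuous (S.contDiff_gen hu).continuous (S.hasCompactSupport_gen hu)
  have hper : ∀ i, (∫ x, pd i u x ^ 2 ∂S.μ) - w i ^ 2 ≤ C * ∫ x, (∑ j, pd j (pd i u) x ^ 2) ∂S.μ := by
    intro i
    refine le_trans (le_of_eq ?_) (hV (pd i u) ((contDiff_pd hu.1 i).of_le (by simp)) (ui i) fun j =>
      S.memLp_of_continuous (contDiff_pd (contDiff_pd hu.1 i) j).continuous
        (hasCompactSupport_pd (hu.pd i).2 j))
    show _ = ∫ x, (pd i u x - w i) ^ 2 ∂S.μ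
    have i1 := (ui i).integrable_sq
    have i2 : Integrable (fun x => 2 * w i * pd i u x) S.μ := ((ui i).integrable (by norm_num)).const_mul _
    have i12 : Integrable (fun x => pd i u x ^ 2 - 2 * w i * pd i u x) S.μ := i1.sub i2
    have : ∀ x, (pd i u x - w i) ^ 2 = (pd i u x ^ 2 - 2 * w i * pd i u x) + w i ^ 2 := fun x => by ring
    simp only [this]
    rw [integral_add i12 (integrable_const _), integral_sub i1 i2, integral_const_mul]
    simp only [integral_const, probReal_univ, one_smul, w]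
    ring
  have hen : S.en u = ∑ i, ∫ x, pd i u x ^ 2 ∂S.μ := integral_finsetSum _ fun i _ => (ui i).integrable_sq
  -- the mean of the gradient
  have hw : sumSq w ≤ lam * Q := by
    set mv := ∫ y, dot w y ∂S.μ
    have hY : MemLp (fun x => dot w x - mv) 2 S.μ :=
      (memLp_finsetSum _ fun i _ => (S.memLp_coord i).const_mul (w i)).sub (memLp_const mv)
    have hdot : ContDiff ℝ 1 fun x => dot w x - mv := by unfold dot; fun_prop
    have hpd : ∀ i x, pd i (fun x => dot w x - mv) x = w i := by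
      intro i x
      have h1 : HasFDerivAt (fun x => dot w x - mv) (∑ j, w j • (ContinuousLinearMap.proj j :
          (Fin n → ℝ) →L[ℝ] ℝ)) x :=
        (HasFDerivAt.fun_sum fun j _ => ((ContinuousLinearMap.proj (R := ℝ)
          (φ := fun _ : Fin n => ℝ) j).hasFDerivAt).const_mul (w j)).sub_const mv
      rw [pd, h1.fderiv]
      simp [Pi.single_apply]
    have h := S.gen_ibp hdot hu
    simp only [hpd, integral_const_mul] at h
    have e : ∑ i, w i * ∫ x, pd i u x ∂S.μ = sumSq w :=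
      Finset.sum_congr rfl fun i _ => (sq (w i)).symm
    rw [e] at h
    have hc := (S.cs hY hgL).trans (mul_le_mul_of_nonneg_right (hcov w)
      (integral_nonneg fun _ => sq_nonneg _))
    rw [h, neg_sq] at hc
    rcases (sumSq_nonneg w).eq_or_lt with h0 | h0
    · rw [← h0]; exact mul_nonneg hlam (integral_nonneg fun _ => sq_nonneg _)
    · exact le_of_mul_le_mul_left (by linarith) h0
  have hsum := Finset.sum_le_sum fun i (_ : i ∈ Finset.univ) => hper i
  rw [Finset.sum_sub_distrib, ← hen, ← Finset.mul_sum] at hsum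
  rw [show S.en u = ∫ x, (∑ i, pd i u x ^ 2) ∂S.μ from rfl] at hsum ⊢
  have hb' := mul_le_mul_of_nonneg_left hb hC.le
  rw [mul_add] at hb'
  rw [div_mul_eq_mul_div, le_div_iff₀ (by positivity)]
  have : sumSq w = ∑ i, w i ^ 2 := rfl
  linarith

/-- The improved Lichnerowicz inequality. -/
theorem lich (ht : 0 < t) {lam : ℝ} (hlam : 0 ≤ lam)
    (hcov : ∀ v : Fin n → ℝ, ∫ x, (dot v x - ∫ y, dot v y ∂S.μ) ^ 2 ∂S.μ ≤ lam * sumSq v) :
    S.Valid (Real.sqrt (lam / t)) ∧ S.Valid (1 / t) := by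
  have h1 : S.Valid (1 / t) := S.valid_of_gen (by positivity) fun u hu => by
    have hb := S.bochner hu
    have h0 : 0 ≤ ∑ i, ∫ x, (∑ j, pd j (pd i u) x ^ 2) ∂S.μ :=
      Finset.sum_nonneg fun i _ => integral_nonneg fun _ => Finset.sum_nonneg fun _ _ => sq_nonneg _
    rw [one_div, inv_mul_eq_div, le_div_iff₀ ht, mul_comm]
    show t * ∫ x, (∑ i, pd i u x ^ 2) ∂S.μ ≤ _
    linarith
  refine ⟨?_, h1⟩
  set A := {C : ℝ | 0 ≤ C ∧ S.Valid C}
  have hne : A.Nonempty := ⟨1 / t, by positivity, h1⟩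
  have hbd : BddBelow A := ⟨0, fun C hC => hC.1⟩
  set c := sInf A
  have hc0 : 0 ≤ c := le_csInf hne fun C hC => hC.1
  have hmono : ∀ C C', C ≤ C' → S.Valid C → S.Valid C' := fun C C' hle hV f h2 h3 h4 =>
    (hV f h2 h3 h4).trans (mul_le_mul_of_nonneg_right hle (S.en_nonneg f))
  have hcV : S.Valid c := by
    intro f h2 h3 h4
    refine ge_of_tendsto (f := fun e : ℝ => (c + e) * ∫ x, (∑ i, pd i f x ^ 2) ∂S.μ) (x := 𝓝[>] (0:ℝ))
      (tendsto_nhdsWithin_of_tendsto_nhds (Continuous.tendsto' (by fun_prop) _ _ (by simp))) ?_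
    filter_upwards [eventually_mem_nhdsWithin] with e he
    obtain ⟨C, hC, hlt⟩ := exists_lt_of_csInf_lt hne (show c < c + e by
      have : (0:ℝ) < e := he
      linarith)
    exact hmono C _ hlt.le hC.2 f h2 h3 h4
  rcases hc0.eq_or_lt with h0 | h0
  · exact hmono c _ (by rw [← h0]; positivity) hcV
  · have hle : c ≤ (c + lam) / (1 + t * c) :=
      csInf_le hbd ⟨by positivity, S.valid_step ht hlam h0 hcV hcov⟩
    rw [le_div_iff₀ (by positivity)] at hle
    refine hmono c _ ?_ hcV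
    rw [Real.le_sqrt hc0 (by positivity), le_div_iff₀ ht]
    linarith

end Smo

end Vale.Agent.P245
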