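import Mathlib
import Vale.Agent.P245.Limit
import Vale.Agent.P245.Cube.Lich

/-!
Weights converging against all mild functions, and the three approximation stages.
-/

namespace Vale.Agent.P245

open MeasureTheory Set Filter Topology Function Finset
open scoped ContDiff

variable {n : ℕ}

/-- Convergence of weights against mild functions. -/
def Conv (wk : ℕ → (Fin n → ℝ) → ℝ) (w : (Fin n → ℝ) → ℝ) : Prop :=
  ∀ φ : (Fin n → ℝ) → ℝ, Mild φ → Tendsto (fun k => ∫ x, φ x * wk k x) atTop (𝓝 (∫ x, φ x * w x))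

/-- Mean for a weight. -/
noncomputable def wmean (w φ : (Fin n → ℝ) → ℝ) : ℝ := (∫ x, φ x * w x) / ∫ x, w x

/-- Variance for a weight. -/
noncomputable def wvar (w f : (Fin n → ℝ) → ℝ) : ℝ :=
  wmean w (fun x => f x ^ 2) - wmean w f ^ 2

/-- Gradient energy for a weight. -/
noncomputable def wen (w f : (Fin n → ℝ) → ℝ) : ℝ := wmean w fun x => ∑ i, pd i f x ^ 2

/-- Continuously differentiable functions with mild gradient. -/
def Cls (f : (Fin n → ℝ) → ℝ) : Prop := ContDiff ℝ 1 f ∧ Mild f ∧ ∀ i, Mild (pd i f)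

/-- The Poincaré inequalities of a uniformly log-concave weight. -/
def Poin (w : (Fin n → ℝ) → ℝ) (t : ℝ) : Prop :=
  ∀ f, Cls f → wvar w f ≤ (1 / t) * wen w f ∧
    ∀ lam : ℝ, 0 ≤ lam → (∀ v, wvar w (fun x => dot v x) ≤ lam * sumSq v) →
      wvar w f ≤ Real.sqrt (lam / t) * wen w f

/-- The logarithmic Sobolev inequality for a weight. -/
def WLsi (w : (Fin n → ℝ) → ℝ) (tau : ℝ) : Prop :=
  ∀ T : Test n, Continuous (fun x => ∑ i, T.Dg i x ^ 2) →
    wmean w (fun x => nlog (T.g x ^ 2)) - nlog (wmean w fun x => T.g x ^ 2)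
      ≤ tau * wmean w fun x => ∑ i, T.Dg i x ^ 2

namespace Conv

variable {wk : ℕ → (Fin n → ℝ) → ℝ} {w : (Fin n → ℝ) → ℝ}

lemma mean (h : Conv wk w) (hZ : ∫ x, w x ≠ 0) {φ : (Fin n → ℝ) → ℝ} (hφ : Mild φ) :
    Tendsto (fun k => wmean (wk k) φ) atTop (𝓝 (wmean w φ)) :=
  (h φ hφ).div (by simpa using h _ (Mild.const 1)) hZ

lemma var (h : Conv wk w) (hZ : ∫ x, w x ≠ 0) {f : (Fin n → ℝ) → ℝ} (hf : Mild f) :
    Tendsto (fun k => wvar (wk k) f) atTop (𝓝 (wvar w f)) :=
  (h.mean hZ (hf.pow 2)).sub ((h.mean hZ hf).pow 2)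

lemma wen (h : Conv wk w) (hZ : ∫ x, w x ≠ 0) {f : (Fin n → ℝ) → ℝ} (hf : Cls f) :
    Tendsto (fun k => Vale.Agent.P245.wen (wk k) f) atTop (𝓝 (Vale.Agent.P245.wen w f)) :=
  h.mean hZ (Mild.sum _ fun i _ => (hf.2.2 i).pow 2)

lemma lsi (h : Conv wk w) (hZ : ∫ x, w x ≠ 0) {tau : ℝ} (hk : ∀ᶠ k in atTop, WLsi (wk k) tau) :
    WLsi w tau := by
  intro T hDc
  obtain ⟨B, hB⟩ := T.bdd
  obtain ⟨B2, hB2⟩ := T.exists_sq_bound
  obtain ⟨C2, hC2⟩ := exists_bound_nlog B2
  have m1 : Mild fun x => nlog (T.g x ^ 2) :=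
    Mild.bdd (continuous_nlog.comp (T.cont.pow 2)) fun x => hC2 _ (hB2 x)
  have m2 : Mild fun x => T.g x ^ 2 :=
    Mild.bdd (T.cont.pow 2) (B := B2) fun x => by rw [abs_of_nonneg (hB2 x).1]; exact (hB2 x).2
  have m3 : Mild fun x => ∑ i, T.Dg i x ^ 2 := Mild.bdd hDc (B := n * B ^ 2) fun x => by
    rw [abs_of_nonneg (Finset.sum_nonneg fun i _ => sq_nonneg _)]
    refine (Finset.sum_le_sum fun i _ => show T.Dg i x ^ 2 ≤ B ^ 2 by
      rw [← sq_abs]; exact pow_le_pow_left₀ (abs_nonneg _) ((hB x).2 i) 2).trans ?_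
    simp
  exact le_of_tendsto_of_tendsto ((h.mean hZ m1).sub ((continuous_nlog.tendsto _).comp (h.mean hZ m2)))
    ((h.mean hZ m3).const_mul tau) (hk.mono fun k hk => hk T hDc)

end Conv

lemma wmean_sum {w : (Fin n → ℝ) → ℝ} {ι : Type*} (s : Finset ι) {F : ι → (Fin n → ℝ) → ℝ}
    (hF : ∀ i ∈ s, Integrable fun x => F i x * w x) :
    wmean w (fun x => ∑ i ∈ s, F i x) = ∑ i ∈ s, wmean w (F i) := by
  simp only [wmean, Finset.sum_mul]
  rw [integral_finsetSum _ hF, Finset.sum_div]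

lemma wmean_const_mul (w F : (Fin n → ℝ) → ℝ) (r : ℝ) :
    wmean w (fun x => r * F x) = r * wmean w F := by
  simp only [wmean, mul_assoc, integral_const_mul, mul_div_assoc]

/-- Covariance matrix of a weight. -/
noncomputable def wcov (w : (Fin n → ℝ) → ℝ) (i j : Fin n) : ℝ :=
  wmean w (fun x => x i * x j) - wmean w (fun x => x i) * wmean w fun x => x j

lemma wvar_dot {w : (Fin n → ℝ) → ℝ} (hw : ∀ φ, Mild φ → Integrable fun x => φ x * w x)
    (v : Fin n → ℝ) : wvar w (fun x => dot v x) = ∑ i, ∑ j, v i * v j * wcov w i j := by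
  have e1 : wmean w (fun x => dot v x ^ 2) = ∑ i, ∑ j, v i * v j * wmean w fun x => x i * x j := by
    simp only [dot, sq, Finset.sum_mul_sum]
    rw [wmean_sum _ fun i _ => hw _ (Mild.sum _ fun j _ =>
      ((Mild.coord i).const_mul (v i)).mul ((Mild.coord j).const_mul (v j)))]
    refine Finset.sum_congr rfl fun i _ => ?_
    rw [wmean_sum _ fun j _ => hw _ (((Mild.coord i).const_mul (v i)).mul ((Mild.coord j).const_mul (v j)))]
    refine Finset.sum_congr rfl fun j _ => ?_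
    rw [← wmean_const_mul]
    congr 1; funext x; ring
  have e2 : wmean w (fun x => dot v x) = ∑ i, v i * wmean w fun x => x i := by
    simp only [dot]
    rw [wmean_sum _ fun i _ => hw _ ((Mild.coord i).const_mul (v i))]
    exact Finset.sum_congr rfl fun i _ => wmean_const_mul w _ _
  rw [wvar, e1, e2, sq, Finset.sum_mul_sum, ← Finset.sum_sub_distrib]
  refine Finset.sum_congr rfl fun i _ => ?_
  rw [← Finset.sum_sub_distrib]
  exact Finset.sum_congr rfl fun j _ => by rw [wcov]; ring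

lemma Conv.poin {wk : ℕ → (Fin n → ℝ) → ℝ} {w : (Fin n → ℝ) → ℝ} (h : Conv wk w) (hZ : ∫ x, w x ≠ 0)
    (hwi : ∀ φ, Mild φ → Integrable fun x => φ x * w x)
    (hki : ∀ᶠ k in atTop, ∀ φ, Mild φ → Integrable fun x => φ x * wk k x)
    {t : ℝ} (hk : ∀ᶠ k in atTop, Poin (wk k) t) : Poin w t := by
  intro f hf
  refine ⟨le_of_tendsto_of_tendsto (h.var hZ hf.2.1) ((h.wen hZ hf).const_mul _)
    (hk.mono fun k hk => (hk f hf).1), fun lam hlam hcov => ?_⟩
  have key : ∀ e : ℝ, 0 < e → wvar w f ≤ Real.sqrt ((lam + e) / t) * Vale.Agent.P245.wen w f := by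
    intro e he
    have hc : ∀ i j, Tendsto (fun k => wcov (wk k) i j) atTop (𝓝 (wcov w i j)) := fun i j =>
      (h.mean hZ ((Mild.coord i).mul (Mild.coord j))).sub
        ((h.mean hZ (Mild.coord i)).mul (h.mean hZ (Mild.coord j)))
    have hev : ∀ᶠ k in atTop, ∀ i j, |wcov (wk k) i j - wcov w i j| ≤ e / ((n:ℝ) + 1) := by
      simp only [eventually_all]
      intro i j
      have := (Metric.tendsto_nhds.1 (hc i j)) (e / ((n:ℝ) + 1)) (by positivity)
      exact this.mono fun k hk => (by simpa [Real.dist_eq] using hk.le)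
    refine le_of_tendsto_of_tendsto (h.var hZ hf.2.1) ((h.wen hZ hf).const_mul _) ?_
    filter_upwards [hev, hki, hk] with k hk1 hk2 hk3
    refine (hk3 f hf).2 (lam + e) (by linarith) fun v => ?_
    have h0 := hcov v
    rw [wvar_dot hwi] at h0
    rw [wvar_dot hk2]
    have hsum : ∑ i, ∑ j, v i * v j * (wcov (wk k) i j - wcov w i j) ≤ e * sumSq v := by
      calc ∑ i, ∑ j, v i * v j * (wcov (wk k) i j - wcov w i j)
          ≤ ∑ i, ∑ j, |v i| * |v j| * (e / ((n:ℝ) + 1)) := by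
            refine Finset.sum_le_sum fun i _ => Finset.sum_le_sum fun j _ => ?_
            refine (le_abs_self _).trans ?_
            rw [abs_mul, abs_mul]
            exact mul_le_mul_of_nonneg_left (hk1 i j) (by positivity)
        _ = (∑ i, |v i|) ^ 2 * (e / ((n:ℝ) + 1)) := by
            rw [sq, Finset.sum_mul_sum, Finset.sum_mul]
            exact Finset.sum_congr rfl fun i _ => by rw [Finset.sum_mul]
        _ ≤ ((n:ℝ) * sumSq v) * (e / ((n:ℝ) + 1)) := by
            refine mul_le_mul_of_nonneg_right ?_ (by positivity)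
            have := sq_sum_le_card_mul_sum_sq (s := (Finset.univ : Finset (Fin n))) (f := fun i => |v i|)
            simpa [sumSq] using this
        _ ≤ e * sumSq v := by
            rw [show (n:ℝ) * sumSq v * (e / ((n:ℝ) + 1)) = e * sumSq v * ((n:ℝ) / ((n:ℝ) + 1)) by ring]
            exact mul_le_of_le_one_right (mul_nonneg he.le (sumSq_nonneg v))
              ((div_le_one (by positivity)).2 (by linarith))
    simp only [mul_sub, Finset.sum_sub_distrib] at hsum
    linarith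
  refine ge_of_tendsto (f := fun e : ℝ => Real.sqrt ((lam + e) / t) * Vale.Agent.P245.wen w f)
    (x := 𝓝[>] (0:ℝ)) ?_ (eventually_mem_nhdsWithin.mono fun e he => key e he)
  exact tendsto_nhdsWithin_of_tendsto_nhds (Continuous.tendsto' (by fun_prop) _ _ (by simp))

/-! ### The stages -/

/-- The tilting factor. -/
noncomputable def tf (s : ℝ) (θ x : Fin n → ℝ) : ℝ := Real.exp (dot θ x - s / 2 * sumSq x)

@[fun_prop]
lemma continuous_tf (s : ℝ) (θ : Fin n → ℝ) : Continuous (tf s θ) := by unfold tf; fun_prop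

lemma wt_eq_tf (ρ : (Fin n → ℝ) → ℝ) (s : ℝ) (θ x : Fin n → ℝ) : wt ρ s θ x = tf s θ x * ρ x := rfl

lemma tf_pos (s : ℝ) (θ x : Fin n → ℝ) : 0 < tf s θ x := Real.exp_pos _

lemma Mild.mul_tf_bound {φ : (Fin n → ℝ) → ℝ} (hφ : Mild φ) {s : ℝ} (hs : 0 ≤ s) (θ : Fin n → ℝ)
    {c : ℝ} (hc : 0 < c) : ∃ C, ∀ x, |φ x * tf s θ x| ≤ C * Real.exp (c * sumSq x) := by
  obtain ⟨C, hC⟩ := hφ.2 (c / 2) (half_pos hc)
  refine ⟨C * Real.exp (sumSq θ / (4 * (c / 2))), fun x => ?_⟩
  rw [abs_mul, abs_of_pos (tf_pos s θ x)]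
  have h1 : tf s θ x ≤ Real.exp (sumSq θ / (4 * (c / 2)) + c / 2 * sumSq x) := Real.exp_le_exp.2 (by
    have := dot_le_sumSq θ x (half_pos hc)
    have := mul_nonneg (half_pos hc).le (sumSq_nonneg x)
    nlinarith [mul_nonneg hs (sumSq_nonneg x)])
  refine (mul_le_mul (hC x) h1 (tf_pos s θ x).le ((abs_nonneg _).trans (hC x))).trans (le_of_eq ?_)
  rw [mul_assoc C, mul_assoc C, ← Real.exp_add, ← Real.exp_add]
  ring_nf

/-- The weight on a box. -/
noncomputable def boxW (ρ : (Fin n → ℝ) → ℝ) (r s : ℝ) (θ x : Fin n → ℝ) : ℝ :=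
  (suppBox ρ r).indicator (fun x => wt ρ s θ x) x

variable {ρ : (Fin n → ℝ) → ℝ} {a : ℝ}

lemma integrable_boxW (h : SubDensity ρ a) {φ : (Fin n → ℝ) → ℝ} (hφ : Mild φ) (r : ℝ) {s : ℝ}
    (hs : 0 ≤ s) (θ : Fin n → ℝ) : Integrable fun x => φ x * boxW ρ r s θ x := by
  have e : (fun x => φ x * boxW ρ r s θ x) = (suppBox ρ r).indicator fun x => φ x * wt ρ s θ x := by
    funext x; rw [boxW, Set.indicator_mul_right]
  rw [e]
  exact (h.integrable_mo hφ (by linarith [h.kap_pos]) θ).indicator (measurableSet_suppBox h.meas r)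

lemma conv_box (h : SubDensity ρ a) {s : ℝ} (hs : 0 ≤ s) (θ : Fin n → ℝ) {r : ℕ → ℝ}
    (hr : ∀ k : ℕ, (k:ℝ) ≤ r k) : Conv (fun k => boxW ρ (r k) s θ) (wt ρ s θ) := by
  intro φ hφ
  have hi := h.integrable_mo hφ (show -kap a ≤ s by linarith [h.kap_pos]) θ
  refine tendsto_integral_of_dominated_convergence (fun x => |φ x * wt ρ s θ x|)
    (fun k => (integrable_boxW h hφ (r k) hs θ).aestronglyMeasurable) hi.abs
    (fun k => Eventually.of_forall fun x => ?_) (Eventually.of_forall fun x => ?_)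
  · rw [Real.norm_eq_abs, abs_mul, abs_mul]
    refine mul_le_mul_of_nonneg_left ?_ (abs_nonneg _)
    have := norm_indicator_le_norm_self (s := suppBox ρ (r k)) (wt ρ s θ) x
    simpa [boxW, Real.norm_eq_abs] using this
  · refine tendsto_const_nhds.congr' ?_
    filter_upwards [eventually_ge_atTop ⌈‖x‖⌉₊] with k hk
    rcases (h.nonneg x).eq_or_lt with hx | hx
    · simp [boxW, wt, ← hx]
    · rw [boxW, Set.indicator_of_mem]
      refine ⟨hx, fun i => ?_⟩
      calc |x i| = ‖x i‖ := (Real.norm_eq_abs _).symm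
        _ ≤ ‖x‖ := norm_le_pi_norm x i
        _ ≤ (k : ℝ) := (Nat.le_ceil _).trans (by exact_mod_cast hk)
        _ ≤ r k := hr k

/-- The envelope weight. -/
noncomputable def envW (ρ : (Fin n → ℝ) → ℝ) (r N s : ℝ) (θ x : Fin n → ℝ) : ℝ :=
  tf s θ x * Real.exp (-env ρ r N x)

lemma EnvData.integrable_envW {r N : ℝ} (hd : EnvData ρ r N) {φ : (Fin n → ℝ) → ℝ} (hφ : Mild φ)
    {s : ℝ} (hs : 0 ≤ s) (θ : Fin n → ℝ) : Integrable fun x => φ x * envW ρ r N s θ x := by
  obtain ⟨C, hC⟩ := hφ.mul_tf_bound hs θ (show 0 < N / 8 by linarith [hd.N_pos])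
  obtain ⟨c, hc⟩ := hd.env_lower
  refine ((integrable_gauss (show 0 < N / 8 by linarith [hd.N_pos])).const_mul (C * Real.exp c)).mono'
    (hφ.cont.mul ((continuous_tf s θ).mul hd.continuous_env.neg.rexp)).aestronglyMeasurable
    (Eventually.of_forall fun x => ?_)
  show |φ x * envW ρ r N s θ x| ≤ _
  rw [envW, ← mul_assoc, abs_mul, abs_of_pos (Real.exp_pos _)]
  refine (mul_le_mul (hC x) (Real.exp_le_exp.2 (show -env ρ r N x ≤ c - N / 4 * sumSq x by linarith [hc x]))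
    (Real.exp_pos _).le ((abs_nonneg _).trans (hC x))).trans (le_of_eq ?_)
  rw [mul_assoc C, mul_assoc C, ← Real.exp_add, ← Real.exp_add]; ring_nf

lemma conv_env (h : SubDensity ρ a) {r N0 : ℝ} (hd : EnvData ρ r N0) {s : ℝ} (hs : 0 ≤ s)
    (θ : Fin n → ℝ) : Conv (fun k => envW ρ r (N0 + k) s θ) (boxW ρ r s θ) := by
  intro φ hφ
  obtain ⟨C, hC⟩ := hφ.mul_tf_bound hs θ (show 0 < N0 / 8 by linarith [hd.N_pos])
  have := tendsto_env_integral hd h.meas (f := fun x => φ x * tf s θ x)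
    (hφ.cont.mul (continuous_tf s θ)) (show N0 / 8 < N0 / 4 by linarith [hd.N_pos]) hC
  rw [← integral_indicator (measurableSet_suppBox h.meas r)] at this
  convert this using 2 with k
  · congr 1; funext x; simp only [envW]; ring
  · refine congrArg _ (funext fun x => ?_)
    by_cases hx : x ∈ suppBox ρ r
    · simp [boxW, hx, wt_eq_tf, mul_assoc]
    · simp [boxW, hx]

/-- The mollified envelope weight. -/
noncomputable def smoW (ρ : (Fin n → ℝ) → ℝ) (r N s : ℝ) (θ : Fin n → ℝ) (k : ℕ) (x : Fin n → ℝ) : ℝ :=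
  tf s θ x * Real.exp (-cv (moll n k) (env ρ r N) x)

lemma EnvData.cv_lower {r N : ℝ} (hd : EnvData ρ r N) :
    ∃ c, ∀ (k : ℕ) x, N / 8 * sumSq x - c ≤ cv (moll n k) (env ρ r N) x := by
  obtain ⟨c, hc⟩ := hd.env_lower
  refine ⟨c + N / 4 * n, fun k x => ?_⟩
  refine le_trans (le_of_eq (cv_moll_const k _ x).symm) (cv_le_of_nonneg (continuous_moll k)
    (hasCompactSupport_moll k) (moll_nonneg k) continuous_const.locallyIntegrable
    hd.continuous_env.locallyIntegrable x fun y hy => le_trans ?_ (hc y))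
  have h1 : ‖x - y‖ ≤ 1 := (norm_le_of_moll_ne hy).trans (by
    rw [div_le_one (by positivity)]; linarith [(Nat.cast_nonneg k : (0:ℝ) ≤ k)])
  have h2 : sumSq x ≤ 2 * sumSq y + 2 * n := by
    have hi : ∀ i, x i ^ 2 ≤ 2 * y i ^ 2 + 2 := fun i => by
      have h3 := (norm_le_pi_norm (x - y) i).trans h1
      rw [Pi.sub_apply, Real.norm_eq_abs, abs_le] at h3
      nlinarith [sq_nonneg (2 * y i - x i)]
    refine (Finset.sum_le_sum fun i _ => hi i).trans (le_of_eq ?_)
    simp [sumSq, Finset.sum_add_distrib, Finset.mul_sum]; ring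
  have := mul_le_mul_of_nonneg_left h2 (show 0 ≤ N / 8 by linarith [hd.N_pos])
  linarith

lemma EnvData.integrable_smoW {r N : ℝ} (hd : EnvData ρ r N) {φ : (Fin n → ℝ) → ℝ} (hφ : Mild φ)
    {s : ℝ} (hs : 0 ≤ s) (θ : Fin n → ℝ) (k : ℕ) : Integrable fun x => φ x * smoW ρ r N s θ k x := by
  obtain ⟨C, hC⟩ := hφ.mul_tf_bound hs θ (show 0 < N / 16 by linarith [hd.N_pos])
  obtain ⟨c, hc⟩ := hd.cv_lower
  refine ((integrable_gauss (show 0 < N / 16 by linarith [hd.N_pos])).const_mul (C * Real.exp c)).mono'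
    (hφ.cont.mul ((continuous_tf s θ).mul (continuous_cv (continuous_moll k) (hasCompactSupport_moll k)
      hd.continuous_env.locallyIntegrable).neg.rexp)).aestronglyMeasurable
    (Eventually.of_forall fun x => ?_)
  show |φ x * smoW ρ r N s θ k x| ≤ _
  rw [smoW, ← mul_assoc, abs_mul, abs_of_pos (Real.exp_pos _)]
  refine (mul_le_mul (hC x) (Real.exp_le_exp.2 (show -cv (moll n k) (env ρ r N) x ≤ c - N / 8 * sumSq x
    by linarith [hc k x])) (Real.exp_pos _).le ((abs_nonneg _).trans (hC x))).trans (le_of_eq ?_)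
  rw [mul_assoc C, mul_assoc C, ← Real.exp_add, ← Real.exp_add]; ring_nf

lemma conv_smo {r N : ℝ} (hd : EnvData ρ r N) {s : ℝ} (hs : 0 ≤ s) (θ : Fin n → ℝ) :
    Conv (fun k => smoW ρ r N s θ k) (envW ρ r N s θ) := by
  intro φ hφ
  obtain ⟨C, hC⟩ := hφ.mul_tf_bound hs θ (show 0 < N / 16 by linarith [hd.N_pos])
  obtain ⟨c, hc⟩ := hd.cv_lower
  refine tendsto_integral_of_dominated_convergence
    (fun x => C * Real.exp c * Real.exp (-(N / 16) * sumSq x))
    (fun k => (hd.integrable_smoW hφ hs θ k).aestronglyMeasurable)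
    ((integrable_gauss (show 0 < N / 16 by linarith [hd.N_pos])).const_mul _)
    (fun k => Eventually.of_forall fun x => ?_) (Eventually.of_forall fun x => ?_)
  · show ‖φ x * smoW ρ r N s θ k x‖ ≤ _
    rw [Real.norm_eq_abs, smoW, ← mul_assoc, abs_mul, abs_of_pos (Real.exp_pos _)]
    refine (mul_le_mul (hC x) (Real.exp_le_exp.2 (show -cv (moll n k) (env ρ r N) x ≤ c - N / 8 * sumSq x
      by linarith [hc k x])) (Real.exp_pos _).le ((abs_nonneg _).trans (hC x))).trans (le_of_eq ?_)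
    rw [mul_assoc C, mul_assoc C, ← Real.exp_add, ← Real.exp_add]; ring_nf
  · exact ((((Real.continuous_exp.tendsto _).comp
      (tendsto_cv_moll hd.continuous_env x).neg).const_mul (tf s θ x)).const_mul (φ x))

end Vale.Agent.P245
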