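import Mathlib
import Vale.Agent.P245.Entropy

/-!
Entropy inequality for potentials that are uniformly convex up to an integrable defect.
-/

namespace Vale.Agent.P245

open MeasureTheory Set Filter Topology Function Finset

variable {n : ℕ}

/-- Uniform convexity up to a defect at the base point. -/
def NearConvex (U : Pot n) (k : ℝ) (Df : (Fin n → ℝ) → ℝ) : Prop :=
  ∀ b a, U.V b + (∑ i, U.G i b * (a i - b i)) + k * (∑ i, (a i - b i) ^ 2) - Df b ≤ U.V a

lemma disp_le_of_nearConvex (U : Pot n) (T : Test n) {k δ : ℝ} (hδ : 0 < δ)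
    {Df : (Fin n → ℝ) → ℝ} (hDi : Integrable Df U.dens.meas) (hU : NearConvex U k Df) :
    k * ∫ b, ∑ i, (Dens.kn U.dens (T.tilt U hδ) b i - b i) ^ 2 ∂U.dens.meas
      ≤ T.relEnt U δ hδ + ∫ b, Df b ∂U.dens.meas := by
  set P := T.tilt U hδ
  set Q := U.dens
  have iGb : ∀ i, Integrable (fun b => U.G i b * (Dens.kn Q P b i - b i)) Q.meas :=
    fun i => integrable_mul_of_sq (U.Gmeas i)
      ((Dens.measurable_kn_apply Q P i).sub (measurable_pi_apply i))
      (U.integrable_G_sq Q i) (integrable_theta_sq Q P i)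
  have iθ : Integrable (fun b => k * ∑ i, (Dens.kn Q P b i - b i) ^ 2) Q.meas :=
    (integrable_finsetSum _ fun i _ => integrable_theta_sq Q P i).const_mul _
  have iG : Integrable (fun b => ∑ i, U.G i b * (Dens.kn Q P b i - b i)) Q.meas :=
    integrable_finsetSum _ fun i _ => iGb i
  have i1 : Integrable (fun b => (∑ i, U.G i b * (Dens.kn Q P b i - b i))
      + k * ∑ i, (Dens.kn Q P b i - b i) ^ 2) Q.meas := iG.add iθ
  have e : ∀ i, ∫ b, dissip (Dens.slope Q P i b) ∂Q.meas
      = (∫ b, U.G i b * (Dens.kn Q P b i - b i) ∂Q.meas) + Dens.entStep Q P i := by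
    intro i
    rw [Dens.integral_dissip, Dens.integral_D_eq, ← integral_neg]
    congr 2; funext b
    rw [U.dens_ratio]; simp only [neg_mul, neg_neg]
  have h0 : 0 ≤ ∑ i, ∫ b, dissip (Dens.slope Q P i b) ∂Q.meas :=
    Finset.sum_nonneg fun i _ => integral_nonneg fun b => dissip_nonneg (Dens.slope_pos Q P i b)
  rw [Finset.sum_congr rfl fun i _ => e i, Finset.sum_add_distrib,
    ← integral_finsetSum _ fun i _ => iGb i, T.sum_entStep_tilt U hδ] at h0
  have h1 : (∫ b, ((∑ i, U.G i b * (Dens.kn Q P b i - b i))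
      + k * ∑ i, (Dens.kn Q P b i - b i) ^ 2) ∂Q.meas) - ∫ b, Df b ∂Q.meas ≤ U.gain P := by
    rw [← integral_sub i1 hDi]
    exact integral_mono (i1.sub hDi) (U.integrable_gain P) fun b => by
      have := hU b (Dens.kn Q P b)
      linarith
  rw [integral_add iG iθ, integral_const_mul] at h1
  linarith

theorem good_of_nearConvex (U : Pot n) {k : ℝ} (hk : 0 < k) {Df : (Fin n → ℝ) → ℝ}
    (hD0 : ∀ x, 0 ≤ Df x) (hDi : Integrable Df U.dens.meas) (hU : NearConvex U k Df) :
    Test.Good U (100 * (1 + ∫ b, Df b ∂U.dens.meas) / k) := by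
  set E := ∫ b, Df b ∂U.dens.meas
  have hE : 0 ≤ E := integral_nonneg hD0
  refine ⟨fun T δ hδ => ?_, by positivity⟩
  set tau := 100 * (1 + E) / k
  have hτ : 0 < tau := by positivity
  have hm : 0 < T.mass U + δ := by linarith [T.mass_nonneg U]
  set H := T.relEnt U δ hδ
  have hfin : ∫ x, (T.g x ^ 2 + δ) * Real.log (T.ratio U δ x) ∂U.dens.meas = (T.mass U + δ) * H := by
    simp only [H, Test.relEnt]
    rw [Dens.integral_meas, Dens.integral_meas, ← integral_const_mul]
    congr 1; funext x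
    show _ = (T.mass U + δ) * (T.ratio U δ x * U.dens.p x * _)
    rw [Test.ratio]
    field_simp
  have hH0 : 0 ≤ H := by
    rw [show H = T.relEnt U δ hδ from rfl, ← T.sum_klStep_tilt U hδ]
    exact Finset.sum_nonneg fun i _ => Dens.klStep_nonneg _ _ i
  set W := ∫ b, ∑ i, (Dens.kn U.dens (T.tilt U hδ) b i - b i) ^ 2 ∂U.dens.meas
  have hW : k * W ≤ H + E := disp_le_of_nearConvex U T hδ hDi hU
  have hWτ : W / (2 * tau) ≤ (H + 1) / 200 := by
    rw [div_le_iff₀ (by linarith)]
    have : (H + 1) / 200 * (2 * tau) = (H + 1) * (1 + E) / k := by simp only [tau]; field_simp; ring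
    rw [this, le_div_iff₀ hk]
    nlinarith [mul_nonneg hH0 hE]
  have hYoung := T.pairing_le U hδ hτ
  have hHle := T.relEnt_le_pairing U hδ
  have hF0 : 0 ≤ T.fisher U δ hδ :=
    integral_nonneg fun b => Finset.sum_nonneg fun i _ => sq_nonneg _
  have hmain : H ≤ tau * T.fisher U δ hδ + 1 / 100 := by
    have : 0 ≤ tau * T.fisher U δ hδ := mul_nonneg hτ.le hF0
    linarith
  rw [hfin]
  calc (T.mass U + δ) * H ≤ (T.mass U + δ) * (tau * (4 * T.energy U / (T.mass U + δ)) + 1 / 100) :=
        mul_le_mul_of_nonneg_left (hmain.trans (by gcongr; exact T.fisher_le U hδ)) hm.le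
    _ = _ := by field_simp

end Vale.Agent.P245
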