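import Mathlib
import Vale.Agent.P245.Cube.Conv
import Vale.Agent.P245.Cube.Reg

/-!
Poincaré and logarithmic Sobolev inequalities for the tilted measures.
-/

namespace Vale.Agent.P245

open MeasureTheory Set Filter Topology Function Finset
open scoped ContDiff

variable {n : ℕ} {ρ : (Fin n → ℝ) → ℝ} {a : ℝ}

lemma convexOn_cv {η F : (Fin n → ℝ) → ℝ} (hη : Continuous η) (hc : HasCompactSupport η)
    (h0 : ∀ x, 0 ≤ η x) (hF : ConvexOn ℝ univ F) (hFc : Continuous F) :
    ConvexOn ℝ univ (cv η F) := by
  have e : ∀ x, cv η F x = ∫ z, η z * F (x - z) := fun x => by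
    rw [cv, ← integral_sub_left_eq_self (fun z => η z * F (x - z)) volume x]
    congr 1; funext y; rw [sub_sub_cancel]
  have hi : ∀ x, Integrable fun z => η z * F (x - z) := fun x =>
    (hη.mul (hFc.comp (by fun_prop))).integrable_of_hasCompactSupport hc.mul_right
  refine ⟨convex_univ, fun x _ y _ p q hp hq hpq => ?_⟩
  simp only [e, smul_eq_mul, ← integral_const_mul]
  rw [← integral_add ((hi x).const_mul p) ((hi y).const_mul q)]
  refine integral_mono (hi _) (((hi x).const_mul p).add ((hi y).const_mul q)) fun z => ?_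
  have hxy : p • x + q • y - z = p • (x - z) + q • (y - z) := by
    rw [smul_sub, smul_sub, sub_add_sub_comm, ← add_smul, hpq, one_smul]
  have h1 := hF.2 (Set.mem_univ (x - z)) (Set.mem_univ (y - z)) hp hq hpq
  rw [← hxy, smul_eq_mul, smul_eq_mul] at h1
  have := mul_le_mul_of_nonneg_left h1 (h0 z)
  show η z * F (p • x + q • y - z) ≤ p * (η z * F (x - z)) + q * (η z * F (y - z))
  linarith

lemma hess_nonneg {W : (Fin n → ℝ) → ℝ} (hW : ContDiff ℝ ∞ W) (hc : ConvexOn ℝ univ W)
    (x v : Fin n → ℝ) : 0 ≤ ∑ i, ∑ j, v i * v j * pd i (pd j W) x := by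
  have hd := hW.differentiable (by simp)
  set g := fun r : ℝ => W (x + r • v)
  set g' := fun r : ℝ => ∑ j, v j * pd j W (x + r • v)
  have hline : ∀ r : ℝ, HasDerivAt (fun r : ℝ => x + r • v) v r := fun r => by
    simpa using ((hasDerivAt_id' r).smul_const v).const_add x
  have hdec : ∀ (F : (Fin n → ℝ) → ℝ) (z : Fin n → ℝ), fderiv ℝ F z v = ∑ j, v j * pd j F z := by
    intro F z
    have e : v = ∑ j, v j • (Pi.single j (1:ℝ) : Fin n → ℝ) := by
      funext k; simp [Finset.sum_apply, Pi.single_apply]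
    conv_lhs => rw [e]
    simp [map_sum, pd]
  have h1 : ∀ r, HasDerivAt g (g' r) r := fun r => by
    have := (hd (x + r • v)).hasFDerivAt.comp_hasDerivAt r (hline r)
    rw [hdec] at this
    exact this
  have hgc : ConvexOn ℝ univ g := by
    have := hc.comp_affineMap (AffineMap.lineMap x (x + v))
    simpa [g, comp_def, AffineMap.lineMap_apply_module', add_comm] using this
  have hmono : Monotone g' := by
    have hm := hgc.monotoneOn_deriv fun r _ => (h1 r).differentiableAt
    intro r r' hrr
    have := hm (Set.mem_univ r) (Set.mem_univ r') hrr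
    rwa [(h1 r).deriv, (h1 r').deriv] at this
  have h2 : HasDerivAt g' (∑ i, ∑ j, v i * v j * pd i (pd j W) x) 0 := by
    have : ∀ j, HasDerivAt (fun r : ℝ => pd j W (x + r • v)) (∑ i, v i * pd i (pd j W) x) 0 := fun j => by
      have := ((contDiff_pd hW j).differentiable (by simp) (x + (0:ℝ) • v)).hasFDerivAt.comp_hasDerivAt
        0 (hline 0)
      rw [hdec] at this
      simp only [zero_smul, add_zero] at this
      exact this
    have h := HasDerivAt.fun_sum (u := Finset.univ) fun j _ => (this j).const_mul (v j)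
    refine h.congr_deriv ?_
    rw [Finset.sum_comm]
    simp only [Finset.mul_sum]
    exact Finset.sum_congr rfl fun i _ => Finset.sum_congr rfl fun j _ => by ring
  rw [← h2.deriv]
  exact hmono.deriv_nonneg

section Smooth

variable {r N s : ℝ} (hd : EnvData ρ r N) (θ : Fin n → ℝ) (k : ℕ)

include hd in
lemma zsmo_pos (hs : 0 ≤ s) : 0 < ∫ x, smoW ρ r N s θ k x := by
  have hi : Integrable fun x => smoW ρ r N s θ k x := by
    simpa using hd.integrable_smoW (Mild.const 1) hs θ k
  refine (integral_pos_iff_support_of_nonneg (f := fun x => smoW ρ r N s θ k x) (fun x => (mul_pos (tf_pos s θ x) (Real.exp_pos _)).le) hi).2 ?_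
  rw [show Function.support (fun x => smoW ρ r N s θ k x) = univ from
    eq_univ_of_forall fun x => (mul_pos (tf_pos s θ x) (Real.exp_pos _)).ne']
  exact Measure.measure_univ_pos.2 (NeZero.ne _)

/-- The smoothed tilted potential. -/
noncomputable def smoPot (hd : EnvData ρ r N) (hs : 0 < s) (θ : Fin n → ℝ) (k : ℕ) : Smo n s where
  V x := cv (moll n k) (env ρ r N) x + (s / 2 * sumSq x - dot θ x)
    + Real.log (∫ x, smoW ρ r N s θ k x)
  smooth := ((contDiff_cv (contDiff_moll k) (hasCompactSupport_moll k)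
    hd.continuous_env.locallyIntegrable).add (by unfold sumSq dot; fun_prop)).add contDiff_const
  hess x v := by
    set W := cv (moll n k) (env ρ r N)
    have hW : ContDiff ℝ ∞ W := contDiff_cv (contDiff_moll k) (hasCompactSupport_moll k)
      hd.continuous_env.locallyIntegrable
    have hWd := hW.differentiable (by simp)
    set c := Real.log (∫ x, smoW ρ r N s θ k x)
    have hQ : ∀ j y, HasFDerivAt (fun z : Fin n → ℝ => s / 2 * z j ^ 2 - θ j * z j)
        ((s * y j - θ j) • (ContinuousLinearMap.proj j : (Fin n → ℝ) →L[ℝ] ℝ)) y := fun j y => by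
      have hp : HasFDerivAt (fun z : Fin n → ℝ => z j)
          (ContinuousLinearMap.proj j : (Fin n → ℝ) →L[ℝ] ℝ) y :=
        (ContinuousLinearMap.proj (R := ℝ) (φ := fun _ : Fin n => ℝ) j).hasFDerivAt
      refine (((hp.pow 2).const_mul (s / 2)).sub (hp.const_mul (θ j))).congr_fderiv ?_
      ext z
      simp; ring
    have hfun : ∀ y, W y + (s / 2 * sumSq y - dot θ y) + c
        = W y + (∑ j, (s / 2 * y j ^ 2 - θ j * y j)) + c := fun y => by
      rw [Finset.sum_sub_distrib, ← Finset.mul_sum]; rfl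
    simp only [hfun]
    have e1 : ∀ j, pd j (fun y => W y + (∑ l, (s / 2 * y l ^ 2 - θ l * y l)) + c)
        = fun y => pd j W y + (s * y j - θ j) := fun j => funext fun y => by
      have h := ((hWd y).hasFDerivAt.add (HasFDerivAt.fun_sum (u := Finset.univ) fun l _ => hQ l y)).add_const c
      have h' : HasFDerivAt (fun y => W y + (∑ l, (s / 2 * y l ^ 2 - θ l * y l)) + c)
          (fderiv ℝ W y + ∑ l, (s * y l - θ l) • (ContinuousLinearMap.proj l : (Fin n → ℝ) →L[ℝ] ℝ)) y := h
      rw [pd, h'.fderiv]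
      simp [pd, Pi.single_apply]
    have e2 : ∀ i j, pd i (pd j (fun y => W y + (∑ l, (s / 2 * y l ^ 2 - θ l * y l)) + c)) x
        = pd i (pd j W) x + (if i = j then s else 0) := fun i j => by
      rw [e1]
      have hp : HasFDerivAt (fun z : Fin n → ℝ => z j)
          (ContinuousLinearMap.proj j : (Fin n → ℝ) →L[ℝ] ℝ) x :=
        (ContinuousLinearMap.proj (R := ℝ) (φ := fun _ : Fin n => ℝ) j).hasFDerivAt
      have h := ((contDiff_pd hW j).differentiable (by simp) x).hasFDerivAt.add
        ((hp.const_mul s).sub_const (θ j))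
      have h' : HasFDerivAt (fun y => pd j W y + (s * y j - θ j))
          (fderiv ℝ (pd j W) x + s • (ContinuousLinearMap.proj j : (Fin n → ℝ) →L[ℝ] ℝ)) x := h
      rw [pd, h'.fderiv]
      rcases eq_or_ne i j with rfl | hij
      · simp [pd]
      · simp [pd, hij, Ne.symm hij]
    simp only [e2, mul_add, Finset.sum_add_distrib]
    have h1 := hess_nonneg hW (convexOn_cv (continuous_moll k) (hasCompactSupport_moll k) (moll_nonneg k)
      hd.convexOn_env hd.continuous_env) x v
    have h2 : ∑ i, ∑ j, v i * v j * (if i = j then s else 0) = s * sumSq v := by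
      simp [sumSq, Finset.mul_sum, mul_comm, sq]
    linarith
  one := by
    have e : ∀ x, Real.exp (-(cv (moll n k) (env ρ r N) x + (s / 2 * sumSq x - dot θ x)
        + Real.log (∫ x, smoW ρ r N s θ k x)))
        = smoW ρ r N s θ k x / ∫ x, smoW ρ r N s θ k x := fun x => by
      rw [neg_add, Real.exp_add, Real.exp_neg (Real.log _), Real.exp_log (zsmo_pos hd θ k hs.le), neg_add,
        Real.exp_add, div_eq_mul_inv]
      simp only [smoW, tf, neg_sub]
      ring_nf
    simp only [e]
    rw [integral_div]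
    exact div_self (zsmo_pos hd θ k hs.le).ne'
  second := by
    have := (hd.integrable_smoW Mild.sumSq' hs.le θ k).div_const (∫ x, smoW ρ r N s θ k x)
    refine this.congr (Eventually.of_forall fun x => ?_)
    show _ = sumSq x * Real.exp _
    rw [neg_add, Real.exp_add, Real.exp_neg (Real.log _), Real.exp_log (zsmo_pos hd θ k hs.le), neg_add,
      Real.exp_add]
    simp only [smoW, tf, neg_sub]
    ring_nf

include hd in
lemma poin_smo (hs : 0 < s) : Poin (smoW ρ r N s θ k) s := by
  set S := smoPot hd hs θ k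
  have hp : ∀ x, S.p x = smoW ρ r N s θ k x / ∫ x, smoW ρ r N s θ k x := fun x => by
    show Real.exp (-(cv (moll n k) (env ρ r N) x + (s / 2 * sumSq x - dot θ x) + _)) = _
    rw [neg_add, Real.exp_add, Real.exp_neg (Real.log _), Real.exp_log (zsmo_pos hd θ k hs.le), neg_add,
      Real.exp_add, div_eq_mul_inv]
    simp only [smoW, tf, neg_sub]
    ring_nf
  have hm : ∀ φ, wmean (smoW ρ r N s θ k) φ = ∫ x, φ x ∂S.μ := fun φ => by
    rw [S.integral_μ, wmean, ← integral_div]
    congr 1; funext x; rw [hp]; ring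
  have hL : ∀ φ, Mild φ → MemLp φ 2 S.μ := fun φ hφ => by
    refine (memLp_two_iff_integrable_sq hφ.cont.aestronglyMeasurable).2 ((S.integrable_μ_iff _).2 ?_)
    refine ((hd.integrable_smoW (hφ.pow 2) hs.le θ k).div_const (∫ x, smoW ρ r N s θ k x)).congr (Eventually.of_forall fun x => ?_)
    simp only [hp]; ring
  have hv : ∀ f, Mild f → wvar (smoW ρ r N s θ k) f = ∫ x, (f x - ∫ y, f y ∂S.μ) ^ 2 ∂S.μ := fun f hf => by
    rw [wvar, hm, hm]
    set m := ∫ y, f y ∂S.μ
    have i1 := (hL f hf).integrable_sq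
    have i2 : Integrable (fun x => 2 * m * f x) S.μ := ((hL f hf).integrable (by norm_num)).const_mul _
    have i12 : Integrable (fun x => f x ^ 2 - 2 * m * f x) S.μ := i1.sub i2
    have : ∀ x, (f x - m) ^ 2 = (f x ^ 2 - 2 * m * f x) + m ^ 2 := fun x => by ring
    simp only [this]
    rw [integral_add i12 (integrable_const _), integral_sub i1 i2, integral_const_mul]
    simp [m]; ring
  intro f hf
  have he : wen (smoW ρ r N s θ k) f = ∫ x, (∑ i, pd i f x ^ 2) ∂S.μ := hm _
  rw [hv f hf.2.1, he]
  refine ⟨?_, fun lam hlam hcov => ?_⟩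
  · exact (S.lich hs (mul_nonneg (Finset.sum_nonneg fun i _ => Finset.sum_nonneg fun j _ => abs_nonneg
      (wcov (smoW ρ r N s θ k) i j)) zero_le_one) fun v => by
      rw [← hv _ (Mild.dot_left v), wvar_dot (fun φ hφ => hd.integrable_smoW hφ hs.le θ k), mul_one,
        Finset.sum_mul]
      refine Finset.sum_le_sum fun i _ => ?_
      rw [Finset.sum_mul]
      refine Finset.sum_le_sum fun j _ => ?_
      refine (le_abs_self _).trans ?_
      rw [abs_mul, mul_comm]
      refine mul_le_mul_of_nonneg_left ?_ (abs_nonneg _)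
      rw [abs_mul]
      nlinarith [sq_le_sumSq v i, sq_le_sumSq v j, sq_abs (v i), sq_abs (v j), sq_nonneg (|v i| - |v j|)]).2
      f hf.1 (hL f hf.2.1) fun i => hL _ (hf.2.2 i)
  · exact (S.lich hs hlam fun v => by rw [← hv _ (Mild.dot_left v)]; exact hcov v).1
      f hf.1 (hL f hf.2.1) fun i => hL _ (hf.2.2 i)

end Smooth

section Env

variable {r N s : ℝ} (hd : EnvData ρ r N) (θ : Fin n → ℝ)

include hd in
lemma zenv_pos (hs : 0 ≤ s) : 0 < ∫ x, envW ρ r N s θ x := by
  have hi : Integrable fun x => envW ρ r N s θ x := by simpa using hd.integrable_envW (Mild.const 1) hs θ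
  refine (integral_pos_iff_support_of_nonneg (f := fun x => envW ρ r N s θ x) (fun x => (mul_pos (tf_pos s θ x) (Real.exp_pos _)).le) hi).2 ?_
  rw [show Function.support (fun x => envW ρ r N s θ x) = univ from
    eq_univ_of_forall fun x => (mul_pos (tf_pos s θ x) (Real.exp_pos _)).ne']
  exact Measure.measure_univ_pos.2 (NeZero.ne _)

/-- The tilted envelope as a potential. -/
noncomputable def envPot (hd : EnvData ρ r N) (hs : 0 ≤ s) (θ : Fin n → ℝ) : Pot n where
  V x := env ρ r N x + (s / 2 * sumSq x - dot θ x) + Real.log (∫ x, envW ρ r N s θ x)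
  G i x := EnvData.envGrad ρ r N i x + (s * x i - θ i)
  contV := (hd.continuous_env.add (by fun_prop)).add continuous_const
  lower := by
    obtain ⟨c, hc⟩ := hd.env_lower
    have hN := hd.N_pos
    refine ⟨c + sumSq θ / (4 * (N / 8)) - Real.log (∫ x, envW ρ r N s θ x), N / 8, by positivity, fun x => ?_⟩
    have := dot_le_sumSq θ x (show 0 < N / 8 by positivity)
    nlinarith [hc x, mul_nonneg hs (sumSq_nonneg x)]
  upper := by
    obtain ⟨c, hc⟩ := hd.env_upper
    refine ⟨|c| + s + sumSq θ + 1 + |Real.log (∫ x, envW ρ r N s θ x)|, fun x => ?_⟩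
    have h1 := dot_le_sumSq (-θ) x (show (0:ℝ) < 1 by norm_num)
    have e1 : dot (-θ) x = -dot θ x := by simp [dot, Finset.sum_neg_distrib]
    have e2 : sumSq (-θ) = sumSq θ := by simp [sumSq]
    rw [e1, e2] at h1
    have hθ := sumSq_nonneg θ
    have hx := sumSq_nonneg x
    nlinarith [hc x, le_abs_self c, le_abs_self (Real.log (∫ x, envW ρ r N s θ x)),
      mul_nonneg hs hx, mul_nonneg (abs_nonneg c) hx, mul_nonneg hθ hx,
      mul_nonneg (abs_nonneg (Real.log (∫ x, envW ρ r N s θ x))) hx, mul_le_mul_of_nonneg_right (le_abs_self c) hx]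
  Gmeas i := (hd.measurable_envGrad i).add (by fun_prop)
  Gbound := by
    refine ⟨N * (2 + r) + s + ∑ i, |θ i|, fun i x => ?_⟩
    have h1 := hd.envGrad_bound x i
    have h2 : |x i| ≤ 1 + sumSq x := by
      nlinarith [sq_le_sumSq x i, sq_abs (x i), sq_nonneg (|x i| - 1)]
    have h3 := Finset.single_le_sum (f := fun j => |θ j|) (fun j _ => abs_nonneg _) (Finset.mem_univ i)
    have h4 := mul_le_mul_of_nonneg_left h2 hs
    have h5 : 0 ≤ (∑ i, |θ i|) * sumSq x :=
      mul_nonneg (Finset.sum_nonneg fun j _ => abs_nonneg _) (sumSq_nonneg x)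
    refine (abs_add_le _ _).trans ?_
    have : |s * x i - θ i| ≤ s * |x i| + |θ i| := (abs_sub _ _).trans (by rw [abs_mul, abs_of_nonneg hs])
    linarith
  deriv i x := by
    have h1 := hd.env_hasDerivAt x i
    have hu := hasDerivAt_update x i (x i)
    have h2 : HasDerivAt (fun u => s / 2 * sumSq (update x i u) - dot θ (update x i u)) (s * x i - θ i) (x i) := by
      have hu' : ∀ j, HasDerivAt (fun u => update x i u j) ((Pi.single i 1 : Fin n → ℝ) j) (x i) :=
        fun j => hasDerivAt_pi.1 hu j
      have ha : HasDerivAt (fun u => sumSq (update x i u))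
          (∑ j, 2 * x j * (Pi.single i 1 : Fin n → ℝ) j) (x i) := by
        refine HasDerivAt.fun_sum fun j _ => ?_
        simpa [update_eq_self] using (hu' j).fun_pow 2
      have hb : HasDerivAt (fun u => dot θ (update x i u))
          (∑ j, θ j * (Pi.single i 1 : Fin n → ℝ) j) (x i) :=
        HasDerivAt.fun_sum fun j _ => (hu' j).const_mul (θ j)
      refine ((ha.const_mul (s / 2)).sub hb).congr_deriv ?_
      simp [Pi.single_apply]; ring
    exact (h1.add h2).add_const _
  tangent p q := by
    have h1 := hd.env_tangent p q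
    have h2 : s / 2 * sumSq p - dot θ p - (s / 2 * sumSq q - dot θ q) ≤ ∑ i, (s * p i - θ i) * (p i - q i) := by
      simp only [sumSq, dot, Finset.mul_sum, ← Finset.sum_sub_distrib]
      refine Finset.sum_le_sum fun i _ => ?_
      nlinarith [mul_nonneg hs (sq_nonneg (p i - q i))]
    simp only [add_mul, Finset.sum_add_distrib]
    linarith
  one := by
    have e : ∀ x, Real.exp (-(env ρ r N x + (s / 2 * sumSq x - dot θ x)
        + Real.log (∫ x, envW ρ r N s θ x)))
        = envW ρ r N s θ x / ∫ x, envW ρ r N s θ x := fun x => by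
      rw [neg_add, Real.exp_add, Real.exp_neg (Real.log _), Real.exp_log (zenv_pos hd θ hs), neg_add,
        Real.exp_add, div_eq_mul_inv]
      simp only [envW, tf, neg_sub]
      ring_nf
    simp only [e]
    rw [integral_div]
    exact div_self (zenv_pos hd θ hs).ne'

include hd in
lemma wlsi_env (hs : 0 < s) : WLsi (envW ρ r N s θ) (64000 / s) := by
  intro T _
  set U := envPot hd hs.le θ
  have hm : ∀ φ, wmean (envW ρ r N s θ) φ = ∫ x, φ x ∂U.dens.meas := fun φ => by
    rw [Dens.integral_meas, wmean, ← integral_div]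
    congr 1; funext x
    show _ = Real.exp (-(env ρ r N x + (s / 2 * sumSq x - dot θ x) + _)) * φ x
    rw [neg_add, Real.exp_add, Real.exp_neg (Real.log _), Real.exp_log (zenv_pos hd θ hs.le), neg_add,
      Real.exp_add, div_eq_mul_inv]
    simp only [envW, tf, neg_sub]
    ring_nf
  have hU : NearConvex U (s / 2) fun _ => 0 := by
    intro b q
    have h1 := hd.env_tangent b q
    have e : ∑ i, EnvData.envGrad ρ r N i b * (b i - q i) = -∑ i, EnvData.envGrad ρ r N i b * (q i - b i) := by
      rw [← Finset.sum_neg_distrib]; exact Finset.sum_congr rfl fun i _ => by ring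
    have h2 : s / 2 * sumSq b - dot θ b + (∑ i, (s * b i - θ i) * (q i - b i))
        + s / 2 * (∑ i, (q i - b i) ^ 2) = s / 2 * sumSq q - dot θ q := by
      simp only [sumSq, dot, Finset.mul_sum, ← Finset.sum_sub_distrib, ← Finset.sum_add_distrib]
      exact Finset.sum_congr rfl fun i _ => by ring
    show env ρ r N b + (s / 2 * sumSq b - dot θ b) + _ + (∑ i, (EnvData.envGrad ρ r N i b
      + (s * b i - θ i)) * (q i - b i)) + _ - 0 ≤ env ρ r N q + (s / 2 * sumSq q - dot θ q) + _
    simp only [add_mul, Finset.sum_add_distrib]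
    linarith
  have hG := good_of_nearConvex U (half_pos hs) (fun _ => le_rfl) (integrable_const 0) hU
  have h := T.logSobolev hG
  simp only [integral_zero, add_zero, mul_one] at h
  simp only [hm]
  refine h.trans (le_of_eq ?_)
  rw [Test.energy]
  field_simp
  ring

end Env

/-- The Poincaré inequalities for the tilts. -/
theorem post_poin (h : SubDensity ρ a) (hlc : LogConcaveFun ρ) {s : ℝ} (hs : 0 < s) (θ : Fin n → ℝ) :
    Poin (wt ρ s θ) s := by
  have hk : -kap a ≤ s := by linarith [h.kap_pos]
  obtain ⟨r0, hr0⟩ := hlc.exists_suppBox h.nonneg h.one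
  set r : ℕ → ℝ := fun j => max r0 0 + j
  have hz := h.zz_pos hk θ
  have hc := conv_box h hs.le θ (r := r) fun j => le_add_of_nonneg_left (le_max_right _ _)
  have hpos : ∀ᶠ j in atTop, 0 < ∫ x, boxW ρ (r j) s θ x :=
    ((by simpa using hc _ (Mild.const 1)) : Tendsto (fun j => ∫ x, boxW ρ (r j) s θ x) atTop
      (𝓝 (∫ x, wt ρ s θ x))).eventually (eventually_gt_nhds hz)
  refine hc.poin hz.ne' (fun φ hφ => h.integrable_mo hφ hk θ)
    (Eventually.of_forall fun j φ hφ => integrable_boxW h hφ _ hs.le θ) (hpos.mono fun j hj => ?_)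
  have hd : EnvData ρ (r j) 4 :=
    { lc := hlc, nonempty := (hr0 _ ((le_max_left r0 0).trans (le_add_of_nonneg_right (Nat.cast_nonneg j)))).1,
      bdd := hlc.negLog_bddBelow h.nonneg h.one _, N_pos := by norm_num,
      r_nonneg := add_nonneg (le_max_right _ _) (Nat.cast_nonneg j) }
  have hdk : ∀ k : ℕ, EnvData ρ (r j) (4 + k) := fun k => { hd with N_pos := by positivity }
  refine (conv_env h hd hs.le θ).poin hj.ne' (fun φ hφ => integrable_boxW h hφ _ hs.le θ)
    (Eventually.of_forall fun k φ hφ => (hdk k).integrable_envW hφ hs.le θ) (Eventually.of_forall fun k => ?_)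
  exact (conv_smo (hdk k) hs.le θ).poin (zenv_pos (hdk k) θ hs.le).ne'
    (fun φ hφ => (hdk k).integrable_envW hφ hs.le θ)
    (Eventually.of_forall fun m φ hφ => (hdk k).integrable_smoW hφ hs.le θ m)
    (Eventually.of_forall fun m => poin_smo (hdk k) θ m hs)

/-- The logarithmic Sobolev inequality for the tilts. -/
theorem post_lsi (h : SubDensity ρ a) (hlc : LogConcaveFun ρ) {s : ℝ} (hs : 0 < s) (θ : Fin n → ℝ) :
    WLsi (wt ρ s θ) (64000 / s) := by
  have hk : -kap a ≤ s := by linarith [h.kap_pos]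
  obtain ⟨r0, hr0⟩ := hlc.exists_suppBox h.nonneg h.one
  set r : ℕ → ℝ := fun j => max r0 0 + j
  have hz := h.zz_pos hk θ
  have hc := conv_box h hs.le θ (r := r) fun j => le_add_of_nonneg_left (le_max_right _ _)
  have hpos : ∀ᶠ j in atTop, 0 < ∫ x, boxW ρ (r j) s θ x :=
    ((by simpa using hc _ (Mild.const 1)) : Tendsto (fun j => ∫ x, boxW ρ (r j) s θ x) atTop
      (𝓝 (∫ x, wt ρ s θ x))).eventually (eventually_gt_nhds hz)
  refine hc.lsi hz.ne' (hpos.mono fun j hj => ?_)
  have hd : EnvData ρ (r j) 4 :=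
    { lc := hlc, nonempty := (hr0 _ ((le_max_left r0 0).trans (le_add_of_nonneg_right (Nat.cast_nonneg j)))).1,
      bdd := hlc.negLog_bddBelow h.nonneg h.one _, N_pos := by norm_num,
      r_nonneg := add_nonneg (le_max_right _ _) (Nat.cast_nonneg j) }
  exact (conv_env h hd hs.le θ).lsi hj.ne'
    (Eventually.of_forall fun k => wlsi_env ({ hd with N_pos := by positivity }) θ hs)

end Vale.Agent.P245
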