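import Mathlib
import Vale.Agent.P074.PL
import Vale.Agent.P245.Cube.Post

/-!
Second and fourth moments of linear functions under the tilted measures.
-/

namespace Vale.Agent.P245

open MeasureTheory Set Filter Topology Function Finset
open scoped ENNReal

variable {n : ℕ} {ρ : (Fin n → ℝ) → ℝ} {a : ℝ}

/-- Variance of a linear function under the tilt. -/
noncomputable def qf (ρ : (Fin n → ℝ) → ℝ) (s : ℝ) (θ u : Fin n → ℝ) : ℝ :=
  pcov ρ (fun x => dot u x) (fun x => dot u x) s θ

/-- Centred linear function. -/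
noncomputable def cl (ρ : (Fin n → ℝ) → ℝ) (s : ℝ) (θ u x : Fin n → ℝ) : ℝ :=
  dot u x - pm ρ (fun y => dot u y) s θ

lemma wvar_wt (f : (Fin n → ℝ) → ℝ) (s : ℝ) (θ : Fin n → ℝ) :
    wvar (wt ρ s θ) f = pcov ρ f f s θ := by
  simp only [wvar, pcov, sq]
  rfl

lemma mild_cl (s : ℝ) (θ u : Fin n → ℝ) : Mild (cl ρ s θ u) := (Mild.dot_left u).sub_const _

namespace SubDensity

variable (h : SubDensity ρ a)
include h

/-- The Cauchy-Schwarz inequality for the tilted mean. -/
lemma pm_cs {φ ψ : (Fin n → ℝ) → ℝ} (hφ : Mild φ) (hψ : Mild ψ) {s : ℝ} (hs : -kap a ≤ s)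
    (θ : Fin n → ℝ) :
    pm ρ (fun x => φ x * ψ x) s θ ^ 2
      ≤ pm ρ (fun x => φ x ^ 2) s θ * pm ρ (fun x => ψ x ^ 2) s θ := by
  have key : ∀ r : ℝ, 0 ≤ pm ρ (fun x => ψ x ^ 2) s θ * (r * r)
      + (2 * pm ρ (fun x => φ x * ψ x) s θ) * r + pm ρ (fun x => φ x ^ 2) s θ := by
    intro r
    have h1 : Mild fun x => r * r * ψ x ^ 2 := (hψ.pow 2).const_mul _
    have h2 : Mild fun x => 2 * r * (φ x * ψ x) := (hφ.mul hψ).const_mul _
    have h3 : Mild fun x => φ x ^ 2 := hφ.pow 2
    have h0 := h.pm_nonneg (φ := fun x => r * r * ψ x ^ 2 + 2 * r * (φ x * ψ x) + φ x ^ 2)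
      (fun x => by nlinarith [sq_nonneg (r * ψ x + φ x)]) hs θ
    rw [h.pm_add (h1.add h2) h3 hs, h.pm_add h1 h2 hs, pm_const_mul, pm_const_mul] at h0
    linarith
  have := discrim_le_zero key
  unfold discrim at this
  nlinarith

lemma pm_cl {s : ℝ} (hs : -kap a ≤ s) (θ u : Fin n → ℝ) : pm ρ (cl ρ s θ u) s θ = 0 := by
  show pm ρ (fun x => dot u x - pm ρ (fun y => dot u y) s θ) s θ = 0
  rw [h.pm_sub (Mild.dot_left u) (Mild.const _) hs, h.pm_const hs, sub_self]

/-- The covariance as a centred second moment. -/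
lemma pm_center {φ ψ : (Fin n → ℝ) → ℝ} (hφ : Mild φ) (hψ : Mild ψ) {s : ℝ} (hs : -kap a ≤ s)
    (θ : Fin n → ℝ) :
    pm ρ (fun x => (φ x - pm ρ φ s θ) * (ψ x - pm ρ ψ s θ)) s θ = pcov ρ φ ψ s θ := by
  set c := pm ρ φ s θ
  set d := pm ρ ψ s θ
  have e : (fun x => (φ x - c) * (ψ x - d)) = fun x => (φ x * ψ x - d * φ x) - (c * ψ x - c * d) := by
    funext x; ring
  rw [e, h.pm_sub ((hφ.mul hψ).sub (hφ.const_mul d)) ((hψ.const_mul c).sub_const (c * d)) hs,
    h.pm_sub (hφ.mul hψ) (hφ.const_mul d) hs, h.pm_sub (hψ.const_mul c) (Mild.const (c * d)) hs,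
    h.pm_const hs, pm_const_mul, pm_const_mul]
  simp only [pcov, c, d]
  ring

lemma pm_cl_sq {s : ℝ} (hs : -kap a ≤ s) (θ u : Fin n → ℝ) :
    pm ρ (fun x => cl ρ s θ u x ^ 2) s θ = qf ρ s θ u := by
  simp only [sq]
  exact h.pm_center (Mild.dot_left u) (Mild.dot_left u) hs θ

lemma qf_nonneg {s : ℝ} (hs : -kap a ≤ s) (θ u : Fin n → ℝ) : 0 ≤ qf ρ s θ u := by
  rw [← h.pm_cl_sq hs θ u]
  exact h.pm_nonneg (fun x => sq_nonneg _) hs θ

lemma qf_eq_cov {s : ℝ} (hs : -kap a ≤ s) (θ u : Fin n → ℝ) :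
    qf ρ s θ u = ∑ i, ∑ j, u i * u j * covM ρ s θ i j := by
  rw [qf, ← wvar_wt, wvar_dot (fun φ hφ => h.integrable_mo hφ hs θ) u]
  rfl

end SubDensity

/-- `log`-concavity of the tilted weight at midpoints. -/
lemma wt_mid (hρ : ∀ x, 0 ≤ ρ x) (hlc : LogConcaveFun ρ) {s : ℝ} (hs : 0 ≤ s) (θ x z : Fin n → ℝ) :
    wt ρ s θ x * wt ρ s θ z ≤ wt ρ s θ ((1 / 2 : ℝ) • (x + z)) ^ 2 := by
  set y := (1 / 2 : ℝ) • (x + z)
  have h1 : ρ x * ρ z ≤ ρ y ^ 2 := by
    have hl := hlc x z (1 / 2) (by norm_num) (by norm_num)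
    have hy : (1 - 1 / 2 : ℝ) • x + (1 / 2 : ℝ) • z = y := by
      show _ = (1 / 2 : ℝ) • (x + z)
      rw [smul_add]; norm_num
    rw [hy, show (1 - 1 / 2 : ℝ) = 1 / 2 by norm_num, ← Real.sqrt_eq_rpow, ← Real.sqrt_eq_rpow] at hl
    calc ρ x * ρ z = (Real.sqrt (ρ x) * Real.sqrt (ρ z)) ^ 2 := by
          rw [mul_pow, Real.sq_sqrt (hρ x), Real.sq_sqrt (hρ z)]
      _ ≤ _ := pow_le_pow_left₀ (mul_nonneg (Real.sqrt_nonneg _) (Real.sqrt_nonneg _)) hl 2
  have e1 : dot θ x + dot θ z = 2 * dot θ y := by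
    simp only [y, dot, Pi.smul_apply, Pi.add_apply, smul_eq_mul, Finset.mul_sum, ← Finset.sum_add_distrib]
    exact Finset.sum_congr rfl fun i _ => by ring
  have e2 : 2 * sumSq y ≤ sumSq x + sumSq z := by
    simp only [y, sumSq, Pi.smul_apply, Pi.add_apply, smul_eq_mul, Finset.mul_sum, ← Finset.sum_add_distrib]
    exact Finset.sum_le_sum fun i _ => by nlinarith [sq_nonneg (x i - z i)]
  have h2 : tf s θ x * tf s θ z ≤ tf s θ y ^ 2 := by
    simp only [tf]
    rw [← Real.exp_add, ← Real.exp_nat_mul]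
    refine Real.exp_le_exp.2 ?_
    push_cast
    nlinarith [mul_le_mul_of_nonneg_left e2 hs]
  rw [wt_eq_tf, wt_eq_tf, wt_eq_tf, mul_mul_mul_comm, mul_pow]
  exact mul_le_mul h2 h1 (mul_nonneg (hρ x) (hρ z)) (sq_nonneg _)

lemma pow_dexp_le (k : ℕ) : (1 / 8 : ℝ) ^ (2 ^ k) ≤ 7 * (1 / 162) ^ k := by
  induction k with
  | zero => norm_num
  | succ k ih =>
    rcases Nat.lt_or_ge k 2 with hk | hk
    · interval_cases k <;> norm_num
    · have h4 : 4 ≤ 2 ^ k :=
        le_trans (by norm_num) (Nat.pow_le_pow_right (show 1 ≤ 2 by norm_num) hk)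
      have h8 : (1 / 8 : ℝ) ^ (2 ^ k) ≤ 1 / 162 :=
        (pow_le_pow_of_le_one (by norm_num) (by norm_num) h4).trans (by norm_num)
      rw [pow_succ 2 k, pow_mul, sq, pow_succ (1 / 162 : ℝ) k, ← mul_assoc]
      exact mul_le_mul ih h8 (by positivity) (by positivity)

namespace SubDensity

variable (h : SubDensity ρ a)
include h

/-- Fourth moments of linear functions are controlled by second moments. -/
theorem moment_four (hlc : LogConcaveFun ρ) {s : ℝ} (hs : 0 ≤ s) (θ u : Fin n → ℝ) {L : ℝ}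
    (hL0 : 0 < L) (hL : qf ρ s θ u ≤ L) :
    pm ρ (fun x => cl ρ s θ u x ^ 4) s θ ≤ 100000 * L ^ 2 := by
  have hk : -kap a ≤ s := by linarith [h.kap_pos]
  set Y := cl ρ s θ u with hY
  have hYm : Mild Y := mild_cl s θ u
  set w := wt ρ s θ
  have hwi : Integrable w := h.integrable_wt hk θ
  have hw0 : ∀ x, 0 ≤ w x := h.wt_nonneg s θ
  have hwm : Measurable w := h.measurable_wt s θ
  set Z := zz ρ s θ
  have hZ : 0 < Z := h.zz_pos hk θ
  set b := 3 * Real.sqrt L
  have hb : 0 < b := by have := Real.sqrt_pos.2 hL0; positivity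
  have hb2 : b ^ 2 = 9 * L := by rw [mul_pow, Real.sq_sqrt hL0.le]; norm_num
  set E : ℕ → Set (Fin n → ℝ) := fun k => {x | b * 3 ^ k < |Y x|}
  have hEm : ∀ k, MeasurableSet (E k) := fun k => measurableSet_lt measurable_const hYm.cont.abs.measurable
  set m : ℕ → ℝ := fun k => ∫ x in E k, w x
  have hm0 : ∀ k, 0 ≤ m k := fun k => setIntegral_nonneg (hEm k) fun x _ => hw0 x
  have hlint : ∀ A : Set (Fin n → ℝ), MeasurableSet A →
      ∫⁻ x, A.indicator (fun x => ENNReal.ofReal (w x)) x = ENNReal.ofReal (∫ x in A, w x) := fun A hA => by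
    rw [lintegral_indicator hA, ofReal_integral_eq_lintegral_ofReal hwi.integrableOn
      (Eventually.of_forall hw0)]
  have hrec : ∀ k, (Z - m k) * m (k + 1) ≤ m k ^ 2 := by
    intro k
    have hpl := Vale.Agent.P074.pl_pi n
      (f := (E k)ᶜ.indicator fun x => ENNReal.ofReal (w x))
      (g := (E (k + 1)).indicator fun x => ENNReal.ofReal (w x))
      (h := (E k).indicator fun x => ENNReal.ofReal (w x))
      (hwm.ennreal_ofReal.indicator (hEm k).compl) (hwm.ennreal_ofReal.indicator (hEm (k + 1)))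
      (hwm.ennreal_ofReal.indicator (hEm k)) fun x z => by
        by_cases hx : x ∈ (E k)ᶜ
        · by_cases hz : z ∈ E (k + 1)
          · have hmid : (1 / 2 : ℝ) • (x + z) ∈ E k := by
              have hxk : |Y x| ≤ b * 3 ^ k := not_lt.1 hx
              have hzk : b * 3 ^ (k + 1) < |Y z| := hz
              have e : Y ((1 / 2 : ℝ) • (x + z)) = (Y x + Y z) / 2 := by
                simp only [hY, cl, dot, Pi.smul_apply, Pi.add_apply, smul_eq_mul]
                rw [show ∑ i, u i * (1 / 2 * (x i + z i)) = ((∑ i, u i * x i) + ∑ i, u i * z i) / 2 by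
                  rw [← Finset.sum_add_distrib, Finset.sum_div]
                  exact Finset.sum_congr rfl fun i _ => by ring]
                ring
              show b * 3 ^ k < |Y ((1 / 2 : ℝ) • (x + z))|
              rw [e, abs_div, abs_two, lt_div_iff₀ two_pos]
              have := abs_sub_abs_le_abs_sub (Y z) (-Y x)
              rw [abs_neg, sub_neg_eq_add, add_comm] at this
              rw [pow_succ] at hzk
              linarith
            rw [Set.indicator_of_mem hx, Set.indicator_of_mem hz, Set.indicator_of_mem hmid,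
              ← ENNReal.ofReal_mul (hw0 x), ← ENNReal.ofReal_pow (hw0 _)]
            exact ENNReal.ofReal_le_ofReal (wt_mid h.nonneg hlc hs θ x z)
          · rw [Set.indicator_of_notMem hz, mul_zero]; exact zero_le
        · rw [Set.indicator_of_notMem hx, zero_mul]; exact zero_le
    rw [hlint _ (hEm k).compl, hlint _ (hEm (k + 1)), hlint _ (hEm k), ← ENNReal.ofReal_pow (hm0 k),
      setIntegral_compl (hEm k) hwi,
      ← ENNReal.ofReal_mul' (hm0 (k + 1)), ENNReal.ofReal_le_ofReal_iff (sq_nonneg _)] at hpl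
    exact hpl
  have hq : ∀ k, 9 / 8 * m k ≤ (1 / 8) ^ (2 ^ k) * Z := by
    intro k
    induction k with
    | zero =>
      have hY2 : ∫ x, Y x ^ 2 * w x ≤ L * Z := by
        have := h.pm_cl_sq hk θ u
        rw [pm, div_eq_iff hZ.ne'] at this
        rw [show ∫ x, Y x ^ 2 * w x = mo ρ (fun x => cl ρ s θ u x ^ 2) s θ from rfl, this]
        exact mul_le_mul_of_nonneg_right hL hZ.le
      have hi2 : Integrable fun x => Y x ^ 2 * w x := h.integrable_mo (hYm.pow 2) hk θ
      have h1 : b ^ 2 * m 0 ≤ ∫ x, Y x ^ 2 * w x := by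
        refine le_trans ?_ (setIntegral_le_integral hi2 (s := E 0)
          (Eventually.of_forall fun x => mul_nonneg (sq_nonneg _) (hw0 x)))
        rw [← integral_const_mul]
        refine setIntegral_mono_on (hwi.const_mul _).integrableOn hi2.integrableOn (hEm 0) fun x hx => ?_
        refine mul_le_mul_of_nonneg_right ?_ (hw0 x)
        have : b * 3 ^ 0 < |Y x| := hx
        rw [pow_zero, mul_one] at this
        rw [← sq_abs (Y x)]
        exact pow_le_pow_left₀ hb.le this.le 2
      rw [hb2] at h1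
      have h2 : L * (9 * m 0) ≤ L * Z := by linarith
      have := le_of_mul_le_mul_left h2 hL0
      simp only [pow_zero, pow_one]
      linarith
    | succ k ih =>
      have h1 : (1 / 8 : ℝ) ^ (2 ^ k) ≤ 1 / 8 := by
        have := pow_le_pow_of_le_one (show (0:ℝ) ≤ 1 / 8 by norm_num) (by norm_num)
          (Nat.one_le_two_pow (n := k))
        simpa using this
      have h3 : 9 / 8 * m k ≤ 1 / 8 * Z := ih.trans (mul_le_mul_of_nonneg_right h1 hZ.le)
      have h4 : 8 / 9 * Z * m (k + 1) ≤ m k ^ 2 :=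
        le_trans (mul_le_mul_of_nonneg_right (by linarith) (hm0 (k + 1))) (hrec k)
      have h5 := pow_le_pow_left₀ (mul_nonneg (by norm_num) (hm0 k)) ih 2
      rw [mul_pow, mul_pow] at h5
      rw [pow_succ 2 k, pow_mul]
      refine le_of_mul_le_mul_left ?_ hZ
      linarith
  have hYi : Integrable fun x => Y x ^ 4 * w x := h.integrable_mo (hYm.pow 4) hk θ
  set F : ℕ → (Fin n → ℝ) → ℝ := fun K x => (E K)ᶜ.indicator (fun x => Y x ^ 4 * w x) x
  have hpt : ∀ K x, F K x
      ≤ b ^ 4 * w x + ∑ j ∈ Finset.range K, b ^ 4 * 81 ^ (j + 1) * (E j).indicator w x := by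
    intro K x
    have h4 : ∀ j, 0 ≤ b ^ 4 * 81 ^ (j + 1) * (E j).indicator w x := fun j =>
      mul_nonneg (by positivity) (Set.indicator_nonneg (fun y _ => hw0 y) x)
    induction K with
    | zero =>
      by_cases hx : x ∈ (E 0)ᶜ
      · simp only [F, Set.indicator_of_mem hx, Finset.sum_range_zero, add_zero]
        have : |Y x| ≤ b * 3 ^ 0 := not_lt.1 hx
        rw [pow_zero, mul_one] at this
        refine mul_le_mul_of_nonneg_right ?_ (hw0 x)
        rw [← (show Even 4 by decide).pow_abs]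
        exact pow_le_pow_left₀ (abs_nonneg _) this 4
      · simp only [F, Set.indicator_of_notMem hx, Finset.sum_range_zero, add_zero]
        exact mul_nonneg (by positivity) (hw0 x)
    | succ K ih =>
      rw [Finset.sum_range_succ]
      by_cases hx : x ∈ E K
      · have hd : F (K + 1) x ≤ b ^ 4 * 81 ^ (K + 1) * w x := by
          by_cases hx' : x ∈ (E (K + 1))ᶜ
          · simp only [F, Set.indicator_of_mem hx']
            refine mul_le_mul_of_nonneg_right ?_ (hw0 x)
            have h3 : |Y x| ≤ b * 3 ^ (K + 1) := not_lt.1 hx'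
            rw [← (show Even 4 by decide).pow_abs]
            refine (pow_le_pow_left₀ (abs_nonneg _) h3 4).trans (le_of_eq ?_)
            rw [mul_pow, ← pow_mul, mul_comm (K + 1) 4, pow_mul]; norm_num
          · simp only [F, Set.indicator_of_notMem hx']
            exact mul_nonneg (by positivity) (hw0 x)
        rw [Set.indicator_of_mem hx]
        have h5 : 0 ≤ b ^ 4 * w x := mul_nonneg (by positivity) (hw0 x)
        have := Finset.sum_nonneg (s := Finset.range K) fun j _ => h4 j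
        linarith
      · have hc : F (K + 1) x ≤ F K x := by
          have hx' : x ∈ (E (K + 1))ᶜ := by
            intro hbad
            apply hx
            have hb1 : b * 3 ^ (K + 1) < |Y x| := hbad
            show b * 3 ^ K < |Y x|
            rw [pow_succ] at hb1
            nlinarith [mul_pos hb (pow_pos (three_pos : (0:ℝ) < 3) K)]
          simp only [F, Set.indicator_of_mem (show x ∈ (E K)ᶜ from hx), Set.indicator_of_mem hx', le_refl]
        linarith [h4 K]
  have hbound : ∀ K, ∫ x, F K x ≤ b ^ 4 * 1009 * Z := by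
    intro K
    have i1 : ∀ j ∈ Finset.range K, Integrable fun x => b ^ 4 * 81 ^ (j + 1) * (E j).indicator w x :=
      fun j _ => (hwi.indicator (hEm j)).const_mul _
    refine (integral_mono (hYi.indicator (hEm K).compl)
      ((hwi.const_mul _).add (integrable_finsetSum _ i1)) (hpt K)).trans ?_
    simp only [Pi.add_apply]
    rw [integral_add (hwi.const_mul _) (integrable_finsetSum _ i1), integral_finsetSum _ i1,
      integral_const_mul, show ∫ x, w x = Z from rfl]
    have h2 : ∀ j ∈ Finset.range K, ∫ x, b ^ 4 * 81 ^ (j + 1) * (E j).indicator w x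
        ≤ b ^ 4 * 504 * Z * (1 / 2) ^ j := by
      intro j _
      rw [integral_const_mul, integral_indicator (hEm j)]
      have h3 := (hq j).trans (mul_le_mul_of_nonneg_right (pow_dexp_le j) hZ.le)
      have h4 : m j ≤ 8 / 9 * (7 * (1 / 162) ^ j * Z) := by linarith
      refine (mul_le_mul_of_nonneg_left h4 (by positivity)).trans (le_of_eq ?_)
      rw [show (1 / 2 : ℝ) ^ j = 81 ^ j * (1 / 162) ^ j by rw [← mul_pow]; norm_num, pow_succ]
      ring
    have h6 := Finset.sum_le_sum h2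
    rw [← Finset.mul_sum] at h6
    have h7 : 0 ≤ b ^ 4 * 504 * Z := by positivity
    have h8 := h6.trans (mul_le_mul_of_nonneg_left (sum_geometric_two_le K) h7)
    linarith
  have hlim : Tendsto (fun K => ∫ x, F K x) atTop (𝓝 (∫ x, Y x ^ 4 * w x)) := by
    refine tendsto_integral_of_dominated_convergence (fun x => Y x ^ 4 * w x)
      (fun K => (hYi.indicator (hEm K).compl).aestronglyMeasurable) hYi
      (fun K => Eventually.of_forall fun x => ?_) (Eventually.of_forall fun x => ?_)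
    · show ‖(E K)ᶜ.indicator (fun x => Y x ^ 4 * w x) x‖ ≤ _
      refine (norm_indicator_le_norm_self _ _).trans (le_of_eq ?_)
      rw [Real.norm_eq_abs, abs_of_nonneg (mul_nonneg ((show Even 4 by decide).pow_nonneg _) (hw0 x))]
    · refine tendsto_const_nhds.congr' ?_
      have ht : Tendsto (fun K : ℕ => b * (3:ℝ) ^ K) atTop atTop :=
        (tendsto_pow_atTop_atTop_of_one_lt (by norm_num)).const_mul_atTop hb
      filter_upwards [ht.eventually (eventually_ge_atTop |Y x|)] with K hK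
      show _ = (E K)ᶜ.indicator (fun x => Y x ^ 4 * w x) x
      exact (Set.indicator_of_mem (show x ∈ (E K)ᶜ from not_lt.2 hK) (fun x => Y x ^ 4 * w x)).symm
  have hfin : ∫ x, Y x ^ 4 * w x ≤ b ^ 4 * 1009 * Z := le_of_tendsto' hlim hbound
  show mo ρ (fun x => Y x ^ 4) s θ / zz ρ s θ ≤ _
  rw [div_le_iff₀ hZ]
  refine hfin.trans ?_
  rw [show b ^ 4 = (b ^ 2) ^ 2 by ring, hb2]
  nlinarith [sq_nonneg L]

end SubDensity

end Vale.Agent.P245
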