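import Mathlib
import Vale.Agent.P245.Cube.Smooth

/-!
The law of `θ = s X + √s G` for a standard Gaussian vector `G` independent of `X`.
-/

namespace Vale.Agent.P245

open MeasureTheory Set Filter Topology Function Finset
open scoped ENNReal

variable {n : ℕ}

/-- The standard Gaussian density. -/
noncomputable def gauss (g : Fin n → ℝ) : ℝ :=
  Real.exp (-(1 / 2) * sumSq g) / Real.sqrt (2 * Real.pi) ^ n

/-- The centred Gaussian density of variance `s`. -/
noncomputable def gaussS (s : ℝ) (θ : Fin n → ℝ) : ℝ :=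
  Real.exp (-(1 / (2 * s)) * sumSq θ) / Real.sqrt (2 * Real.pi * s) ^ n

lemma gauss_pos (g : Fin n → ℝ) : 0 < gauss g := by unfold gauss; positivity

lemma gaussS_pos {s : ℝ} (hs : 0 < s) (θ : Fin n → ℝ) : 0 < gaussS s θ := by unfold gaussS; positivity

@[fun_prop]
lemma continuous_gauss : Continuous (gauss (n := n)) := by unfold gauss; fun_prop

@[fun_prop]
lemma continuous_gaussS (s : ℝ) : Continuous (gaussS (n := n) s) := by unfold gaussS; fun_prop

lemma integrable_gauss' : Integrable (gauss (n := n)) :=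
  (integrable_gauss (by norm_num : (0:ℝ) < 1 / 2)).div_const _

lemma integral_gauss : ∫ g : Fin n → ℝ, gauss g = 1 := by
  have e : ∀ g : Fin n → ℝ, Real.exp (-(1 / 2) * sumSq g) = ∏ i, Real.exp (-(1 / 2) * g i ^ 2) := fun g => by
    rw [← Real.exp_sum, sumSq, Finset.mul_sum]
  simp only [gauss, e]
  rw [integral_div, integral_fintype_prod_volume_eq_pow (fun t : ℝ => Real.exp (-(1 / 2) * t ^ 2)),
    integral_gaussian, Fintype.card_fin, show Real.pi / (1 / 2) = 2 * Real.pi by ring]
  exact div_self (by positivity)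

/-- A polynomial weight. -/
noncomputable def wP (k : ℕ) (x : Fin n → ℝ) : ℝ := (1 + sumSq x) ^ k

lemma one_le_wP (k : ℕ) (x : Fin n → ℝ) : 1 ≤ wP k x := one_le_pow₀ (by linarith [sumSq_nonneg x])

lemma wP_add (k l : ℕ) (x : Fin n → ℝ) : wP (k + l) x = wP k x * wP l x := pow_add _ _ _

@[fun_prop]
lemma continuous_wP (k : ℕ) : Continuous (wP (n := n) k) := by unfold wP; fun_prop

lemma mild_wP (k : ℕ) : Mild (wP (n := n) k) := ((Mild.const 1).add Mild.sumSq').pow k

lemma wP_mono {k l : ℕ} (h : k ≤ l) (x : Fin n → ℝ) : wP k x ≤ wP l x :=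
  pow_le_pow_right₀ (by linarith [sumSq_nonneg x]) h

/-- The joint law of `(X, G)`. -/
noncomputable def law (ρ : (Fin n → ℝ) → ℝ) : Measure ((Fin n → ℝ) × (Fin n → ℝ)) :=
  (volume.withDensity fun x => ENNReal.ofReal (ρ x)).prod
    (volume.withDensity fun g => ENNReal.ofReal (gauss g))

/-- The point `s x + √s g`. -/
noncomputable def th (s : ℝ) (z : (Fin n → ℝ) × (Fin n → ℝ)) : Fin n → ℝ :=
  s • z.1 + Real.sqrt s • z.2

@[fun_prop]
lemma continuous_th (s : ℝ) : Continuous (th (n := n) s) := by unfold th; fun_prop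

namespace SubDensity

variable {ρ : (Fin n → ℝ) → ℝ} {a : ℝ} (h : SubDensity ρ a)
include h

lemma law_prob : IsProbabilityMeasure (law ρ) := by
  have h1 : IsProbabilityMeasure (volume.withDensity fun x => ENNReal.ofReal (ρ x)) := by
    constructor
    rw [withDensity_apply _ MeasurableSet.univ, Measure.restrict_univ,
      ← ofReal_integral_eq_lintegral_ofReal h.int (Eventually.of_forall h.nonneg), h.one, ENNReal.ofReal_one]
  have h2 : IsProbabilityMeasure (volume.withDensity fun g : Fin n → ℝ => ENNReal.ofReal (gauss g)) := by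
    constructor
    rw [withDensity_apply _ MeasurableSet.univ, Measure.restrict_univ,
      ← ofReal_integral_eq_lintegral_ofReal integrable_gauss'
        (Eventually.of_forall fun g => (gauss_pos g).le), integral_gauss, ENNReal.ofReal_one]
  unfold law; infer_instance

lemma law_sfinite : SFinite (law ρ) := by have := h.law_prob; infer_instance

omit h in
lemma measurable_gaussD : Measurable fun g : Fin n → ℝ => ENNReal.ofReal (gauss g) :=
  continuous_gauss.measurable.ennreal_ofReal

lemma integral_law {H : (Fin n → ℝ) × (Fin n → ℝ) → ℝ} (hH : Integrable H (law ρ)) :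
    ∫ z, H z ∂law ρ = ∫ x, ρ x * ∫ g, gauss g * H (x, g) := by
  rw [law] at hH ⊢
  rw [integral_prod _ hH, integral_withDensity_eq_integral_toReal_smul h.meas.ennreal_ofReal
    (Eventually.of_forall fun x => ENNReal.ofReal_lt_top)]
  refine integral_congr_ae (Eventually.of_forall fun x => ?_)
  show _ • _ = _
  rw [ENNReal.toReal_ofReal (h.nonneg x), smul_eq_mul, integral_withDensity_eq_integral_toReal_smul
    measurable_gaussD (Eventually.of_forall fun x => ENNReal.ofReal_lt_top)]
  congr 2; funext g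
  rw [ENNReal.toReal_ofReal (gauss_pos g).le, smul_eq_mul]

lemma integrable_wP (k : ℕ) :
    Integrable (fun z : (Fin n → ℝ) × (Fin n → ℝ) => wP k z.1 * wP k z.2) (law ρ) := by
  unfold law
  refine Integrable.mul_prod (f := wP k) (g := wP k) ?_ ?_
  · rw [integrable_withDensity_iff h.meas.ennreal_ofReal
      (Eventually.of_forall fun x => ENNReal.ofReal_lt_top)]
    refine (h.integrable_mo (mild_wP k) (s := 0) (by linarith [h.kap_pos]) 0).congr
      (Eventually.of_forall fun x => ?_)
    simp [ENNReal.toReal_ofReal (h.nonneg x), wt, dot]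
  · rw [integrable_withDensity_iff measurable_gaussD
      (Eventually.of_forall fun x => ENNReal.ofReal_lt_top)]
    obtain ⟨C, hC⟩ := (mild_wP (n := n) k).2 (1 / 4) (by norm_num)
    refine ((integrable_gauss (ι := Fin n) (show (0:ℝ) < 1 / 4 by norm_num)).const_mul
      (C / Real.sqrt (2 * Real.pi) ^ n)).mono'
      ((continuous_wP k).measurable.mul measurable_gaussD.ennreal_toReal).aestronglyMeasurable (Eventually.of_forall fun g => ?_)
    rw [ENNReal.toReal_ofReal (gauss_pos g).le, Real.norm_eq_abs, abs_mul, abs_of_pos (gauss_pos g)]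
    refine (mul_le_mul_of_nonneg_right (hC g) (gauss_pos g).le).trans (le_of_eq ?_)
    rw [gauss, show Real.exp (-(1 / 4) * sumSq g) = Real.exp (1 / 4 * sumSq g) * Real.exp (-(1 / 2) * sumSq g) by
      rw [← Real.exp_add]; congr 1; ring]
    ring

lemma integrable_of_poly {F : (Fin n → ℝ) × (Fin n → ℝ) → ℝ} (hF : Measurable F) {C : ℝ} {k : ℕ}
    (hle : ∀ z, |F z| ≤ C * (wP k z.1 * wP k z.2)) : Integrable F (law ρ) :=
  ((h.integrable_wP k).const_mul C).mono' hF.aestronglyMeasurable (Eventually.of_forall hle)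

omit h in
lemma sumSq_th_le {s : ℝ} (hs : 0 ≤ s) (z : (Fin n → ℝ) × (Fin n → ℝ)) :
    1 + sumSq (th s z) ≤ (2 + 2 * s ^ 2 + 2 * s) * ((1 + sumSq z.1) * (1 + sumSq z.2)) := by
  have h1 : sumSq (th s z) ≤ 2 * s ^ 2 * sumSq z.1 + 2 * s * sumSq z.2 := by
    simp only [sumSq, th, Pi.add_apply, Pi.smul_apply, smul_eq_mul, Finset.mul_sum, ← Finset.sum_add_distrib]
    refine Finset.sum_le_sum fun i _ => ?_
    nlinarith [sq_nonneg (s * z.1 i - Real.sqrt s * z.2 i), Real.sq_sqrt hs]
  have a1 := sumSq_nonneg z.1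
  have a2 := sumSq_nonneg z.2
  nlinarith [mul_nonneg a1 a2, mul_nonneg (mul_nonneg hs hs) a2, mul_nonneg hs a1,
    mul_nonneg (mul_nonneg hs hs) (mul_nonneg a1 a2), mul_nonneg hs (mul_nonneg a1 a2)]

omit h in
lemma wP_th_le {s : ℝ} (hs : 0 ≤ s) (k : ℕ) (z : (Fin n → ℝ) × (Fin n → ℝ)) :
    wP k (th s z) ≤ (2 + 2 * s ^ 2 + 2 * s) ^ k * (wP k z.1 * wP k z.2) := by
  rw [wP, wP, wP, ← mul_pow, ← mul_pow]
  exact pow_le_pow_left₀ (by linarith [sumSq_nonneg (th s z)]) (sumSq_th_le hs z) k

/-- Change of variables to the tilts. -/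
theorem integral_th {s : ℝ} (hs : 0 < s) (hs' : s < kap a) {φ : (Fin n → ℝ) → ℝ} (hφ : Mild φ)
    {ψ : (Fin n → ℝ) → ℝ} (hψ : Measurable ψ) {C : ℝ} {k : ℕ} (hψb : ∀ θ, |ψ θ| ≤ C * wP k θ)
    (hint : Integrable (fun z => φ z.1 * ψ (th s z)) (law ρ)) :
    Integrable (fun θ => gaussS s θ * (ψ θ * mo ρ φ s θ)) ∧
      ∫ z, φ z.1 * ψ (th s z) ∂law ρ = ∫ θ, gaussS s θ * (ψ θ * mo ρ φ s θ) := by
  have hsq : 0 < Real.sqrt s := Real.sqrt_pos.2 hs
  have hk : -kap a ≤ s := by linarith [h.kap_pos]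
  have hinner : ∀ x, ∫ g, gauss g * ψ (s • x + Real.sqrt s • g)
      = ∫ θ, gaussS s θ * (ψ θ * Real.exp (dot θ x - s / 2 * sumSq x)) := by
    intro x
    set G := fun θ => gaussS s θ * (ψ θ * Real.exp (dot θ x - s / 2 * sumSq x))
    have e1 : ∀ g : Fin n → ℝ, gauss g * ψ (s • x + Real.sqrt s • g)
        = Real.sqrt s ^ n * G (s • x + Real.sqrt s • g) := by
      intro g
      simp only [G, gauss, gaussS]
      set θ := s • x + Real.sqrt s • g
      have hexp : Real.exp (-(1 / 2) * sumSq g)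
          = Real.exp (-(1 / (2 * s)) * sumSq θ) * Real.exp (dot θ x - s / 2 * sumSq x) := by
        rw [← Real.exp_add]
        congr 1
        simp only [θ, sumSq, dot, Pi.add_apply, Pi.smul_apply, smul_eq_mul, Finset.mul_sum,
          ← Finset.sum_sub_distrib, ← Finset.sum_add_distrib]
        refine Finset.sum_congr rfl fun i _ => ?_
        have := Real.sq_sqrt hs.le
        field_simp
        linear_combination (g i) ^ 2 * this
      rw [hexp, Real.sqrt_mul (by positivity : (0:ℝ) ≤ 2 * Real.pi) s, mul_pow]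
      field_simp
    simp only [e1]
    rw [integral_const_mul, Measure.integral_comp_smul (μ := volume) (fun y => G (s • x + y)) (Real.sqrt s),
      integral_add_left_eq_self G, Module.finrank_fintype_fun_eq_card, Fintype.card_fin, smul_eq_mul,
      abs_inv, abs_of_pos (pow_pos hsq n), ← mul_assoc, mul_inv_cancel₀ (pow_pos hsq n).ne', one_mul]
  have hprod : Integrable (uncurry fun θ x => gaussS s θ * (ψ θ * (φ x * wt ρ s θ x)))
      ((volume : Measure (Fin n → ℝ)).prod volume) := by
    obtain ⟨Cφ, hCφ⟩ := hφ.2 (kap a) h.kap_pos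
    have he : 0 < 1 / (2 * s) - 1 / (4 * kap a) - 1 / (8 * kap a) := by
      have hk0 := h.kap_pos
      rw [show 1 / (2 * s) - 1 / (4 * kap a) - 1 / (8 * kap a) = (4 * kap a - 3 * s) / (8 * kap a * s) by
        field_simp; ring]
      exact div_pos (by linarith) (by positivity)
    obtain ⟨Ck, hCk⟩ := (mild_wP (n := n) k).2 (1 / (8 * kap a)) (by have := h.kap_pos; positivity)
    refine (((integrable_gauss (ι := Fin n) he).const_mul
      (|C| * Ck / Real.sqrt (2 * Real.pi * s) ^ n * Cφ)).mul_prod h.integrable_exp_sq.1).mono' ?_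
      (Eventually.of_forall fun z => ?_)
    · have := h.meas
      have := hφ.cont.measurable
      refine Measurable.aestronglyMeasurable ?_
      simp only [uncurry_def, wt]
      fun_prop
    · obtain ⟨θ, x⟩ := z
      show |gaussS s θ * (ψ θ * (φ x * wt ρ s θ x))| ≤ _
      rw [abs_mul, abs_mul, abs_mul, abs_of_pos (gaussS_pos hs θ), abs_of_nonneg (h.wt_nonneg s θ x)]
      have hCk0 : 0 ≤ Ck := by
        have := (abs_nonneg _).trans (hCk 0)
        exact nonneg_of_mul_nonneg_left this (Real.exp_pos _)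
      have hCφ0 : 0 ≤ Cφ := by
        have := (abs_nonneg _).trans (hCφ 0)
        exact nonneg_of_mul_nonneg_left this (Real.exp_pos _)
      have b1 : |ψ θ| ≤ |C| * (Ck * Real.exp (1 / (8 * kap a) * sumSq θ)) :=
        (hψb θ).trans (mul_le_mul (le_abs_self C) ((le_abs_self _).trans (hCk θ))
          (zero_le_one.trans (one_le_wP k θ)) (abs_nonneg C))
      have b2 := h.wt_le hk θ x
      refine (mul_le_mul_of_nonneg_left (mul_le_mul b1 (mul_le_mul (hCφ x) b2 (h.wt_nonneg s θ x)
        (by positivity)) (mul_nonneg (abs_nonneg _) (h.wt_nonneg s θ x)) (by positivity))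
        (gaussS_pos hs θ).le).trans ?_
      simp only [gaussS]
      rw [show Real.exp (-(1 / (2 * s) - 1 / (4 * kap a) - 1 / (8 * kap a)) * sumSq θ)
        = Real.exp (-(1 / (2 * s)) * sumSq θ) * Real.exp (1 / (8 * kap a) * sumSq θ)
          * Real.exp (sumSq θ / (4 * kap a)) by rw [← Real.exp_add, ← Real.exp_add]; congr 1; ring]
      have h8 : Real.exp (kap a * sumSq x) * Real.exp (2 * kap a * sumSq x)
          ≤ Real.exp (8 * kap a * sumSq x) := by
        rw [← Real.exp_add]
        exact Real.exp_le_exp.2 (by nlinarith [mul_nonneg h.kap_pos.le (sumSq_nonneg x)])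
      have h9 := mul_le_mul_of_nonneg_left (mul_le_mul_of_nonneg_right h8 (h.nonneg x))
        (show 0 ≤ |C| * Ck / Real.sqrt (2 * Real.pi * s) ^ n * Cφ * (Real.exp (-(1 / (2 * s)) * sumSq θ)
          * Real.exp (1 / (8 * kap a) * sumSq θ) * Real.exp (sumSq θ / (4 * kap a))) by positivity)
      refine le_trans (le_of_eq ?_) h9
      ring
  have hfib : ∀ θ, ∫ x, gaussS s θ * (ψ θ * (φ x * wt ρ s θ x)) = gaussS s θ * (ψ θ * mo ρ φ s θ) :=
    fun θ => by rw [integral_const_mul, integral_const_mul]; rfl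
  refine ⟨hprod.integral_prod_left.congr (Eventually.of_forall hfib), ?_⟩
  rw [h.integral_law hint]
  simp only [th]
  calc ∫ x, ρ x * ∫ g, gauss g * (φ x * ψ (s • x + Real.sqrt s • g))
      = ∫ x, ∫ θ, gaussS s θ * (ψ θ * (φ x * wt ρ s θ x)) := by
        congr 1; funext x
        simp only [mul_left_comm (gauss _) (φ x)]
        rw [integral_const_mul, hinner, ← integral_const_mul, ← integral_const_mul]
        congr 1; funext θ
        rw [wt]; ring
    _ = ∫ θ, ∫ x, gaussS s θ * (ψ θ * (φ x * wt ρ s θ x)) := (integral_integral_swap hprod).symm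
    _ = _ := integral_congr_ae (Eventually.of_forall hfib)

/-- Gaussian integration by parts along a coordinate. -/
theorem stein {s : ℝ} (hs : 0 < s) (l : Fin n) {ψ dψ : (Fin n → ℝ) → ℝ} (hψ : Measurable ψ)
    (hdm : Measurable dψ) {C : ℝ} {k : ℕ} (hψb : ∀ θ, |ψ θ| ≤ C * wP k θ)
    (hdb : ∀ θ, |dψ θ| ≤ C * wP k θ)
    (hd : ∀ θ, HasLineDerivAt ℝ ψ (dψ θ) θ (Pi.single l 1)) :
    ∫ z, z.2 l * ψ (th s z) ∂law ρ = Real.sqrt s * ∫ z, dψ (th s z) ∂law ρ := by
  set K := |C| * (2 + 2 * s ^ 2 + 2 * s) ^ k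
  have hK : ∀ (F : (Fin n → ℝ) → ℝ), (∀ θ, |F θ| ≤ C * wP k θ) → ∀ z, |F (th s z)| ≤ K * (wP k z.1 * wP k z.2) := by
    intro F hF z
    refine (hF _).trans ((mul_le_mul_of_nonneg_right (le_abs_self C) (zero_le_one.trans (one_le_wP k _))).trans ?_)
    rw [mul_assoc (|C|)]
    exact mul_le_mul_of_nonneg_left (wP_th_le hs.le k z) (abs_nonneg C)
  have hl : ∀ g : Fin n → ℝ, |g l| ≤ wP 1 g := fun g => by
    rw [wP, pow_one]
    nlinarith [sq_le_sumSq g l, sq_abs (g l), sq_nonneg (|g l| - 1)]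
  have i1 : Integrable (fun z => z.2 l * ψ (th s z)) (law ρ) :=
    h.integrable_of_poly (C := K) (k := k + 1) (by fun_prop) fun z => by
      rw [abs_mul]
      refine (mul_le_mul (hl z.2) (hK ψ hψb z) (abs_nonneg _) (zero_le_one.trans (one_le_wP 1 _))).trans ?_
      have e1 := wP_mono (show k ≤ k + 1 by omega) z.1
      have e2 : wP (k + 1) z.2 = wP k z.2 * wP 1 z.2 := wP_add k 1 _
      rw [e2]
      have := mul_le_mul_of_nonneg_left e1 (show 0 ≤ K * (wP k z.2 * wP 1 z.2) from
        mul_nonneg (by positivity) (mul_nonneg (zero_le_one.trans (one_le_wP k _)) (zero_le_one.trans (one_le_wP 1 _))))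
      linarith
  have i2 : Integrable (fun z => dψ (th s z)) (law ρ) :=
    h.integrable_of_poly (C := K) (k := k) (by fun_prop) (hK dψ hdb)
  rw [h.integral_law i1, h.integral_law i2, ← integral_const_mul]
  refine integral_congr_ae (Eventually.of_forall fun x => ?_)
  show ρ x * (∫ g, gauss g * (g l * ψ (th s (x, g))))
    = Real.sqrt s * (ρ x * ∫ g, gauss g * dψ (th s (x, g)))
  rw [mul_left_comm (Real.sqrt s), ← integral_const_mul (Real.sqrt s)]
  congr 1
  have hline : ∀ g : Fin n → ℝ, HasLineDerivAt ℝ (fun g => ψ (th s (x, g)))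
      (Real.sqrt s * dψ (th s (x, g))) g (Pi.single l 1) := fun g => by
    have h1 : HasDerivAt (fun r : ℝ => ψ (th s (x, g) + r • (Pi.single l 1 : Fin n → ℝ)))
        (dψ (th s (x, g))) (Real.sqrt s * 0) := by rw [mul_zero]; exact hd (th s (x, g))
    have h2 := h1.comp (0:ℝ) ((hasDerivAt_id' (0:ℝ)).const_mul (Real.sqrt s))
    rw [mul_one, mul_comm] at h2
    refine h2.congr_of_eventuallyEq (Eventually.of_forall fun r => ?_)
    show ψ (th s (x, g + r • Pi.single l 1)) = _
    simp only [comp, th, smul_add, smul_smul]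
    rw [add_assoc]
  have hγ : ∀ g : Fin n → ℝ, HasLineDerivAt ℝ gauss (-(g l) * gauss g) g (Pi.single l 1) := fun g => by
    have h1 : HasDerivAt (fun r : ℝ => sumSq (g + r • (Pi.single l 1 : Fin n → ℝ)))
        (∑ j, 2 * g j * (Pi.single l 1 : Fin n → ℝ) j) 0 := by
      refine HasDerivAt.fun_sum fun j _ => ?_
      have := (((hasDerivAt_id' (0:ℝ)).mul_const ((Pi.single l 1 : Fin n → ℝ) j)).const_add (g j)).fun_pow 2
      simpa using this
    have h2 := ((h1.const_mul (-(1 / 2))).exp).div_const (Real.sqrt (2 * Real.pi) ^ n)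
    refine h2.congr_deriv ?_
    simp only [gauss, zero_smul, add_zero, Finset.sum_eq_single l (fun j _ hj => by simp [hj] :
      ∀ j ∈ Finset.univ, j ≠ l → 2 * g j * (Pi.single l 1 : Fin n → ℝ) j = 0) (by simp),
      Pi.single_eq_same]
    ring
  obtain ⟨Cg, hCg⟩ := (mild_wP (n := n) (k + 1)).2 (1 / 4) (by norm_num)
  have hgi : ∀ {F : (Fin n → ℝ) → ℝ}, Measurable F → ∀ D : ℝ, (∀ g, |F g| ≤ D * wP (k + 1) g) →
      Integrable fun g => gauss g * F g := by
    intro F hF D hD
    refine ((integrable_gauss (ι := Fin n) (show (0:ℝ) < 1 / 4 by norm_num)).const_mul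
      (|D| * Cg / Real.sqrt (2 * Real.pi) ^ n)).mono'
      (continuous_gauss.measurable.mul hF).aestronglyMeasurable (Eventually.of_forall fun g => ?_)
    rw [Real.norm_eq_abs, abs_mul, abs_of_pos (gauss_pos g)]
    refine (mul_le_mul_of_nonneg_left ((hD g).trans ((mul_le_mul_of_nonneg_right (le_abs_self D)
      (zero_le_one.trans (one_le_wP _ g))).trans (mul_le_mul_of_nonneg_left ((le_abs_self _).trans (hCg g))
      (abs_nonneg D)))) (gauss_pos g).le).trans (le_of_eq ?_)
    rw [gauss, show Real.exp (-(1 / 4) * sumSq g) = Real.exp (1 / 4 * sumSq g) * Real.exp (-(1 / 2) * sumSq g) by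
      rw [← Real.exp_add]; congr 1; ring]
    ring
  set D0 := K * wP k x
  have hD0 : 0 ≤ D0 := mul_nonneg (by positivity) (zero_le_one.trans (one_le_wP k x))
  have hF : ∀ (F : (Fin n → ℝ) → ℝ), (∀ θ, |F θ| ≤ C * wP k θ) → ∀ g, |F (th s (x, g))| ≤ D0 * wP k g :=
    fun F hF g => (hK F hF (x, g)).trans (le_of_eq (by simp only [D0]; ring))
  have hmx : Measurable fun g : Fin n → ℝ => th s (x, g) :=
    ((continuous_th s).comp (Continuous.prodMk_right x)).measurable
  have j1 : Integrable fun g => gauss g * ψ (th s (x, g)) :=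
    hgi (hψ.comp hmx) D0 fun g => (hF ψ hψb g).trans
      (mul_le_mul_of_nonneg_left (wP_mono (Nat.le_succ k) g) hD0)
  have j2 : Integrable fun g => gauss g * (g l * ψ (th s (x, g))) :=
    hgi ((measurable_pi_apply l).mul (hψ.comp hmx)) D0 fun g => by
      rw [abs_mul, wP_add, ← mul_assoc, mul_comm (D0 * wP k g)]
      exact mul_le_mul (hl g) (hF ψ hψb g) (abs_nonneg _) (zero_le_one.trans (one_le_wP 1 _))
  have j3 : Integrable fun g => gauss g * (Real.sqrt s * dψ (th s (x, g))) :=
    hgi (measurable_const.mul (hdm.comp hmx)) (Real.sqrt s * D0) fun g => by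
      rw [abs_mul, abs_of_nonneg (Real.sqrt_nonneg s), mul_assoc]
      exact mul_le_mul_of_nonneg_left ((hF dψ hdb g).trans
        (mul_le_mul_of_nonneg_left (wP_mono (Nat.le_succ k) g) hD0)) (Real.sqrt_nonneg s)
  have j2' : Integrable fun g => -(g l) * gauss g * ψ (th s (x, g)) := by
    refine j2.neg.congr (Eventually.of_forall fun g => ?_)
    show -(gauss g * (g l * ψ (th s (x, g)))) = _
    ring
  have hibp := integral_bilinear_hasLineDerivAt_right_eq_neg_left_of_integrable
    (μ := (volume : Measure (Fin n → ℝ))) (f := gauss) (f' := fun g => -(g l) * gauss g)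
    (g := fun g => ψ (th s (x, g))) (g' := fun g => Real.sqrt s * dψ (th s (x, g)))
    (v := Pi.single l 1) (B := ContinuousLinearMap.mul ℝ ℝ) j2' j3 j1
    (fun g _ => hγ g) (fun g _ => hline g)
  simp only [ContinuousLinearMap.mul_apply'] at hibp
  simp only [mul_left_comm (Real.sqrt s) (gauss _)]
  rw [hibp, ← integral_neg]
  congr 1; funext g; ring

end SubDensity

end Vale.Agent.P245
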