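import Mathlib
import Vale.Agent.P245.Cube.Tilt

/-!
Trace inequalities for powers of a positive semidefinite matrix.
-/

namespace Vale.Agent.P245

open Matrix Finset

variable {n : ℕ}

/-- The bilinear form of a real symmetric matrix in its eigenbasis. -/
lemma exists_diag (A : Matrix (Fin n) (Fin n) ℝ) (hA : Aᵀ = A) :
    ∃ (U : Matrix (Fin n) (Fin n) ℝ) (e : Fin n → ℝ),
      Uᵀ * U = 1 ∧ U * Uᵀ = 1 ∧ A = U * diagonal e * Uᵀ := by
  have hH : A.IsHermitian := by rw [IsHermitian, conjTranspose_eq_transpose_of_trivial, hA]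
  set U : Matrix (Fin n) (Fin n) ℝ := (hH.eigenvectorUnitary : Matrix (Fin n) (Fin n) ℝ)
  have hs : star U = Uᵀ := by rw [star_eq_conjTranspose, conjTranspose_eq_transpose_of_trivial]
  have h1 : star U * U = 1 := (Unitary.mem_iff.1 hH.eigenvectorUnitary.2).1
  have h2 : U * star U = 1 := (Unitary.mem_iff.1 hH.eigenvectorUnitary.2).2
  refine ⟨U, hH.eigenvalues, by rw [← hs]; exact h1, by rw [← hs]; exact h2, ?_⟩
  conv_lhs => rw [hH.spectral_theorem, Unitary.conjStarAlgAut_apply]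
  rw [← hs]
  rfl

lemma conj_pow {U : Matrix (Fin n) (Fin n) ℝ} (hU : Uᵀ * U = 1) (hU' : U * Uᵀ = 1) (e : Fin n → ℝ)
    (k : ℕ) : (U * diagonal e * Uᵀ) ^ k = U * diagonal (e ^ k) * Uᵀ := by
  induction k with
  | zero =>
    have : diagonal (e ^ 0) = (1 : Matrix (Fin n) (Fin n) ℝ) := by
      rw [pow_zero]; exact diagonal_one
    rw [pow_zero, this, Matrix.mul_one, hU']
  | succ k ih =>
    have e2 : diagonal (e ^ (k + 1)) = diagonal (e ^ k) * diagonal e := by
      rw [diagonal_mul_diagonal, pow_succ]; rfl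
    rw [pow_succ, ih, e2]
    calc U * diagonal (e ^ k) * Uᵀ * (U * diagonal e * Uᵀ)
        = U * diagonal (e ^ k) * (Uᵀ * U) * diagonal e * Uᵀ := by simp only [Matrix.mul_assoc]
      _ = _ := by rw [hU, Matrix.mul_one]; simp only [Matrix.mul_assoc]

lemma trace_conj {U : Matrix (Fin n) (Fin n) ℝ} (hU : Uᵀ * U = 1) (D : Matrix (Fin n) (Fin n) ℝ) :
    trace (U * D * Uᵀ) = trace D := by
  rw [trace_mul_cycle, hU, Matrix.one_mul]

lemma quad_conj (U : Matrix (Fin n) (Fin n) ℝ) (e u : Fin n → ℝ) :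
    u ⬝ᵥ ((U * diagonal e * Uᵀ) *ᵥ u) = ∑ i, e i * (Uᵀ *ᵥ u) i ^ 2 := by
  rw [← mulVec_mulVec, ← mulVec_mulVec, dotProduct_mulVec, ← mulVec_transpose]
  simp only [dotProduct, mulVec_diagonal]
  exact Finset.sum_congr rfl fun i _ => by ring

lemma sumSq_orth {U : Matrix (Fin n) (Fin n) ℝ} (hU' : U * Uᵀ = 1) (u : Fin n → ℝ) :
    sumSq (Uᵀ *ᵥ u) = sumSq u := by
  have e : ∀ v : Fin n → ℝ, sumSq v = v ⬝ᵥ v := fun v => Finset.sum_congr rfl fun i _ => sq _
  rw [e, e, dotProduct_mulVec, ← mulVec_transpose, transpose_transpose, mulVec_mulVec, hU', one_mulVec]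

/-- Nonnegativity of the traces of powers of a positive semidefinite matrix. -/
lemma trace_pow_nonneg {A : Matrix (Fin n) (Fin n) ℝ} (hA : Aᵀ = A)
    (hpos : ∀ u, 0 ≤ u ⬝ᵥ (A *ᵥ u)) (k : ℕ) : 0 ≤ trace (A ^ k) := by
  obtain ⟨U, e, hU, hU', rfl⟩ := exists_diag A hA
  rw [conj_pow hU hU', trace_conj hU, trace_diagonal]
  refine Finset.sum_nonneg fun i _ => pow_nonneg ?_ k
  have h := hpos (U *ᵥ Pi.single i 1)
  rw [quad_conj, mulVec_mulVec, hU, one_mulVec] at h
  simpa [Pi.single_apply] using h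

/-- The quadratic form is bounded by the `q`-th root of the trace of the `q`-th power. -/
lemma exists_top {A : Matrix (Fin n) (Fin n) ℝ} (hA : Aᵀ = A) (hpos : ∀ u, 0 ≤ u ⬝ᵥ (A *ᵥ u))
    {q : ℕ} (hq : q ≠ 0) :
    ∃ lam : ℝ, 0 ≤ lam ∧ lam ^ q ≤ trace (A ^ q) ∧ ∀ u, u ⬝ᵥ (A *ᵥ u) ≤ lam * sumSq u := by
  obtain ⟨U, e, hU, hU', rfl⟩ := exists_diag A hA
  have he : ∀ i, 0 ≤ e i := fun i => by
    have h := hpos (U *ᵥ Pi.single i 1)
    rw [quad_conj, mulVec_mulVec, hU, one_mulVec] at h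
    simpa [Pi.single_apply] using h
  rw [conj_pow hU hU', trace_conj hU, trace_diagonal]
  rcases isEmpty_or_nonempty (Fin n) with hn | hn
  · exact ⟨0, le_rfl, by simp [hq], fun u => by simp [dotProduct, sumSq]⟩
  · obtain ⟨i0, hi0⟩ := Finite.exists_max e
    refine ⟨e i0, he i0, ?_, fun u => ?_⟩
    · exact Finset.single_le_sum (f := fun i => (e ^ q) i) (fun i _ => pow_nonneg (he i) q) (Finset.mem_univ i0)
    · rw [quad_conj, ← sumSq_orth hU' u, sumSq, Finset.mul_sum]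
      exact Finset.sum_le_sum fun i _ => mul_le_mul_of_nonneg_right (hi0 i) (sq_nonneg _)

/-- The second variation of `trace (A ^ q)`. -/
theorem trace_second_le {A : Matrix (Fin n) (Fin n) ℝ} (hA : Aᵀ = A)
    (hpos : ∀ u, 0 ≤ u ⬝ᵥ (A *ᵥ u)) {q : ℕ} (hq : 2 ≤ q) (hnq : n ≤ 2 ^ q) {lam c : ℝ}
    (hlam : 0 ≤ lam) (hlamq : lam ^ q ≤ trace (A ^ q)) (hc : 0 ≤ c)
    (T : Fin n → Matrix (Fin n) (Fin n) ℝ) (hT : ∀ l, (T l)ᵀ = T l)
    (hR : ∀ u : Fin n → ℝ, ∑ l, sumSq (T l *ᵥ u) ≤ c * lam ^ 2 * sumSq u) :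
    ∑ α ∈ Finset.range (q - 1), ∑ l, trace (A ^ α * T l * A ^ (q - 2 - α) * T l)
      ≤ 16 * q * c * trace (A ^ q) := by
  obtain ⟨U, e, hU, hU', rfl⟩ := exists_diag A hA
  have he : ∀ i, 0 ≤ e i := fun i => by
    have h := hpos (U *ᵥ Pi.single i 1)
    rw [quad_conj, mulVec_mulVec, hU, one_mulVec] at h
    simpa [Pi.single_apply] using h
  rw [conj_pow hU hU' e q, trace_conj hU, trace_diagonal] at hlamq ⊢
  set Q := ∑ i, (e ^ q) i
  set S := fun l => Uᵀ * T l * U with hS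
  have hSsymm : ∀ l i j, S l i j = S l j i := fun l i j => by
    have : (S l)ᵀ = S l := by
      simp only [hS, transpose_mul, transpose_transpose, hT, Matrix.mul_assoc]
    conv_lhs => rw [← this]
    rfl
  have htr : ∀ α β l, trace ((U * diagonal e * Uᵀ) ^ α * T l * (U * diagonal e * Uᵀ) ^ β * T l)
      = ∑ i, ∑ j, e i ^ α * e j ^ β * S l i j ^ 2 := by
    intro α β l
    rw [conj_pow hU hU', conj_pow hU hU']
    have e1 : trace (U * diagonal (e ^ α) * Uᵀ * T l * (U * diagonal (e ^ β) * Uᵀ) * T l)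
        = trace (diagonal (e ^ α) * S l * (diagonal (e ^ β) * S l)) := by
      have : U * diagonal (e ^ α) * Uᵀ * T l * (U * diagonal (e ^ β) * Uᵀ) * T l
          = U * (diagonal (e ^ α) * S l * (diagonal (e ^ β) * S l)) * Uᵀ := by
        simp only [hS, Matrix.mul_assoc]
        rw [hU']; simp only [Matrix.mul_one]
      rw [this, trace_conj hU]
    rw [e1]
    simp only [trace, diag_apply, mul_apply (M := diagonal (e ^ α) * S l), diagonal_mul, Pi.pow_apply]
    refine Finset.sum_congr rfl fun i _ => Finset.sum_congr rfl fun j _ => ?_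
    rw [hSsymm l j i]; ring
  set P := ∑ i, e i ^ (q - 2) * ∑ l, ∑ j, S l i j ^ 2
  have hterm : ∀ α ∈ Finset.range (q - 1),
      ∑ l, trace ((U * diagonal e * Uᵀ) ^ α * T l * (U * diagonal e * Uᵀ) ^ (q - 2 - α) * T l) ≤ 2 * P := by
    intro α hα
    rw [Finset.mem_range] at hα
    simp only [htr]
    have hP : P = ∑ l, ∑ i, ∑ j, e i ^ (q - 2) * S l i j ^ 2 := by
      rw [Finset.sum_comm]; simp only [P, Finset.mul_sum]
    have hP2 : P = ∑ l, ∑ i, ∑ j, e j ^ (q - 2) * S l i j ^ 2 := by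
      rw [hP]
      refine Finset.sum_congr rfl fun l _ => ?_
      rw [Finset.sum_comm]
      exact Finset.sum_congr rfl fun i _ => Finset.sum_congr rfl fun j _ => by rw [hSsymm l j i]
    rw [two_mul]
    conv_rhs => arg 1; rw [hP]
    conv_rhs => arg 2; rw [hP2]
    simp only [← Finset.sum_add_distrib]
    refine Finset.sum_le_sum fun l _ => Finset.sum_le_sum fun i _ => Finset.sum_le_sum fun j _ => ?_
    rw [← add_mul]
    refine mul_le_mul_of_nonneg_right ?_ (sq_nonneg _)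
    rcases le_total (e i) (e j) with hij | hij
    · calc e i ^ α * e j ^ (q - 2 - α) ≤ e j ^ α * e j ^ (q - 2 - α) :=
            mul_le_mul_of_nonneg_right (pow_le_pow_left₀ (he i) hij α) (pow_nonneg (he j) _)
        _ = e j ^ (q - 2) := by rw [← pow_add]; congr 1; omega
        _ ≤ _ := le_add_of_nonneg_left (pow_nonneg (he i) _)
    · calc e i ^ α * e j ^ (q - 2 - α) ≤ e i ^ α * e i ^ (q - 2 - α) :=
            mul_le_mul_of_nonneg_left (pow_le_pow_left₀ (he j) hij _) (pow_nonneg (he i) _)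
        _ = e i ^ (q - 2) := by rw [← pow_add]; congr 1; omega
        _ ≤ _ := le_add_of_nonneg_right (pow_nonneg (he j) _)
  have hrow : ∀ i, ∑ l, ∑ j, S l i j ^ 2 ≤ c * lam ^ 2 := fun i => by
    have h := hR (U *ᵥ Pi.single i 1)
    have e1 : sumSq (U *ᵥ (Pi.single i 1 : Fin n → ℝ)) = 1 := by
      rw [← sumSq_orth hU' (U *ᵥ Pi.single i 1), mulVec_mulVec, hU, one_mulVec]
      simp [sumSq, Pi.single_apply]
    rw [e1, mul_one] at h
    refine le_trans (le_of_eq (Finset.sum_congr rfl fun l _ => ?_)) h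
    rw [← sumSq_orth hU' (T l *ᵥ _), mulVec_mulVec, mulVec_mulVec]
    refine Finset.sum_congr rfl fun j _ => ?_
    rw [hSsymm l i j]
    simp [hS]
  have hQ0 : 0 ≤ Q := Finset.sum_nonneg fun i _ => pow_nonneg (he i) q
  have hP8 : P ≤ 8 * c * Q := by
    have h1 : P ≤ ∑ i, e i ^ (q - 2) * (c * lam ^ 2) :=
      Finset.sum_le_sum fun i _ => mul_le_mul_of_nonneg_left (hrow i) (pow_nonneg (he i) _)
    refine h1.trans ?_
    have h2 : ∑ i, e i ^ (q - 2) * (lam / 2) ^ 2 ≤ 2 * Q := by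
      calc ∑ i, e i ^ (q - 2) * (lam / 2) ^ 2 ≤ ∑ i, (e i ^ q + (lam / 2) ^ q) := by
            refine Finset.sum_le_sum fun i _ => ?_
            have hl : 0 ≤ lam / 2 := by linarith
            rcases le_total (e i) (lam / 2) with hi | hi
            · calc e i ^ (q - 2) * (lam / 2) ^ 2 ≤ (lam / 2) ^ (q - 2) * (lam / 2) ^ 2 :=
                    mul_le_mul_of_nonneg_right (pow_le_pow_left₀ (he i) hi _) (sq_nonneg _)
                _ = (lam / 2) ^ q := by rw [← pow_add]; congr 1; omega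
                _ ≤ _ := le_add_of_nonneg_left (pow_nonneg (he i) _)
            · calc e i ^ (q - 2) * (lam / 2) ^ 2 ≤ e i ^ (q - 2) * e i ^ 2 :=
                    mul_le_mul_of_nonneg_left (pow_le_pow_left₀ hl hi 2) (pow_nonneg (he i) _)
                _ = e i ^ q := by rw [← pow_add]; congr 1; omega
                _ ≤ _ := le_add_of_nonneg_right (pow_nonneg hl _)
        _ = Q + n * (lam / 2) ^ q := by
            rw [Finset.sum_add_distrib]; simp [Q]
        _ ≤ 2 * Q := by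
            have h3 : (n:ℝ) * (lam / 2) ^ q ≤ lam ^ q := by
              rw [div_pow, ← mul_div_assoc, div_le_iff₀ (by positivity), mul_comm (lam ^ q)]
              exact mul_le_mul_of_nonneg_right (by exact_mod_cast hnq) (pow_nonneg hlam q)
            linarith
    rw [← Finset.sum_mul] at h2 ⊢
    have := mul_le_mul_of_nonneg_left h2 hc
    linarith
  refine (Finset.sum_le_sum hterm).trans ?_
  rw [Finset.sum_const, Finset.card_range, nsmul_eq_mul]
  have hq1 : ((q - 1 : ℕ) : ℝ) ≤ q := by exact_mod_cast Nat.sub_le q 1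
  calc ((q - 1 : ℕ) : ℝ) * (2 * P) ≤ ((q - 1 : ℕ) : ℝ) * (2 * (8 * c * Q)) :=
        mul_le_mul_of_nonneg_left (by linarith) (Nat.cast_nonneg _)
    _ ≤ (q : ℝ) * (2 * (8 * c * Q)) := mul_le_mul_of_nonneg_right hq1 (by positivity)
    _ = _ := by ring

end Vale.Agent.P245

namespace Vale.Agent.P245

open Matrix Finset

lemma trace_pow_le {n : ℕ} {A : Matrix (Fin n) (Fin n) ℝ} (hA : Aᵀ = A)
    (hpos : ∀ u, 0 ≤ u ⬝ᵥ (A *ᵥ u)) {L : ℝ} (hL : ∀ u, u ⬝ᵥ (A *ᵥ u) ≤ L * sumSq u) (q : ℕ) :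
    trace (A ^ q) ≤ n * L ^ q := by
  obtain ⟨U, e, hU, hU', rfl⟩ := exists_diag A hA
  rw [conj_pow hU hU', trace_conj hU, trace_diagonal]
  refine (Finset.sum_le_sum fun i _ => ?_).trans (le_of_eq (by simp : ∑ _i : Fin n, L ^ q = n * L ^ q))
  have h1 := hpos (U *ᵥ Pi.single i 1)
  have h2 := hL (U *ᵥ Pi.single i 1)
  rw [quad_conj, mulVec_mulVec, hU, one_mulVec] at h1 h2
  rw [← sumSq_orth hU' (U *ᵥ Pi.single i 1), mulVec_mulVec, hU, one_mulVec] at h2
  simp [Pi.single_apply, sumSq] at h1 h2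
  exact pow_le_pow_left₀ h1 h2 q

end Vale.Agent.P245
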