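import Mathlib
import Vale.Agent.P245.Cube.Borell

/-!
Bounds for covariances and third moments of the tilted measures.
-/

namespace Vale.Agent.P245

open MeasureTheory Set Filter Topology Function Finset
open scoped ContDiff

variable {n : ℕ} {ρ : (Fin n → ℝ) → ℝ} {a : ℝ}

lemma pd_dot (v : Fin n → ℝ) (i : Fin n) (x : Fin n → ℝ) : pd i (fun y => dot v y) x = v i := by
  have h1 : HasFDerivAt (fun y => dot v y) (∑ j, v j • (ContinuousLinearMap.proj j :
      (Fin n → ℝ) →L[ℝ] ℝ)) x :=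
    HasFDerivAt.fun_sum fun j _ => ((ContinuousLinearMap.proj (R := ℝ)
      (φ := fun _ : Fin n => ℝ) j).hasFDerivAt).const_mul (v j)
  rw [pd, h1.fderiv]
  simp [Pi.single_apply]

lemma contDiff_dot (v : Fin n → ℝ) {m : WithTop ℕ∞} : ContDiff ℝ m fun y => dot v y := by
  unfold dot; fun_prop

lemma cls_dot (v : Fin n → ℝ) : Cls (fun y : Fin n → ℝ => dot v y) :=
  ⟨contDiff_dot v, Mild.dot_left v, fun i => by
    rw [show pd i (fun y => dot v y) = fun _ => v i from funext (pd_dot v i)]; exact Mild.const _⟩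

namespace SubDensity

variable (h : SubDensity ρ a)
include h

lemma qf_le_inv (hlc : LogConcaveFun ρ) {s : ℝ} (hs : 0 < s) (θ u : Fin n → ℝ) :
    qf ρ s θ u ≤ sumSq u / s := by
  have h1 := (post_poin h hlc hs θ _ (cls_dot u)).1
  rw [wvar_wt, wen] at h1
  simp only [pd_dot] at h1
  refine h1.trans (le_of_eq ?_)
  rw [show wmean (wt ρ s θ) (fun _ => ∑ i, u i ^ 2) = pm ρ (fun _ => sumSq u) s θ from rfl,
    h.pm_const (by linarith [h.kap_pos])]
  ring

lemma pm_dot {s : ℝ} (hs : -kap a ≤ s) (θ u : Fin n → ℝ) :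
    pm ρ (fun y => dot u y) s θ = dot u (bar ρ s θ) := by
  show pm ρ (fun y => ∑ i, u i * y i) s θ = _
  rw [h.pm_sum Finset.univ (fun i => (Mild.coord i).const_mul (u i)) hs θ]
  exact Finset.sum_congr rfl fun i _ => pm_const_mul _ _ _ _

lemma cl_eq {s : ℝ} (hs : -kap a ≤ s) (θ u x : Fin n → ℝ) :
    cl ρ s θ u x = ∑ i, u i * (x i - bar ρ s θ i) := by
  rw [cl, h.pm_dot hs θ u, dot, dot, ← Finset.sum_sub_distrib]
  exact Finset.sum_congr rfl fun i _ => by ring

omit h in
lemma mild_xbar (s : ℝ) (θ : Fin n → ℝ) (i : Fin n) :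
    Mild fun x : Fin n → ℝ => x i - bar ρ s θ i := (Mild.coord i).sub_const _

/-- Contraction of the third moments. -/
theorem sum_third_sq (hlc : LogConcaveFun ρ) {s : ℝ} (hs : 0 < s) (θ : Fin n → ℝ) {lam : ℝ}
    (hlam : 0 ≤ lam) (hcov : ∀ v, qf ρ s θ v ≤ lam * sumSq v) (u : Fin n → ℝ) :
    ∑ l, ∑ j, (∑ i, u i * thirdM ρ s θ l i j) ^ 2
      ≤ 4 * lam ^ 2 * Real.sqrt (lam / s) * sumSq u := by
  have hk : -kap a ≤ s := by linarith [h.kap_pos]
  set b := bar ρ s θ
  set S : Fin n → Fin n → ℝ := fun l j => ∑ i, u i * thirdM ρ s θ l i j with hS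
  set Y := cl ρ s θ u
  have hYm : Mild Y := mild_cl s θ u
  have hS1 : ∀ l j, S l j = pm ρ (fun x => Y x * ((x l - b l) * (x j - b j))) s θ := by
    intro l j
    have e : (fun x => Y x * ((x l - b l) * (x j - b j)))
        = fun x => ∑ i, u i * ((x l - b l) * (x i - b i) * (x j - b j)) := by
      funext x
      simp only [Y, h.cl_eq hk, Finset.sum_mul]
      exact Finset.sum_congr rfl fun i _ => by ring
    rw [e, h.pm_sum Finset.univ (fun i =>
      (((mild_xbar s θ l).mul (mild_xbar s θ i)).mul (mild_xbar s θ j)).const_mul (u i)) hk θ]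
    exact Finset.sum_congr rfl fun i _ => by rw [pm_const_mul]; rfl
  have hsymm : ∀ l j, S l j = S j l := fun l j => by
    simp only [hS1]; congr 1; funext x; ring
  set f := fun x : Fin n → ℝ => ∑ l, ∑ j, S l j * ((x l - b l) * (x j - b j))
  have hfm : Mild f := Mild.sum _ fun l _ => Mild.sum _ fun j _ =>
    ((mild_xbar s θ l).mul (mild_xbar s θ j)).const_mul _
  have hSS : pm ρ (fun x => Y x * f x) s θ = ∑ l, ∑ j, S l j ^ 2 := by
    have e : (fun x => Y x * f x)
        = fun x => ∑ l, ∑ j, S l j * (Y x * ((x l - b l) * (x j - b j))) := by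
      funext x
      simp only [f, Finset.mul_sum]
      exact Finset.sum_congr rfl fun l _ => Finset.sum_congr rfl fun j _ => by ring
    rw [e, h.pm_sum Finset.univ (fun l => Mild.sum _ fun j _ =>
      (hYm.mul ((mild_xbar s θ l).mul (mild_xbar s θ j))).const_mul _) hk θ]
    refine Finset.sum_congr rfl fun l _ => ?_
    rw [h.pm_sum Finset.univ (fun j =>
      (hYm.mul ((mild_xbar s θ l).mul (mild_xbar s θ j))).const_mul _) hk θ]
    exact Finset.sum_congr rfl fun j _ => by rw [pm_const_mul, ← hS1, sq]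
  set c := pm ρ f s θ
  have hSS2 : pm ρ (fun x => Y x * (f x - c)) s θ = ∑ l, ∑ j, S l j ^ 2 := by
    have e : (fun x => Y x * (f x - c)) = fun x => Y x * f x - c * Y x := by funext x; ring
    rw [e, h.pm_sub (hYm.mul hfm) (hYm.const_mul c) hk, pm_const_mul, h.pm_cl hk, mul_zero, sub_zero,
      hSS]
  have hpd : ∀ k x, pd k f x = 2 * cl ρ s θ (S k) x := by
    intro k x
    have hx : ∀ l, HasFDerivAt (fun y : Fin n → ℝ => y l - b l)
        (ContinuousLinearMap.proj l : (Fin n → ℝ) →L[ℝ] ℝ) x := fun l =>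
      ((ContinuousLinearMap.proj (R := ℝ) (φ := fun _ : Fin n => ℝ) l).hasFDerivAt).sub_const (b l)
    have h1 : HasFDerivAt f (∑ l, ∑ j, S l j • ((x l - b l) • (ContinuousLinearMap.proj j :
        (Fin n → ℝ) →L[ℝ] ℝ) + (x j - b j) • (ContinuousLinearMap.proj l :
        (Fin n → ℝ) →L[ℝ] ℝ))) x :=
      HasFDerivAt.fun_sum fun l _ => HasFDerivAt.fun_sum fun j _ =>
        ((hx l).mul (hx j)).const_mul (S l j)
    have e1 : pd k f x = ∑ l, ∑ j, (S l j * (x l - b l) * (Pi.single k (1:ℝ) : Fin n → ℝ) j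
        + S l j * (x j - b j) * (Pi.single k (1:ℝ) : Fin n → ℝ) l) := by
      rw [pd, h1.fderiv]
      simp [mul_assoc]
    rw [e1, h.cl_eq hk]
    simp only [Finset.sum_add_distrib]
    have e2 : ∑ l, ∑ j, S l j * (x l - b l) * (Pi.single k (1:ℝ) : Fin n → ℝ) j
        = ∑ l, S k l * (x l - b l) := by
      refine Finset.sum_congr rfl fun l _ => ?_
      rw [Finset.sum_eq_single k (fun j _ hj => by simp [hj]) (fun hk' => absurd (Finset.mem_univ k) hk'),
        Pi.single_eq_same, mul_one, hsymm]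
    have e3 : ∑ l, ∑ j, S l j * (x j - b j) * (Pi.single k (1:ℝ) : Fin n → ℝ) l
        = ∑ j, S k j * (x j - b j) := by
      rw [Finset.sum_eq_single k (fun l _ hl => by simp [hl]) (fun hk' => absurd (Finset.mem_univ k) hk')]
      simp
    rw [e2, e3, two_mul]
  have hfc : Cls f := ⟨by unfold f; fun_prop, hfm, fun k => by
    rw [show pd k f = fun x => 2 * cl ρ s θ (S k) x from funext (hpd k)]
    exact (mild_cl s θ (S k)).const_mul 2⟩
  have hpoin := (post_poin h hlc hs θ f hfc).2 lam hlam fun v => by rw [wvar_wt]; exact hcov v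
  rw [wvar_wt] at hpoin
  have hwen : wen (wt ρ s θ) f = ∑ k, 4 * qf ρ s θ (S k) := by
    show pm ρ (fun x => ∑ k, pd k f x ^ 2) s θ = _
    simp only [hpd, mul_pow]
    rw [h.pm_sum Finset.univ (fun k => ((mild_cl s θ (S k)).pow 2).const_mul ((2:ℝ) ^ 2)) hk θ]
    exact Finset.sum_congr rfl fun k _ => by rw [pm_const_mul, h.pm_cl_sq hk]; norm_num
  set Q := ∑ l, ∑ j, S l j ^ 2
  have hQ0 : 0 ≤ Q := Finset.sum_nonneg fun l _ => Finset.sum_nonneg fun j _ => sq_nonneg _
  have hwle : wen (wt ρ s θ) f ≤ 4 * lam * Q := by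
    rw [hwen, Finset.mul_sum]
    refine Finset.sum_le_sum fun k _ => ?_
    rw [mul_assoc]
    exact mul_le_mul_of_nonneg_left (hcov (S k)) (by norm_num)
  have hcs := h.pm_cs hYm (hfm.sub_const c) hk θ
  rw [hSS2, h.pm_cl_sq hk] at hcs
  have hvar : pm ρ (fun x => (f x - c) ^ 2) s θ ≤ Real.sqrt (lam / s) * (4 * lam * Q) := by
    have e : (fun x => (f x - c) ^ 2) = fun x => (f x - c) * (f x - c) := funext fun x => sq _
    rw [e, h.pm_center hfm hfm hk]
    exact hpoin.trans (mul_le_mul_of_nonneg_left hwle (Real.sqrt_nonneg _))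
  have hmain : Q ^ 2 ≤ lam * sumSq u * (Real.sqrt (lam / s) * (4 * lam * Q)) :=
    hcs.trans (mul_le_mul (hcov u) hvar (h.pm_nonneg (fun x => sq_nonneg _) hk θ)
      (mul_nonneg hlam (sumSq_nonneg u)))
  show Q ≤ _
  rcases hQ0.eq_or_lt with h0 | h0
  · rw [← h0]
    have := sumSq_nonneg u
    positivity
  · refine le_of_mul_le_mul_left ?_ h0
    linarith

/-- Derivative of a variance along a line of tilts. -/
lemma hasDerivAt_qf_line {s : ℝ} (hs : -kap a < s) (θ g u : Fin n → ℝ) (r : ℝ) :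
    HasDerivAt (fun r : ℝ => qf ρ s (θ + r • g) u)
      (pm ρ (fun x => cl ρ s (θ + r • g) u x ^ 2 * cl ρ s (θ + r • g) g x) s (θ + r • g)) r := by
  have h1 := h.hasDerivAt_pm_line ((Mild.dot_left u).mul (Mild.dot_left u)) s θ g r hs
  have h2 := h.hasDerivAt_pm_line (Mild.dot_left u) s θ g r hs
  refine (h1.sub (h2.fun_mul h2)).congr_deriv ?_
  set η := θ + r • g
  set my := pm ρ (fun x => dot u x) s η
  set mz := pm ρ (fun x => dot g x) s η
  have hy := Mild.dot_left u
  have hz := Mild.dot_left g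
  have e : (fun x => cl ρ s η u x ^ 2 * cl ρ s η g x)
      = fun x => ((dot u x * dot u x * dot g x - mz * (dot u x * dot u x))
        - 2 * my * (dot u x * dot g x)) + (2 * my * mz * dot u x + (my * my * dot g x - my * my * mz)) := by
    funext x
    simp only [cl]
    ring
  have m1 := ((hy.mul hy).mul hz)
  have m2 := (hy.mul hy).const_mul mz
  have m3 := (hy.mul hz).const_mul (2 * my)
  have m4 := hy.const_mul (2 * my * mz)
  have m5 := hz.const_mul (my * my)
  rw [e, h.pm_add ((m1.sub m2).sub m3) (m4.add (m5.sub_const _)) hs.le, h.pm_sub (m1.sub m2) m3 hs.le,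
    h.pm_sub m1 m2 hs.le, h.pm_add m4 (m5.sub_const _) hs.le, h.pm_sub m5 (Mild.const _) hs.le,
    h.pm_const hs.le]
  simp only [pm_const_mul, pcov]
  ring

lemma qf_deriv_bound (hlc : LogConcaveFun ρ) {s : ℝ} (hs : 0 ≤ s) (θ g u : Fin n → ℝ) {L lam : ℝ}
    (hL : 0 < L) (hu : qf ρ s θ u ≤ L) (hg : qf ρ s θ g ≤ lam) :
    |pm ρ (fun x => cl ρ s θ u x ^ 2 * cl ρ s θ g x) s θ| ≤ 317 * L * Real.sqrt lam := by
  have hk : -kap a ≤ s := by linarith [h.kap_pos]
  have h4 := h.moment_four hlc hs θ u hL hu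
  have hcs := h.pm_cs ((mild_cl (ρ := ρ) s θ u).pow 2) (mild_cl (ρ := ρ) s θ g) hk θ
  rw [h.pm_cl_sq hk] at hcs
  simp only [← pow_mul] at hcs
  rw [← Real.sqrt_sq_eq_abs]
  refine (Real.sqrt_le_sqrt (hcs.trans (mul_le_mul h4 hg (h.qf_nonneg hk θ g) (by positivity)))).trans ?_
  rw [Real.sqrt_mul (by positivity), Real.sqrt_mul (by norm_num : (0:ℝ) ≤ 100000), Real.sqrt_sq hL.le]
  have : Real.sqrt 100000 ≤ 317 := Real.sqrt_le_iff.2 ⟨by norm_num, by norm_num⟩
  gcongr

end SubDensity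

end Vale.Agent.P245
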