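import Mathlib
import Vale.Agent.P245.Cube.Third
import Vale.Agent.P245.Cube.Spec
import Vale.Agent.P245.Cube.Gauss

/-!
Derivatives of covariances of tilts, with polynomial bounds.
-/

namespace Vale.Agent.P245

open MeasureTheory Set Filter Topology Function Finset Matrix
open scoped ContDiff

variable {n : ℕ} {ρ : (Fin n → ℝ) → ℝ} {a : ℝ}

/-- Functions of degree at most `m`. -/
def Deg (m : ℕ) (φ : (Fin n → ℝ) → ℝ) : Prop :=
  Mild φ ∧ ∃ K : ℝ, ∀ x, |φ x| ≤ K * Real.sqrt (1 + sumSq x) ^ m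

lemma one_le_sqrt_sumSq (x : Fin n → ℝ) : 1 ≤ Real.sqrt (1 + sumSq x) :=
  Real.one_le_sqrt.2 (by linarith [sumSq_nonneg x])

lemma Deg.coord (i : Fin n) : Deg 1 fun x : Fin n → ℝ => x i := by
  refine ⟨Mild.coord i, 1, fun x => ?_⟩
  rw [one_mul, pow_one, ← Real.sqrt_sq_eq_abs]
  exact Real.sqrt_le_sqrt (by linarith [sq_le_sumSq x i])

lemma Deg.sumSq' : Deg 2 (sumSq : (Fin n → ℝ) → ℝ) := by
  refine ⟨Mild.sumSq', 1, fun x => ?_⟩
  have := sumSq_nonneg x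
  rw [one_mul, Real.sq_sqrt (by linarith), abs_of_nonneg this]; linarith

lemma Deg.mul {m k : ℕ} {φ ψ : (Fin n → ℝ) → ℝ} (h : Deg m φ) (h' : Deg k ψ) :
    Deg (m + k) fun x => φ x * ψ x := by
  obtain ⟨K, hK⟩ := h.2
  obtain ⟨L, hL⟩ := h'.2
  refine ⟨h.1.mul h'.1, K * L, fun x => ?_⟩
  rw [abs_mul, pow_add, mul_mul_mul_comm]
  exact mul_le_mul (hK x) (hL x) (abs_nonneg _) ((abs_nonneg _).trans (hK x))

/-- Polynomially bounded families, continuous in the tilt. -/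
def PB (a : ℝ) (F : ℝ → (Fin n → ℝ) → ℝ) : Prop :=
  (∀ s, 0 < s → Continuous (F s)) ∧
    ∃ C k, ∀ s θ, 0 ≤ s → s * a ^ 2 ≤ 1 → |F s θ| ≤ C * wP k θ

namespace PB

variable {F G : ℝ → (Fin n → ℝ) → ℝ}

lemma const (r : ℝ) : PB (n := n) a fun _ _ => r :=
  ⟨fun _ _ => continuous_const, |r|, 0, fun _ θ _ _ => by simp [wP]⟩

lemma add (hF : PB a F) (hG : PB a G) : PB a fun s θ => F s θ + G s θ := by
  obtain ⟨C, k, hC⟩ := hF.2
  obtain ⟨D, l, hD⟩ := hG.2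
  refine ⟨fun s hs => (hF.1 s hs).add (hG.1 s hs), |C| + |D|, k + l, fun s θ h0 h1 => ?_⟩
  have e1 := (hC s θ h0 h1).trans ((mul_le_mul_of_nonneg_right (le_abs_self C)
    (zero_le_one.trans (one_le_wP k θ))).trans (mul_le_mul_of_nonneg_left
      (wP_mono (Nat.le_add_right k l) θ) (abs_nonneg C)))
  have e2 := (hD s θ h0 h1).trans ((mul_le_mul_of_nonneg_right (le_abs_self D)
    (zero_le_one.trans (one_le_wP l θ))).trans (mul_le_mul_of_nonneg_left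
      (wP_mono (Nat.le_add_left l k) θ) (abs_nonneg D)))
  rw [add_mul]
  exact (abs_add_le _ _).trans (add_le_add e1 e2)

lemma mul (hF : PB a F) (hG : PB a G) : PB a fun s θ => F s θ * G s θ := by
  obtain ⟨C, k, hC⟩ := hF.2
  obtain ⟨D, l, hD⟩ := hG.2
  refine ⟨fun s hs => (hF.1 s hs).mul (hG.1 s hs), C * D, k + l, fun s θ h0 h1 => ?_⟩
  rw [abs_mul, wP_add, mul_mul_mul_comm]
  exact mul_le_mul (hC s θ h0 h1) (hD s θ h0 h1) (abs_nonneg _) ((abs_nonneg _).trans (hC s θ h0 h1))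

lemma const_mul (hF : PB a F) (r : ℝ) : PB a fun s θ => r * F s θ := (PB.const r).mul hF

lemma sub (hF : PB a F) (hG : PB a G) : PB a fun s θ => F s θ - G s θ := by
  simpa [sub_eq_add_neg] using hF.add (hG.const_mul (-1))

lemma sum {ι : Type*} (t : Finset ι) {F : ι → ℝ → (Fin n → ℝ) → ℝ} (h : ∀ i ∈ t, PB a (F i)) :
    PB a fun s θ => ∑ i ∈ t, F i s θ := by
  classical
  induction t using Finset.induction with
  | empty => simpa using PB.const (a := a) (n := n) 0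
  | insert i t hi ih =>
    simp only [Finset.sum_insert hi]
    exact (h i (Finset.mem_insert_self i t)).add (ih fun j hj => h j (Finset.mem_insert_of_mem hj))

end PB

lemma SubDensity.pb_pm (h : SubDensity ρ a) {m : ℕ} (hm : m ≤ 4) {φ : (Fin n → ℝ) → ℝ} (hφ : Deg m φ) :
    PB a (pm ρ φ) := by
  refine ⟨fun s hs => h.continuous_pm hφ.1 (by linarith [h.kap_pos]), ?_⟩
  obtain ⟨C, hC0, hC⟩ := h.exists_moment_bound
  obtain ⟨K, hK⟩ := hφ.2
  refine ⟨|K| * C, 2, fun s θ h0 h1 => ?_⟩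
  have hk : -kap a ≤ s := by linarith [h.kap_pos]
  refine (h.abs_pm_le hφ.1 (ψ := fun x => |K| * (1 + sumSq x) ^ 2) ((mild_wP 2).const_mul |K|) hk θ
    fun x => (hK x).trans (mul_le_mul (le_abs_self K) ?_ (pow_nonneg (Real.sqrt_nonneg _) _)
      (abs_nonneg K))).trans ?_
  · calc Real.sqrt (1 + sumSq x) ^ m ≤ Real.sqrt (1 + sumSq x) ^ 4 :=
          pow_le_pow_right₀ (one_le_sqrt_sumSq x) hm
      _ = _ := by
          rw [show 4 = 2 * 2 from rfl, pow_mul, Real.sq_sqrt (by linarith [sumSq_nonneg x])]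
  · rw [pm_const_mul, mul_assoc]
    exact mul_le_mul_of_nonneg_left (hC s θ h0 h1) (abs_nonneg K)

/-! ### The operators -/

/-- Derivative of a mean in `θ l`. -/
noncomputable def DL (ρ : (Fin n → ℝ) → ℝ) (l : Fin n) (φ : (Fin n → ℝ) → ℝ) (s : ℝ) (θ : Fin n → ℝ) : ℝ :=
  pcov ρ φ (fun x => x l) s θ

/-- Derivative of a mean in `s`. -/
noncomputable def DS (ρ : (Fin n → ℝ) → ℝ) (φ : (Fin n → ℝ) → ℝ) (s : ℝ) (θ : Fin n → ℝ) : ℝ :=
  -(1 / 2) * pcov ρ φ sumSq s θ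

/-- Second derivative of a mean in `θ l`. -/
noncomputable def DLL (ρ : (Fin n → ℝ) → ℝ) (l : Fin n) (φ : (Fin n → ℝ) → ℝ) (s : ℝ) (θ : Fin n → ℝ) : ℝ :=
  DL ρ l (fun x => φ x * x l) s θ - DL ρ l φ s θ * bar ρ s θ l - pm ρ φ s θ * DL ρ l (fun x => x l) s θ

/-- The action of a derivation on the covariance. -/
noncomputable def covD (ρ : (Fin n → ℝ) → ℝ) (D : ((Fin n → ℝ) → ℝ) → ℝ) (s : ℝ) (θ : Fin n → ℝ) :
    Matrix (Fin n) (Fin n) ℝ :=
  Matrix.of fun i j => D (fun x => x i * x j) - bar ρ s θ i * D (fun x => x j) - bar ρ s θ j * D (fun x => x i)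

/-- The covariance as a matrix. -/
noncomputable def Am (ρ : (Fin n → ℝ) → ℝ) (s : ℝ) (θ : Fin n → ℝ) : Matrix (Fin n) (Fin n) ℝ :=
  Matrix.of (covM ρ s θ)

/-- First derivative of the covariance in `θ l`. -/
noncomputable def T1 (ρ : (Fin n → ℝ) → ℝ) (l : Fin n) (s : ℝ) (θ : Fin n → ℝ) : Matrix (Fin n) (Fin n) ℝ :=
  covD ρ (fun φ => DL ρ l φ s θ) s θ

/-- First derivative of the covariance in `s`. -/
noncomputable def T0 (ρ : (Fin n → ℝ) → ℝ) (s : ℝ) (θ : Fin n → ℝ) : Matrix (Fin n) (Fin n) ℝ :=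
  covD ρ (fun φ => DS ρ φ s θ) s θ

/-- Second derivative of the covariance in `θ l`. -/
noncomputable def T2 (ρ : (Fin n → ℝ) → ℝ) (l : Fin n) (s : ℝ) (θ : Fin n → ℝ) : Matrix (Fin n) (Fin n) ℝ :=
  Matrix.of fun i j => covD ρ (fun φ => DLL ρ l φ s θ) s θ i j
    - 2 * DL ρ l (fun x => x i) s θ * DL ρ l (fun x => x j) s θ

namespace SubDensity

variable (h : SubDensity ρ a)
include h

lemma pb_bar (i : Fin n) : PB a fun s θ => bar ρ s θ i := h.pb_pm (by norm_num) (Deg.coord i)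

lemma pb_pcov {m k : ℕ} (hmk : m + k ≤ 4) {φ ψ : (Fin n → ℝ) → ℝ} (hφ : Deg m φ) (hψ : Deg k ψ) :
    PB a (pcov ρ φ ψ) :=
  (h.pb_pm hmk (hφ.mul hψ)).sub ((h.pb_pm (by omega) hφ).mul (h.pb_pm (by omega) hψ))

lemma pb_DL {m : ℕ} (hm : m ≤ 3) (l : Fin n) {φ : (Fin n → ℝ) → ℝ} (hφ : Deg m φ) : PB a (DL ρ l φ) :=
  h.pb_pcov (by omega) hφ (Deg.coord l)

lemma pb_DS {m : ℕ} (hm : m ≤ 2) {φ : (Fin n → ℝ) → ℝ} (hφ : Deg m φ) : PB a (DS ρ φ) :=
  (h.pb_pcov (by omega) hφ Deg.sumSq').const_mul _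

lemma pb_DLL {m : ℕ} (hm : m ≤ 2) (l : Fin n) {φ : (Fin n → ℝ) → ℝ} (hφ : Deg m φ) : PB a (DLL ρ l φ) :=
  ((h.pb_DL (by omega) l (hφ.mul (Deg.coord l))).sub ((h.pb_DL (by omega) l hφ).mul (h.pb_bar l))).sub
    ((h.pb_pm (by omega) hφ).mul (h.pb_DL (by norm_num) l (Deg.coord l)))

lemma pb_covD {D : ((Fin n → ℝ) → ℝ) → ℝ → (Fin n → ℝ) → ℝ}
    (hD : ∀ {m : ℕ}, m ≤ 2 → ∀ {φ : (Fin n → ℝ) → ℝ}, Deg m φ → PB a (D φ)) (i j : Fin n) :
    PB a fun s θ => covD ρ (fun φ => D φ s θ) s θ i j :=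
  ((hD (by norm_num) ((Deg.coord i).mul (Deg.coord j))).sub ((h.pb_bar i).mul
    (hD (by norm_num) (Deg.coord j)))).sub ((h.pb_bar j).mul (hD (by norm_num) (Deg.coord i)))

lemma pb_Am (i j : Fin n) : PB a fun s θ => Am ρ s θ i j :=
  h.pb_pcov (by norm_num) (Deg.coord i) (Deg.coord j)

lemma pb_T1 (l i j : Fin n) : PB a fun s θ => T1 ρ l s θ i j :=
  h.pb_covD (D := fun φ => DL ρ l φ) (fun hm _ hφ => h.pb_DL (by omega) l hφ) i j

lemma pb_T0 (i j : Fin n) : PB a fun s θ => T0 ρ s θ i j :=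
  h.pb_covD (D := fun φ => DS ρ φ) (fun hm _ hφ => h.pb_DS hm hφ) i j

lemma pb_T2 (l i j : Fin n) : PB a fun s θ => T2 ρ l s θ i j :=
  (h.pb_covD (D := fun φ => DLL ρ l φ) (fun hm _ hφ => h.pb_DLL hm l hφ) i j).sub
    (((h.pb_DL (by norm_num) l (Deg.coord i)).const_mul 2).mul (h.pb_DL (by norm_num) l (Deg.coord j)))

lemma pcov_dir {φ : (Fin n → ℝ) → ℝ} (hφ : Mild φ) {s : ℝ} (hs : -kap a ≤ s) (θ v : Fin n → ℝ) (r : ℝ) :
    pcov ρ φ (fun x => dot v x - r / 2 * sumSq x) s θ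
      = (∑ l, v l * DL ρ l φ s θ) + r * DS ρ φ s θ := by
  have m1 : Mild fun x => φ x * dot v x := hφ.mul (Mild.dot_left v)
  have e1 : (fun x => φ x * (dot v x - r / 2 * sumSq x))
      = fun x => φ x * dot v x - r / 2 * (φ x * sumSq x) := by funext x; ring
  have e2 : (fun x => φ x * dot v x) = fun x => ∑ l, v l * (φ x * x l) := by
    funext x; rw [dot, Finset.mul_sum]; exact Finset.sum_congr rfl fun l _ => by ring
  rw [pcov, e1, h.pm_sub m1 ((hφ.mul Mild.sumSq').const_mul (r / 2)) hs,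
    h.pm_sub (Mild.dot_left v) (Mild.sumSq'.const_mul (r / 2)) hs, pm_const_mul, pm_const_mul,
    h.pm_dot hs θ v, e2,
    h.pm_sum Finset.univ (fun l => (hφ.mul (Mild.coord l)).const_mul (v l)) hs θ]
  simp only [DL, DS, pcov, pm_const_mul, dot, bar, mul_sub, Finset.sum_sub_distrib, Finset.mul_sum]
  have e3 : ∑ l, pm ρ φ s θ * (v l * pm ρ (fun x => x l) s θ)
      = ∑ l, v l * (pm ρ φ s θ * pm ρ (fun x => x l) s θ) :=
    Finset.sum_congr rfl fun l _ => by ring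
  rw [e3]
  ring

lemma hasDerivAt_pm_dir {φ : (Fin n → ℝ) → ℝ} (hφ : Mild φ) {c c' : ℝ → Fin n → ℝ} {s s' : ℝ → ℝ}
    {u0 : ℝ} (hd : ∀ᶠ u in 𝓝 u0, (∀ i, HasDerivAt (fun v => c v i) (c' u i) u) ∧ HasDerivAt s (s' u) u)
    (hc' : ContinuousAt c' u0) (hs' : ContinuousAt s' u0) (hs : -kap a < s u0) :
    HasDerivAt (fun u => pm ρ φ (s u) (c u))
      ((∑ l, c' u0 l * DL ρ l φ (s u0) (c u0)) + s' u0 * DS ρ φ (s u0) (c u0)) u0 := by
  have := h.hasDerivAt_pm hφ hd hc' hs' hs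
  rwa [h.pcov_dir hφ hs.le] at this

lemma hasDerivAt_cov {c c' : ℝ → Fin n → ℝ} {s s' : ℝ → ℝ}
    {u0 : ℝ} (hd : ∀ᶠ u in 𝓝 u0, (∀ i, HasDerivAt (fun v => c v i) (c' u i) u) ∧ HasDerivAt s (s' u) u)
    (hc' : ContinuousAt c' u0) (hs' : ContinuousAt s' u0) (hs : -kap a < s u0) (i j : Fin n) :
    HasDerivAt (fun u => Am ρ (s u) (c u) i j)
      (((∑ l, c' u0 l • T1 ρ l (s u0) (c u0)) + s' u0 • T0 ρ (s u0) (c u0)) i j) u0 := by
  have h1 := h.hasDerivAt_pm_dir ((Mild.coord i).mul (Mild.coord j)) hd hc' hs' hs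
  have h2 := h.hasDerivAt_pm_dir (Mild.coord i) hd hc' hs' hs
  have h3 := h.hasDerivAt_pm_dir (Mild.coord j) hd hc' hs' hs
  refine (h1.sub (h2.fun_mul h3)).congr_deriv ?_
  simp only [Matrix.add_apply, Matrix.sum_apply, Matrix.smul_apply, smul_eq_mul, T1, T0, covD,
    Matrix.of_apply, bar]
  generalize pm ρ (fun x => x i) (s u0) (c u0) = bi
  generalize pm ρ (fun x => x j) (s u0) (c u0) = bj
  simp only [mul_sub, Finset.sum_sub_distrib]
  simp only [mul_left_comm (c' u0 _) bi, mul_left_comm (c' u0 _) bj, ← Finset.mul_sum]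
  ring

lemma hasDerivAt_line_l {φ : (Fin n → ℝ) → ℝ} (hφ : Mild φ) {s : ℝ} (hs : -kap a < s) (θ : Fin n → ℝ)
    (l : Fin n) :
    HasDerivAt (fun r : ℝ => pm ρ φ s (θ + r • (Pi.single l 1 : Fin n → ℝ))) (DL ρ l φ s θ) 0 := by
  have := h.hasDerivAt_pm_line hφ s θ (Pi.single l 1) 0 hs
  simpa [dot_single, DL] using this

lemma hasDerivAt_DL {φ : (Fin n → ℝ) → ℝ} (hφ : Mild φ) {s : ℝ} (hs : -kap a < s) (θ : Fin n → ℝ)
    (l : Fin n) :
    HasDerivAt (fun r : ℝ => DL ρ l φ s (θ + r • (Pi.single l 1 : Fin n → ℝ))) (DLL ρ l φ s θ) 0 := by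
  have h1 := h.hasDerivAt_line_l (hφ.mul (Mild.coord l)) hs θ l
  have h2 := h.hasDerivAt_line_l hφ hs θ l
  have h3 := h.hasDerivAt_line_l (Mild.coord l) hs θ l
  refine (h1.sub (h2.fun_mul h3)).congr_deriv ?_
  simp only [zero_smul, add_zero, DLL, bar]
  ring

lemma hasDerivAt_T1 {s : ℝ} (hs : -kap a < s) (θ : Fin n → ℝ) (l i j : Fin n) :
    HasDerivAt (fun r : ℝ => T1 ρ l s (θ + r • (Pi.single l 1 : Fin n → ℝ)) i j) (T2 ρ l s θ i j) 0 := by
  have h1 := h.hasDerivAt_DL ((Mild.coord i).mul (Mild.coord j)) hs θ l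
  have h2 := h.hasDerivAt_DL (Mild.coord i) hs θ l
  have h3 := h.hasDerivAt_DL (Mild.coord j) hs θ l
  have b2 := h.hasDerivAt_line_l (Mild.coord i) hs θ l
  have b3 := h.hasDerivAt_line_l (Mild.coord j) hs θ l
  refine ((h1.sub (b2.fun_mul h3)).sub (b3.fun_mul h2)).congr_deriv ?_
  simp only [zero_smul, add_zero, T2, covD, Matrix.of_apply, bar]
  ring

lemma drift_identity {s : ℝ} (hs : -kap a ≤ s) (θ : Fin n → ℝ) {φ : (Fin n → ℝ) → ℝ} (hφ : Mild φ) :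
    DS ρ φ s θ + (∑ l, bar ρ s θ l * DL ρ l φ s θ) + 1 / 2 * ∑ l, DLL ρ l φ s θ = 0 := by
  have e : ∀ l, bar ρ s θ l * DL ρ l φ s θ + 1 / 2 * DLL ρ l φ s θ
      = 1 / 2 * pcov ρ φ (fun x => x l * x l) s θ := by
    intro l
    simp only [DLL, DL, pcov, bar, mul_assoc]
    ring
  have e2 : ∑ l, pcov ρ φ (fun x => x l * x l) s θ = pcov ρ φ sumSq s θ := by
    have e3 : (sumSq : (Fin n → ℝ) → ℝ) = fun x => ∑ l, x l * x l :=
      funext fun x => Finset.sum_congr rfl fun l _ => sq _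
    simp only [pcov, Finset.sum_sub_distrib, ← Finset.mul_sum]
    rw [e3, h.pm_sum Finset.univ (fun l => (Mild.coord l).mul (Mild.coord l)) hs θ]
    have e4 : (fun x => φ x * ∑ l, x l * x l) = fun x => ∑ l, φ x * (x l * x l) :=
      funext fun x => Finset.mul_sum _ _ _
    rw [e4, h.pm_sum Finset.univ (fun l => hφ.mul ((Mild.coord l).mul (Mild.coord l))) hs θ]
  have := Finset.sum_congr rfl fun l (_ : l ∈ Finset.univ) => e l
  rw [Finset.sum_add_distrib, ← Finset.mul_sum, ← Finset.mul_sum, e2] at this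
  rw [DS]
  linarith

omit h in
lemma Am_transpose (s : ℝ) (θ : Fin n → ℝ) : (Am ρ s θ)ᵀ = Am ρ s θ := by
  ext i j
  show covM ρ s θ j i = covM ρ s θ i j
  simp only [covM, pcov, mul_comm]

lemma quad_Am {s : ℝ} (hs : -kap a ≤ s) (θ u : Fin n → ℝ) :
    u ⬝ᵥ (Am ρ s θ *ᵥ u) = qf ρ s θ u := by
  rw [h.qf_eq_cov hs]
  simp only [dotProduct, Matrix.mulVec, Am, Matrix.of_apply, Finset.mul_sum]
  exact Finset.sum_congr rfl fun i _ => Finset.sum_congr rfl fun j _ => by ring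

lemma generator_cov {s : ℝ} (hs : -kap a ≤ s) (θ : Fin n → ℝ) :
    T0 ρ s θ + (∑ l, bar ρ s θ l • T1 ρ l s θ) + (1 / 2 : ℝ) • ∑ l, T2 ρ l s θ
      = -(Am ρ s θ * Am ρ s θ) := by
  ext i j
  have k1 := h.drift_identity hs θ ((Mild.coord i).mul (Mild.coord j))
  have k2 := h.drift_identity hs θ (Mild.coord i)
  have k3 := h.drift_identity hs θ (Mild.coord j)
  have e1 : ∀ l, DL ρ l (fun x => x i) s θ = Am ρ s θ i l := fun l => rfl
  have e2 : ∀ l, DL ρ l (fun x => x j) s θ = Am ρ s θ l j := fun l => by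
    show DL ρ l (fun x => x j) s θ = covM ρ s θ l j
    simp only [DL, covM, pcov, mul_comm]
  simp only [Matrix.add_apply, Matrix.sum_apply, Matrix.smul_apply, Matrix.neg_apply, Matrix.mul_apply,
    smul_eq_mul, T0, T1, T2, covD, Matrix.of_apply]
  have eD : ∑ l, bar ρ s θ l * (DL ρ l (fun x => x i * x j) s θ - bar ρ s θ i * DL ρ l (fun x => x j) s θ
        - bar ρ s θ j * DL ρ l (fun x => x i) s θ)
      = (∑ l, bar ρ s θ l * DL ρ l (fun x => x i * x j) s θ)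
        - bar ρ s θ i * (∑ l, bar ρ s θ l * DL ρ l (fun x => x j) s θ)
        - bar ρ s θ j * (∑ l, bar ρ s θ l * DL ρ l (fun x => x i) s θ) := by
    simp only [Finset.mul_sum, ← Finset.sum_sub_distrib]
    exact Finset.sum_congr rfl fun l _ => by ring
  have eE : ∑ l, (DLL ρ l (fun x => x i * x j) s θ - bar ρ s θ i * DLL ρ l (fun x => x j) s θ
        - bar ρ s θ j * DLL ρ l (fun x => x i) s θ
        - 2 * DL ρ l (fun x => x i) s θ * DL ρ l (fun x => x j) s θ)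
      = (∑ l, DLL ρ l (fun x => x i * x j) s θ) - bar ρ s θ i * (∑ l, DLL ρ l (fun x => x j) s θ)
        - bar ρ s θ j * (∑ l, DLL ρ l (fun x => x i) s θ)
        - 2 * ∑ l, Am ρ s θ i l * Am ρ s θ l j := by
    simp only [Finset.mul_sum, ← Finset.sum_sub_distrib]
    exact Finset.sum_congr rfl fun l _ => by rw [e1, e2]; ring
  rw [eD, eE]
  linear_combination k1 - bar ρ s θ i * k3 - bar ρ s θ j * k2

lemma T1_eq_third {s : ℝ} (hs : -kap a ≤ s) (θ : Fin n → ℝ) (l i j : Fin n) :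
    T1 ρ l s θ i j = thirdM ρ s θ l i j := by
  set bl := bar ρ s θ l with hbl
  set bi := bar ρ s θ i with hbi
  set bj := bar ρ s θ j with hbj
  have e : (fun x : Fin n → ℝ => (x l - bl) * (x i - bi) * (x j - bj))
      = fun x => ((x i * x j * x l - bl * (x i * x j)) - bi * (x j * x l))
        + ((bi * bl * x j + (bj * bi * x l - bj * bl * bi)) - bj * (x i * x l) + bj * bl * x i) := by
    funext x; ring
  have mi := Mild.coord (n := n) i
  have mj := Mild.coord (n := n) j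
  have ml := Mild.coord (n := n) l
  have n1 := (mi.mul mj).mul ml
  have n2 := (mi.mul mj).const_mul bl
  have n3 := (mj.mul ml).const_mul bi
  have n4 := mj.const_mul (bi * bl)
  have n5 := ml.const_mul (bj * bi)
  have n6 := (mi.mul ml).const_mul bj
  have n7 := mi.const_mul (bj * bl)
  rw [thirdM, ← hbl, ← hbi, ← hbj, e,
    h.pm_add ((n1.sub n2).sub n3) (((n4.add (n5.sub_const _)).sub n6).add n7) hs,
    h.pm_sub (n1.sub n2) n3 hs, h.pm_sub n1 n2 hs, h.pm_add ((n4.add (n5.sub_const _)).sub n6) n7 hs,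
    h.pm_sub (n4.add (n5.sub_const _)) n6 hs, h.pm_add n4 (n5.sub_const _) hs,
    h.pm_sub n5 (Mild.const _) hs, h.pm_const hs]
  simp only [pm_const_mul, T1, covD, DL, pcov, Matrix.of_apply, hbl, hbi, hbj, bar]
  ring

lemma T1_symm {s : ℝ} (hs : -kap a ≤ s) (θ : Fin n → ℝ) (l : Fin n) :
    (T1 ρ l s θ)ᵀ = T1 ρ l s θ := by
  ext i j
  rw [Matrix.transpose_apply, h.T1_eq_third hs, h.T1_eq_third hs]
  simp only [thirdM]
  congr 1; funext x; ring

lemma T1_contract (hlc : LogConcaveFun ρ) {s : ℝ} (hs : 0 < s) (θ : Fin n → ℝ) {lam : ℝ} (hlam : 0 ≤ lam)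
    (hcov : ∀ v, qf ρ s θ v ≤ lam * sumSq v) (u : Fin n → ℝ) :
    ∑ l, sumSq (T1 ρ l s θ *ᵥ u) ≤ 4 * Real.sqrt (lam / s) * lam ^ 2 * sumSq u := by
  have hk : -kap a ≤ s := by linarith [h.kap_pos]
  refine le_trans (le_of_eq ?_) ((h.sum_third_sq hlc hs θ hlam hcov u).trans (le_of_eq (by ring)))
  refine Finset.sum_congr rfl fun l _ => Finset.sum_congr rfl fun i _ => ?_
  simp only [Matrix.mulVec, dotProduct, h.T1_eq_third hk]
  congr 1
  refine Finset.sum_congr rfl fun j _ => ?_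
  rw [mul_comm]
  simp only [thirdM]
  congr 2; funext x; ring

end SubDensity

end Vale.Agent.P245
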