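import Mathlib
import Vale.Agent.P245.Cube.Deriv

/-!
Growth of the covariance of the tilts at `θ = s X + √s G`.
-/

namespace Vale.Agent.P245

open MeasureTheory Set Filter Topology Function Finset Matrix
open scoped ContDiff

variable {n : ℕ}

/-- Entrywise derivative of a power of a matrix curve. -/
lemma hasDerivAt_pow_entry {A : ℝ → Matrix (Fin n) (Fin n) ℝ} {A' : Matrix (Fin n) (Fin n) ℝ} {u0 : ℝ}
    (h : ∀ i j, HasDerivAt (fun u => A u i j) (A' i j) u0) (k : ℕ) :
    ∀ i j, HasDerivAt (fun u => (A u ^ k) i j)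
      ((∑ α ∈ Finset.range k, A u0 ^ α * A' * A u0 ^ (k - 1 - α)) i j) u0 := by
  induction k with
  | zero =>
    intro i j
    simp only [pow_zero, Finset.range_zero, Finset.sum_empty, Matrix.zero_apply]
    exact hasDerivAt_const _ _
  | succ k ih =>
    intro i j
    have h1 : HasDerivAt (fun u => ∑ l, (A u ^ k) i l * A u l j)
        (∑ l, ((∑ α ∈ Finset.range k, A u0 ^ α * A' * A u0 ^ (k - 1 - α)) i l * A u0 l j
          + (A u0 ^ k) i l * A' l j)) u0 :=
      HasDerivAt.fun_sum fun l _ => (ih i l).fun_mul (h l j)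
    have e : (fun u => (A u ^ (k + 1)) i j) = fun u => ∑ l, (A u ^ k) i l * A u l j := by
      funext u; rw [pow_succ]; rfl
    rw [e]
    refine h1.congr_deriv ?_
    rw [Finset.sum_add_distrib, Finset.sum_range_succ]
    have e1 : k + 1 - 1 - k = 0 := by omega
    rw [e1, pow_zero, Matrix.mul_one, Matrix.add_apply, Matrix.mul_apply]
    congr 1
    have e2 : ∑ α ∈ Finset.range k, A u0 ^ α * A' * A u0 ^ (k + 1 - 1 - α)
        = (∑ α ∈ Finset.range k, A u0 ^ α * A' * A u0 ^ (k - 1 - α)) * A u0 := by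
      rw [Finset.sum_mul]
      refine Finset.sum_congr rfl fun α hα => ?_
      rw [Finset.mem_range] at hα
      rw [show k + 1 - 1 - α = (k - 1 - α) + 1 by omega, pow_succ, ← Matrix.mul_assoc]
    rw [e2, Matrix.mul_apply]

lemma hasDerivAt_trace_pow {A : ℝ → Matrix (Fin n) (Fin n) ℝ} {A' : Matrix (Fin n) (Fin n) ℝ} {u0 : ℝ}
    (h : ∀ i j, HasDerivAt (fun u => A u i j) (A' i j) u0) (q : ℕ) :
    HasDerivAt (fun u => trace (A u ^ q)) (q * trace (A u0 ^ (q - 1) * A')) u0 := by
  have h1 : HasDerivAt (fun u => trace (A u ^ q))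
      (trace (∑ α ∈ Finset.range q, A u0 ^ α * A' * A u0 ^ (q - 1 - α))) u0 :=
    HasDerivAt.fun_sum fun i _ => hasDerivAt_pow_entry h q i i
  refine h1.congr_deriv ?_
  rw [trace_sum, Finset.sum_congr rfl (g := fun _ => trace (A u0 ^ (q - 1) * A')) fun α hα => ?_]
  · simp
  · rw [Finset.mem_range] at hα
    rw [trace_mul_cycle, ← pow_add, show q - 1 - α + α = q - 1 by omega]

variable {ρ : (Fin n → ℝ) → ℝ} {a : ℝ}

/-- The trace of the `q`-th power of the covariance, scaled. -/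
noncomputable def xq (ρ : (Fin n → ℝ) → ℝ) (M : ℝ) (q : ℕ) (s : ℝ) (θ : Fin n → ℝ) : ℝ :=
  trace (Am ρ s θ ^ q) / M ^ q

/-- Variation of `xq`. -/
noncomputable def xd (ρ : (Fin n → ℝ) → ℝ) (M : ℝ) (q : ℕ) (B : Matrix (Fin n) (Fin n) ℝ) (s : ℝ)
    (θ : Fin n → ℝ) : ℝ :=
  q / M ^ q * trace (Am ρ s θ ^ (q - 1) * B)

/-- The truncated observable. -/
noncomputable def obs (ρ : (Fin n → ℝ) → ℝ) (M : ℝ) (q : ℕ) (s : ℝ) (θ : Fin n → ℝ) : ℝ :=
  xq ρ M q s θ / (1 + xq ρ M q s θ)

/-- Derivative of the observable with respect to `xq`. -/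
noncomputable def dob (ρ : (Fin n → ℝ) → ℝ) (M : ℝ) (q : ℕ) (s : ℝ) (θ : Fin n → ℝ) : ℝ :=
  1 / (1 + xq ρ M q s θ) ^ 2

/-- The observable's derivative in `θ l`. -/
noncomputable def gl (ρ : (Fin n → ℝ) → ℝ) (M : ℝ) (q : ℕ) (l : Fin n) (s : ℝ) (θ : Fin n → ℝ) : ℝ :=
  dob ρ M q s θ * xd ρ M q (T1 ρ l s θ) s θ

/-- The observable's derivative in `s`. -/
noncomputable def g0 (ρ : (Fin n → ℝ) → ℝ) (M : ℝ) (q : ℕ) (s : ℝ) (θ : Fin n → ℝ) : ℝ :=
  dob ρ M q s θ * xd ρ M q (T0 ρ s θ) s θ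

/-- The observable's second derivative in `θ l`. -/
noncomputable def gll (ρ : (Fin n → ℝ) → ℝ) (M : ℝ) (q : ℕ) (l : Fin n) (s : ℝ) (θ : Fin n → ℝ) : ℝ :=
  -2 / (1 + xq ρ M q s θ) ^ 3 * xd ρ M q (T1 ρ l s θ) s θ ^ 2
    + dob ρ M q s θ * (q / M ^ q * (trace (Am ρ s θ ^ (q - 1) * T2 ρ l s θ)
      + ∑ α ∈ Finset.range (q - 1), trace (Am ρ s θ ^ α * T1 ρ l s θ * Am ρ s θ ^ (q - 2 - α) * T1 ρ l s θ)))

namespace SubDensity

variable (h : SubDensity ρ a)
include h

lemma xq_nonneg {M : ℝ} (hM : 0 < M) (q : ℕ) {s : ℝ} (hs : -kap a ≤ s) (θ : Fin n → ℝ) :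
    0 ≤ xq ρ M q s θ :=
  div_nonneg (trace_pow_nonneg (Am_transpose s θ) (fun u => by rw [h.quad_Am hs]; exact h.qf_nonneg hs θ u) q)
    (pow_nonneg hM.le q)

lemma obs_mem {M : ℝ} (hM : 0 < M) (q : ℕ) {s : ℝ} (hs : -kap a ≤ s) (θ : Fin n → ℝ) :
    0 ≤ obs ρ M q s θ ∧ obs ρ M q s θ ≤ 1 := by
  have := h.xq_nonneg hM q hs θ
  unfold obs
  exact ⟨by positivity, (div_le_one (by linarith)).2 (by linarith)⟩

lemma pb_pow (k : ℕ) : ∀ i j, PB a fun s θ => (Am ρ s θ ^ k) i j := by
  induction k with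
  | zero =>
    intro i j
    simp only [pow_zero]
    exact PB.const _
  | succ k ih =>
    intro i j
    simp only [pow_succ, Matrix.mul_apply]
    exact PB.sum _ fun l _ => (ih i l).mul (h.pb_Am l j)

lemma pb_trace_mul {B : ℝ → (Fin n → ℝ) → Matrix (Fin n) (Fin n) ℝ} (hB : ∀ i j, PB a fun s θ => B s θ i j)
    (k : ℕ) : PB a fun s θ => trace (Am ρ s θ ^ k * B s θ) := by
  simp only [Matrix.trace, Matrix.diag_apply, Matrix.mul_apply]
  exact PB.sum _ fun i _ => PB.sum _ fun l _ => (h.pb_pow k i l).mul (hB l i)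

lemma pb_xq (M : ℝ) (q : ℕ) : PB a (xq ρ M q) := by
  have e : xq ρ M q = fun s θ => (1 / M ^ q) * trace (Am ρ s θ ^ q) := by
    funext s θ; rw [xq]; ring
  rw [e]
  exact (PB.sum _ fun i _ => h.pb_pow q i i).const_mul _

lemma pb_rat {M : ℝ} (hM : 0 < M) (q m : ℕ) : PB a fun s θ => 1 / (1 + xq ρ M q s θ) ^ m := by
  refine ⟨fun s hs => ?_, 1, 0, fun s θ h0 _ => ?_⟩
  · refine continuous_const.div₀ ((continuous_const.add ((h.pb_xq M q).1 s hs)).pow m) fun θ => ?_
    have := h.xq_nonneg hM q (s := s) (by linarith [h.kap_pos]) θ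
    positivity
  · have := h.xq_nonneg hM q (s := s) (by linarith [h.kap_pos]) θ
    rw [abs_of_nonneg (by positivity), wP, pow_zero, mul_one]
    exact (div_le_one (by positivity)).2 (one_le_pow₀ (by linarith))

lemma pb_gl {M : ℝ} (hM : 0 < M) (q : ℕ) (l : Fin n) : PB a (gl ρ M q l) :=
  (h.pb_rat hM q 2).mul ((h.pb_trace_mul (fun i j => h.pb_T1 l i j) (q - 1)).const_mul _)

lemma pb_g0 {M : ℝ} (hM : 0 < M) (q : ℕ) : PB a (g0 ρ M q) :=
  (h.pb_rat hM q 2).mul ((h.pb_trace_mul (fun i j => h.pb_T0 i j) (q - 1)).const_mul _)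

lemma pb_gll {M : ℝ} (hM : 0 < M) (q : ℕ) (l : Fin n) : PB a (gll ρ M q l) := by
  have h1 : PB a fun s θ => -2 / (1 + xq ρ M q s θ) ^ 3 * xd ρ M q (T1 ρ l s θ) s θ ^ 2 := by
    have := ((h.pb_rat hM q 3).const_mul (-2)).mul
      ((((h.pb_trace_mul (fun i j => h.pb_T1 l i j) (q - 1)).const_mul (q / M ^ q))).mul
        ((h.pb_trace_mul (fun i j => h.pb_T1 l i j) (q - 1)).const_mul (q / M ^ q)))
    simpa [xd, sq, mul_one_div, div_eq_mul_inv] using this
  refine h1.add ((h.pb_rat hM q 2).mul (((h.pb_trace_mul (fun i j => h.pb_T2 l i j) (q - 1)).add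
    (PB.sum _ fun α _ => ?_)).const_mul _))
  simp only [Matrix.trace, Matrix.diag_apply, Matrix.mul_apply, Finset.sum_mul]
  exact PB.sum _ fun i _ => PB.sum _ fun k _ => PB.sum _ fun m _ => PB.sum _ fun p _ =>
    (((h.pb_pow α i p).mul (h.pb_T1 l p m)).mul (h.pb_pow _ m k)).mul (h.pb_T1 l k i)

lemma hasDerivAt_obs {M : ℝ} (hM : 0 < M) (q : ℕ) {c c' : ℝ → Fin n → ℝ} {s s' : ℝ → ℝ}
    {u0 : ℝ} (hd : ∀ᶠ u in 𝓝 u0, (∀ i, HasDerivAt (fun v => c v i) (c' u i) u) ∧ HasDerivAt s (s' u) u)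
    (hc' : ContinuousAt c' u0) (hs' : ContinuousAt s' u0) (hs : -kap a < s u0) :
    HasDerivAt (fun u => obs ρ M q (s u) (c u))
      ((∑ l, c' u0 l * gl ρ M q l (s u0) (c u0)) + s' u0 * g0 ρ M q (s u0) (c u0)) u0 := by
  have h1 : HasDerivAt (fun u => xq ρ M q (s u) (c u))
      ((∑ l, c' u0 l * xd ρ M q (T1 ρ l (s u0) (c u0)) (s u0) (c u0))
        + s' u0 * xd ρ M q (T0 ρ (s u0) (c u0)) (s u0) (c u0)) u0 := by
    refine ((hasDerivAt_trace_pow (A := fun u => Am ρ (s u) (c u))
      (fun i j => h.hasDerivAt_cov hd hc' hs' hs i j) q).div_const (M ^ q)).congr_deriv ?_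
    simp only [xd, Finset.mul_sum, Matrix.mul_smul, Matrix.trace_add, Matrix.trace_sum,
      Matrix.trace_smul, smul_eq_mul, mul_add, add_div, Finset.sum_div]
    exact congrArg₂ (· + ·) (Finset.sum_congr rfl fun l _ => by ring) (by ring)
  have hx := h.xq_nonneg hM q hs.le (c u0)
  refine (h1.fun_div (h1.const_add 1) (by linarith : 1 + xq ρ M q (s u0) (c u0) ≠ 0)).congr_deriv ?_
  simp only [gl, g0, dob]
  have e : ∑ l, c' u0 l * (1 / (1 + xq ρ M q (s u0) (c u0)) ^ 2
      * xd ρ M q (T1 ρ l (s u0) (c u0)) (s u0) (c u0))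
      = 1 / (1 + xq ρ M q (s u0) (c u0)) ^ 2
        * ∑ l, c' u0 l * xd ρ M q (T1 ρ l (s u0) (c u0)) (s u0) (c u0) := by
    rw [Finset.mul_sum]; exact Finset.sum_congr rfl fun l _ => by ring
  rw [e]
  generalize ∑ l, c' u0 l * xd ρ M q (T1 ρ l (s u0) (c u0)) (s u0) (c u0) = P
  generalize xd ρ M q (T0 ρ (s u0) (c u0)) (s u0) (c u0) = Q
  have hne : (1 + xq ρ M q (s u0) (c u0)) ≠ 0 := by linarith
  field_simp
  ring

lemma hasDerivAt_gl {M : ℝ} (hM : 0 < M) (q : ℕ) {s : ℝ} (hs : -kap a < s) (θ : Fin n → ℝ) (l : Fin n) :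
    HasLineDerivAt ℝ (gl ρ M q l s) (gll ρ M q l s θ) θ (Pi.single l 1) := by
  set e : Fin n → ℝ := Pi.single l 1
  have hA : ∀ i j, HasDerivAt (fun r : ℝ => Am ρ s (θ + r • e) i j) (T1 ρ l s θ i j) 0 := by
    intro i j
    have h1 := h.hasDerivAt_line_l ((Mild.coord i).mul (Mild.coord j)) hs θ l
    have h2 := h.hasDerivAt_line_l (Mild.coord i) hs θ l
    have h3 := h.hasDerivAt_line_l (Mild.coord j) hs θ l
    refine (h1.sub (h2.fun_mul h3)).congr_deriv ?_
    simp only [zero_smul, add_zero, T1, covD, Matrix.of_apply, bar]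
    ring
  have hx : HasDerivAt (fun r : ℝ => xq ρ M q s (θ + r • e)) (xd ρ M q (T1 ρ l s θ) s θ) 0 := by
    refine ((hasDerivAt_trace_pow hA q).div_const (M ^ q)).congr_deriv ?_
    simp only [xd, zero_smul, add_zero]; ring
  have hN : HasDerivAt (fun r : ℝ => trace (Am ρ s (θ + r • e) ^ (q - 1) * T1 ρ l s (θ + r • e)))
      (trace (Am ρ s θ ^ (q - 1) * T2 ρ l s θ)
        + ∑ α ∈ Finset.range (q - 1),
          trace (Am ρ s θ ^ α * T1 ρ l s θ * Am ρ s θ ^ (q - 2 - α) * T1 ρ l s θ)) 0 := by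
    have hP := hasDerivAt_pow_entry hA (q - 1)
    have hT := fun i j => h.hasDerivAt_T1 hs θ l i j
    have h1 : HasDerivAt (fun r : ℝ => ∑ i, ∑ k, (Am ρ s (θ + r • e) ^ (q - 1)) i k * T1 ρ l s (θ + r • e) k i)
        (∑ i, ∑ k, ((∑ α ∈ Finset.range (q - 1), Am ρ s (θ + (0:ℝ) • e) ^ α * T1 ρ l s θ
            * Am ρ s (θ + (0:ℝ) • e) ^ (q - 1 - 1 - α)) i k * T1 ρ l s (θ + (0:ℝ) • e) k i
          + (Am ρ s (θ + (0:ℝ) • e) ^ (q - 1)) i k * T2 ρ l s θ k i)) 0 :=
      HasDerivAt.fun_sum fun i _ => HasDerivAt.fun_sum fun k _ => (hP i k).fun_mul (hT k i)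
    refine h1.congr_deriv ?_
    simp only [zero_smul, add_zero, Finset.sum_add_distrib, show q - 1 - 1 = q - 2 by omega]
    rw [add_comm]
    congr 1
    rw [← trace_sum, ← Finset.sum_mul]
    rfl
  have hx0 := h.xq_nonneg hM q hs.le θ
  have hd := ((hasDerivAt_const (0:ℝ) (1:ℝ)).fun_div ((hx.const_add 1).fun_pow 2)
    (by simp only [zero_smul, add_zero]; positivity)).fun_mul (hN.const_mul ((q:ℝ) / M ^ q))
  have key : HasDerivAt (fun r : ℝ => gl ρ M q l s (θ + r • e)) (gll ρ M q l s θ) 0 := by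
    refine hd.congr_deriv ?_
    simp only [zero_smul, add_zero, gll, dob, xd]
    generalize trace (Am ρ s θ ^ (q - 1) * T1 ρ l s θ) = P
    generalize trace (Am ρ s θ ^ (q - 1) * T2 ρ l s θ) + ∑ α ∈ Finset.range (q - 1),
      trace (Am ρ s θ ^ α * T1 ρ l s θ * Am ρ s θ ^ (q - 2 - α) * T1 ρ l s θ) = R
    generalize (q:ℝ) / M ^ q = c
    have hne : (1 + xq ρ M q s θ) ≠ 0 := by linarith
    field_simp
    ring
  exact key

/-- The pointwise drift bound. -/
lemma drift_le (hlc : LogConcaveFun ρ) {M : ℝ} (hM : 0 < M) {q : ℕ} (hq : 2 ≤ q) (hnq : n ≤ 2 ^ q)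
    {s : ℝ} (hs : 0 < s) (θ : Fin n → ℝ) :
    g0 ρ M q s θ + (∑ l, bar ρ s θ l * gl ρ M q l s θ) + 1 / 2 * (∑ l, gll ρ M q l s θ)
      ≤ 32 * (q:ℝ) ^ 2 * Real.sqrt (M / s) * obs ρ M q s θ := by
  have hk : -kap a ≤ s := by linarith [h.kap_pos]
  set A := Am ρ s θ
  have hsymm := Am_transpose (ρ := ρ) s θ
  have hpos : ∀ u, 0 ≤ u ⬝ᵥ (A *ᵥ u) := fun u => by rw [h.quad_Am hk]; exact h.qf_nonneg hk θ u
  set X := xq ρ M q s θ with hXdef
  have hX : 0 ≤ X := h.xq_nonneg hM q hk θ
  set D := dob ρ M q s θ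
  have hD : 0 ≤ D := div_nonneg zero_le_one (sq_nonneg _)
  set S := ∑ α ∈ Finset.range (q - 1), ∑ l, trace (A ^ α * T1 ρ l s θ * A ^ (q - 2 - α) * T1 ρ l s θ) with hS
  have hMq : 0 < M ^ q := pow_pos hM q
  have hsecond : 1 / 2 * (∑ l, gll ρ M q l s θ)
      ≤ D * (q / M ^ q) * (1 / 2 * (∑ l, trace (A ^ (q - 1) * T2 ρ l s θ)) + 1 / 2 * S) := by
    rw [hS, Finset.sum_comm (s := Finset.range (q - 1)), ← mul_add, ← Finset.sum_add_distrib, Finset.mul_sum,
      Finset.mul_sum, Finset.mul_sum]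
    refine Finset.sum_le_sum fun l _ => ?_
    have hneg : -2 / (1 + X) ^ 3 * xd ρ M q (T1 ρ l s θ) s θ ^ 2 ≤ 0 :=
      mul_nonpos_of_nonpos_of_nonneg (div_nonpos_of_nonpos_of_nonneg (by norm_num)
        (pow_nonneg (by linarith) 3)) (sq_nonneg _)
    simp only [gll]
    linarith
  have hid : g0 ρ M q s θ + (∑ l, bar ρ s θ l * gl ρ M q l s θ)
      + D * (q / M ^ q) * (1 / 2 * ∑ l, trace (A ^ (q - 1) * T2 ρ l s θ))
      = -(D * (q / M ^ q) * trace (A ^ (q + 1))) := by
    have e : trace (A ^ (q - 1) * (T0 ρ s θ + (∑ l, bar ρ s θ l • T1 ρ l s θ)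
        + (1 / 2 : ℝ) • ∑ l, T2 ρ l s θ)) = -trace (A ^ (q + 1)) := by
      rw [h.generator_cov hk, Matrix.mul_neg, Matrix.trace_neg, ← Matrix.mul_assoc, ← pow_succ, ← pow_succ,
        show q - 1 + 1 + 1 = q + 1 by omega]
    rw [Matrix.mul_add, Matrix.mul_add, Matrix.trace_add, Matrix.trace_add, Matrix.mul_smul, Matrix.trace_smul,
      Finset.mul_sum, Matrix.trace_sum, Finset.mul_sum, Matrix.trace_sum] at e
    simp only [Matrix.mul_smul, Matrix.trace_smul, smul_eq_mul] at e
    have e2 : ∑ l, bar ρ s θ l * gl ρ M q l s θ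
        = D * (q / M ^ q) * ∑ l, bar ρ s θ l * trace (A ^ (q - 1) * T1 ρ l s θ) := by
      rw [Finset.mul_sum]
      exact Finset.sum_congr rfl fun l _ => by simp only [gl, xd, D, A]; ring
    rw [e2]
    simp only [g0, xd]
    linear_combination (D * (q / M ^ q)) * e
  obtain ⟨lam, hlam, hlamq, hlamu⟩ := exists_top hsymm hpos (show q ≠ 0 by omega)
  have hcov : ∀ v, qf ρ s θ v ≤ lam * sumSq v := fun v => by rw [← h.quad_Am hk]; exact hlamu v
  have hSle : S ≤ 16 * q * (4 * Real.sqrt (lam / s)) * trace (A ^ q) :=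
    trace_second_le hsymm hpos hq hnq hlam hlamq (by positivity) (fun l => T1 ρ l s θ)
      (fun l => h.T1_symm hk θ l) (fun u => h.T1_contract hlc hs θ hlam hcov u)
  have htr : trace (A ^ q) = X * M ^ q := by rw [hXdef, xq]; field_simp; rfl
  have hsq : Real.sqrt (lam / s) ≤ Real.sqrt (M / s) * (1 + X) := by
    rcases le_or_gt lam M with hl | hl
    · exact (Real.sqrt_le_sqrt (div_le_div_of_nonneg_right hl hs.le)).trans
        (le_mul_of_one_le_right (Real.sqrt_nonneg _) (by linarith))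
    · have h1 : lam / M ≤ X := by
        refine (le_self_pow₀ ((one_le_div hM).2 hl.le) (show q ≠ 0 by omega)).trans ?_
        rw [div_pow, div_le_iff₀ hMq, ← htr]; exact hlamq
      rw [show lam / s = M / s * (lam / M) by field_simp, Real.sqrt_mul (div_nonneg hM.le hs.le)]
      refine mul_le_mul_of_nonneg_left ?_ (Real.sqrt_nonneg _)
      refine Real.sqrt_le_iff.2 ⟨by linarith, ?_⟩
      nlinarith
  have htp : 0 ≤ trace (A ^ (q + 1)) := trace_pow_nonneg hsymm hpos _
  have hDq : 0 ≤ D * (q / M ^ q) := mul_nonneg hD (by positivity)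
  have hobs : obs ρ M q s θ = D * (X * (1 + X)) := by
    have : (1 + X) ≠ 0 := by linarith
    simp only [obs, D, dob, ← hXdef]; field_simp
  have hfin : D * (q / M ^ q) * (1 / 2 * S) ≤ 32 * (q:ℝ) ^ 2 * Real.sqrt (M / s) * obs ρ M q s θ := by
    rw [htr] at hSle
    refine (mul_le_mul_of_nonneg_left (mul_le_mul_of_nonneg_left hSle (by norm_num)) hDq).trans ?_
    rw [hobs]
    calc D * (q / M ^ q) * (1 / 2 * (16 * q * (4 * Real.sqrt (lam / s)) * (X * M ^ q)))
        = 32 * (q:ℝ) ^ 2 * D * X * Real.sqrt (lam / s) := by field_simp; ring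
      _ ≤ 32 * (q:ℝ) ^ 2 * D * X * (Real.sqrt (M / s) * (1 + X)) :=
          mul_le_mul_of_nonneg_left hsq (by positivity)
      _ = _ := by ring
  linarith [mul_nonneg hDq htp]

/-- The expected observable along the flow. -/
theorem flow_bound (hlc : LogConcaveFun ρ) {M : ℝ} (hM : 0 < M) {q : ℕ} (hq : 2 ≤ q) (hnq : n ≤ 2 ^ q)
    {T : ℝ} (hT : 0 < T) (hT' : T < kap a) :
    ∫ z, obs ρ M q T (th T z) ∂law ρ
      ≤ n * (a ^ 2 / M) ^ q * Real.exp (64 * (q:ℝ) ^ 2 * Real.sqrt M * Real.sqrt T) := by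
  have hk0 := h.kap_pos
  have hP := h.law_prob
  set u := fun s => ∫ z, obs ρ M q s (th s z) ∂law ρ
  have hmeas : ∀ s, 0 ≤ s → Measurable fun z => obs ρ M q s (th s z) := by
    intro s hs
    have hA : ∀ i j, Continuous fun θ => Am ρ s θ i j := fun i j =>
      (h.continuous_pm ((Mild.coord i).mul (Mild.coord j)) (by linarith)).sub
        ((h.continuous_pm (Mild.coord i) (by linarith)).mul (h.continuous_pm (Mild.coord j) (by linarith)))
    have hpw : ∀ k i j, Continuous fun θ => (Am ρ s θ ^ k) i j := by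
      intro k
      induction k with
      | zero => intro i j; simp only [pow_zero]; exact continuous_const
      | succ k ih =>
        intro i j
        simp only [pow_succ, Matrix.mul_apply]
        exact continuous_finsetSum _ fun l _ => (ih i l).mul (hA l j)
    have hx : Continuous fun θ => xq ρ M q s θ :=
      (continuous_finsetSum _ fun i _ => hpw q i i).div_const _
    exact ((hx.div₀ (continuous_const.add hx) fun θ =>
      (show 0 < 1 + xq ρ M q s θ by linarith [h.xq_nonneg hM q (s := s) (by linarith) θ]).ne').comp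
        (continuous_th s)).measurable
  have hint : ∀ s, 0 ≤ s → Integrable (fun z => obs ρ M q s (th s z)) (law ρ) := fun s hs =>
    (integrable_const (1:ℝ)).mono' (hmeas s hs).aestronglyMeasurable
      (Eventually.of_forall fun z => by
        obtain ⟨h0, h1⟩ := h.obs_mem hM q (s := s) (by linarith) (th s z)
        rwa [Real.norm_eq_abs, abs_of_nonneg h0])
  have hcont : ContinuousOn u (Set.Icc 0 T) := by
    intro s hs
    refine continuousWithinAt_of_dominated (bound := fun _ => 1) ?_ ?_ (integrable_const _)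
      (Eventually.of_forall fun z => ?_)
    · filter_upwards [eventually_mem_nhdsWithin] with r hr
      exact (hmeas r hr.1).aestronglyMeasurable
    · filter_upwards [eventually_mem_nhdsWithin] with r hr
      exact Eventually.of_forall fun z => by
        obtain ⟨h0, h1⟩ := h.obs_mem hM q (s := r) (by linarith [hr.1]) (th r z)
        rwa [Real.norm_eq_abs, abs_of_nonneg h0]
    · refine ContinuousAt.continuousWithinAt ?_
      have hcurve : ContinuousAt (fun r : ℝ => (r, th r z)) s := by unfold th; fun_prop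
      have hA : ∀ i j, ContinuousAt (fun r : ℝ => Am ρ r (th r z) i j) s := by
        intro i j
        have hp : -kap a < ((s, th s z) : ℝ × (Fin n → ℝ)).1 := by simp only; linarith [hs.1]
        have c : ∀ φ, Mild φ → ContinuousAt (fun r : ℝ => pm ρ φ r (th r z)) s := fun φ hφ =>
          ContinuousAt.comp (f := fun r : ℝ => (r, th r z))
            (g := fun p : ℝ × (Fin n → ℝ) => pm ρ φ p.1 p.2) (h.continuousAt_pm hφ hp) hcurve
        exact (c _ ((Mild.coord i).mul (Mild.coord j))).sub ((c _ (Mild.coord i)).mul (c _ (Mild.coord j)))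
      have hpw : ∀ k i j, ContinuousAt (fun r : ℝ => (Am ρ r (th r z) ^ k) i j) s := by
        intro k
        induction k with
        | zero => intro i j; simp only [pow_zero]; exact continuousAt_const
        | succ k ih =>
          intro i j
          simp only [pow_succ, Matrix.mul_apply]
          exact tendsto_finsetSum _ fun l _ => (ih i l).mul (hA l j)
      have hx : ContinuousAt (fun r : ℝ => xq ρ M q r (th r z)) s :=
        ContinuousAt.div_const (tendsto_finsetSum _ fun i _ => hpw q i i) _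
      exact hx.div (continuousAt_const.add hx)
        (by linarith [h.xq_nonneg hM q (s := s) (by linarith [hs.1]) (th s z)])
  set K := 32 * (q:ℝ) ^ 2 * Real.sqrt M
  have hder : ∀ s ∈ Set.Ioo 0 T, ∃ d, HasDerivAt u d s ∧ d ≤ K / Real.sqrt s * u s := by
    intro s hs
    obtain ⟨hs0, hsT⟩ := hs
    have hsk : s < kap a := by linarith
    have ha2 : ∀ r, 0 ≤ r → r ≤ kap a → r * a ^ 2 ≤ 1 := fun r _ hr => by
      refine (mul_le_mul_of_nonneg_right hr (sq_nonneg a)).trans ?_
      have := h.a_pos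
      rw [kap, div_mul_eq_mul_div, div_le_one (by positivity)]
      nlinarith
    set c' := fun (r : ℝ) (z : (Fin n → ℝ) × (Fin n → ℝ)) (l : Fin n) =>
      z.1 l + 1 / (2 * Real.sqrt r) * z.2 l
    set F' := fun (r : ℝ) (z : (Fin n → ℝ) × (Fin n → ℝ)) =>
      (∑ l, c' r z l * gl ρ M q l r (th r z)) + 1 * g0 ρ M q r (th r z)
    have hmF : ∀ F : ℝ → (Fin n → ℝ) → ℝ, PB a F → ∃ C k, 0 ≤ C ∧
        ∀ r ∈ Set.Ioo (s / 2) (kap a), ∀ z, |F r (th r z)| ≤ C * (wP k z.1 * wP k z.2) := by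
      intro F hF
      obtain ⟨C, k, hC⟩ := hF.2
      refine ⟨|C| * (2 + 2 * kap a ^ 2 + 2 * kap a) ^ k, k, by positivity, fun r hr z => ?_⟩
      have hr0 : 0 ≤ r := by linarith [hr.1]
      refine (hC r _ hr0 (ha2 r hr0 hr.2.le)).trans ?_
      refine (mul_le_mul_of_nonneg_right (le_abs_self C) (zero_le_one.trans (one_le_wP k _))).trans ?_
      rw [mul_assoc]
      refine mul_le_mul_of_nonneg_left ((wP_th_le hr0 k z).trans ?_) (abs_nonneg C)
      refine mul_le_mul_of_nonneg_right (pow_le_pow_left₀ (by positivity) ?_ k)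
        (mul_nonneg (zero_le_one.trans (one_le_wP k _)) (zero_le_one.trans (one_le_wP k _)))
      have := pow_le_pow_left₀ hr0 hr.2.le 2
      linarith [hr.2]
    choose Cl kl hCl0 hCl using fun l => hmF _ (h.pb_gl hM q l)
    obtain ⟨C0, k0, hC00, hC0⟩ := hmF _ (h.pb_g0 hM q)
    set K0 := (∑ l, kl l) + k0 + 1
    set bound := fun z : (Fin n → ℝ) × (Fin n → ℝ) =>
      ((∑ l, (1 + 1 / (2 * Real.sqrt (s / 2))) * Cl l) + C0) * (wP K0 z.1 * wP K0 z.2)
    have key := hasDerivAt_integral_of_dominated_loc_of_deriv_le (μ := law ρ)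
      (F := fun r z => obs ρ M q r (th r z)) (F' := F') (bound := bound) (x₀ := s)
      (Ioo_mem_nhds (by linarith : s / 2 < s) hsk)
      (eventually_of_mem (Ioi_mem_nhds hs0) fun r hr => (hmeas r (le_of_lt hr)).aestronglyMeasurable)
      (hint s hs0.le) ?_ ?_ ((h.integrable_wP K0).const_mul _) ?_
    rotate_left
    · refine Measurable.aestronglyMeasurable ?_
      refine (Finset.measurable_sum _ fun l _ => ?_).add (measurable_const.mul
        (((h.pb_g0 hM q).1 s hs0).comp (continuous_th s)).measurable)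
      exact ((((measurable_pi_apply l).comp measurable_fst).add
        (((measurable_pi_apply l).comp measurable_snd).const_mul _)).mul
        (((h.pb_gl hM q l).1 s hs0).comp (continuous_th s)).measurable)
    · refine Eventually.of_forall fun z r hr => ?_
      have hr0 : 0 < r := by linarith [hr.1]
      show |F' r z| ≤ _
      have hw : ∀ k, k ≤ K0 → wP k z.1 * wP k z.2 ≤ wP K0 z.1 * wP K0 z.2 := fun k hk =>
        mul_le_mul (wP_mono hk _) (wP_mono hk _) (zero_le_one.trans (one_le_wP k _))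
          (zero_le_one.trans (one_le_wP _ _))
      simp only [F', bound, one_mul]
      refine (abs_add_le _ _).trans ?_
      rw [add_mul, Finset.sum_mul]
      refine add_le_add ((Finset.abs_sum_le_sum_abs _ _).trans (Finset.sum_le_sum fun l _ => ?_))
        ((hC0 r hr z).trans (mul_le_mul_of_nonneg_left (hw k0 (by omega)) hC00))
      have hx1 : ∀ x : Fin n → ℝ, |x l| ≤ wP 1 x := fun x => by
        rw [wP, pow_one]
        nlinarith [sq_le_sumSq x l, sq_abs (x l), sq_nonneg (|x l| - 1)]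
      set b := 1 / (2 * Real.sqrt (s / 2))
      have hcl : |c' r z l| ≤ (1 + b) * (wP 1 z.1 * wP 1 z.2) := by
        have hb : 1 / (2 * Real.sqrt r) ≤ b :=
          one_div_le_one_div_of_le (by positivity)
            (mul_le_mul_of_nonneg_left (Real.sqrt_le_sqrt hr.1.le) zero_le_two)
        have o1 := one_le_wP 1 z.1
        have o2 := one_le_wP 1 z.2
        refine (abs_add_le _ _).trans ?_
        rw [abs_mul, abs_of_nonneg (by positivity : (0:ℝ) ≤ 1 / (2 * Real.sqrt r)), add_mul, one_mul]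
        refine add_le_add ((hx1 z.1).trans (le_mul_of_one_le_right (by linarith) o2)) ?_
        exact mul_le_mul hb ((hx1 z.2).trans (le_mul_of_one_le_left (by linarith) o1)) (abs_nonneg _)
          (by positivity)
      have hg := hCl l r hr z
      have hkl : kl l + 1 ≤ K0 := by
        have := Finset.single_le_sum (f := kl) (fun i _ => Nat.zero_le _) (Finset.mem_univ l)
        omega
      have hmul := mul_le_mul hcl hg (abs_nonneg _) (le_trans (abs_nonneg _) hcl)
      rw [abs_mul]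
      refine hmul.trans ?_
      calc (1 + b) * (wP 1 z.1 * wP 1 z.2) * (Cl l * (wP (kl l) z.1 * wP (kl l) z.2))
          = (1 + b) * Cl l * (wP (kl l + 1) z.1 * wP (kl l + 1) z.2) := by
            rw [wP_add, wP_add]; ring
        _ ≤ _ := mul_le_mul_of_nonneg_left (hw _ hkl) (mul_nonneg (by positivity) (hCl0 l))
    · refine Eventually.of_forall fun z r hr => ?_
      have hr0 : 0 < r := by linarith [hr.1]
      have hd : ∀ᶠ w in 𝓝 r, (∀ l, HasDerivAt (fun v => th v z l) (c' w z l) w)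
          ∧ HasDerivAt (fun v : ℝ => v) ((fun _ => (1:ℝ)) w) w := by
        filter_upwards [Ioi_mem_nhds hr0] with w hw
        refine ⟨fun l => ?_, hasDerivAt_id' w⟩
        have h1 := ((hasDerivAt_id' w).mul_const (z.1 l)).add
          ((Real.hasDerivAt_sqrt (ne_of_gt hw)).mul_const (z.2 l))
        refine (h1.congr_deriv (by simp [c'])).congr_of_eventuallyEq (Eventually.of_forall fun v => ?_)
        simp [th]
      have hc : ContinuousAt (fun w => c' w z) r := by
        refine continuousAt_pi.2 fun l => ?_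
        refine continuousAt_const.add (ContinuousAt.mul ?_ continuousAt_const)
        exact continuousAt_const.div (continuousAt_const.mul Real.continuous_sqrt.continuousAt) (by positivity)
      exact h.hasDerivAt_obs hM q hd hc continuousAt_const (by linarith)
    obtain ⟨-, hderiv⟩ := key
    refine ⟨_, hderiv, ?_⟩
    have hPBi : ∀ {F : ℝ → (Fin n → ℝ) → ℝ}, PB a F → Integrable (fun z => F s (th s z)) (law ρ) :=
      fun {F} hF => by
        obtain ⟨C, k, -, hC⟩ := hmF F hF
        exact h.integrable_of_poly ((hF.1 s hs0).comp (continuous_th s)).measurable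
          fun z => hC s ⟨by linarith, hsk⟩ z
    have hPBl : ∀ {F : ℝ → (Fin n → ℝ) → ℝ}, PB a F → ∀ (f : (Fin n → ℝ) × (Fin n → ℝ) → ℝ),
        Measurable f → (∀ z, |f z| ≤ wP 1 z.1 * wP 1 z.2) →
        Integrable (fun z => f z * F s (th s z)) (law ρ) := fun {F} hF f hfm hf => by
      obtain ⟨C, k, hC0', hC⟩ := hmF F hF
      refine h.integrable_of_poly (C := C) (k := k + 1)
        (hfm.mul ((hF.1 s hs0).comp (continuous_th s)).measurable) fun z => ?_
      rw [abs_mul]
      refine (mul_le_mul (hf z) (hC s ⟨by linarith, hsk⟩ z) (abs_nonneg _)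
        (mul_nonneg (zero_le_one.trans (one_le_wP 1 _)) (zero_le_one.trans (one_le_wP 1 _)))).trans
        (le_of_eq ?_)
      rw [wP_add, wP_add]; ring
    have hx1 : ∀ (l : Fin n) (x : Fin n → ℝ), |x l| ≤ wP 1 x := fun l x => by
      rw [wP, pow_one]
      nlinarith [sq_le_sumSq x l, sq_abs (x l), sq_nonneg (|x l| - 1)]
    have i1 : ∀ l, Integrable (fun z => z.1 l * gl ρ M q l s (th s z)) (law ρ) := fun l =>
      hPBl (h.pb_gl hM q l) _ (by fun_prop) fun z =>
        (hx1 l z.1).trans (le_mul_of_one_le_right (zero_le_one.trans (one_le_wP 1 _)) (one_le_wP 1 _))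
    have i2 : ∀ l, Integrable (fun z => z.2 l * gl ρ M q l s (th s z)) (law ρ) := fun l =>
      hPBl (h.pb_gl hM q l) _ (by fun_prop) fun z =>
        (hx1 l z.2).trans (le_mul_of_one_le_left (zero_le_one.trans (one_le_wP 1 _)) (one_le_wP 1 _))
    have tower : ∀ l, ∫ z, z.1 l * gl ρ M q l s (th s z) ∂law ρ
        = ∫ z, bar ρ s (th s z) l * gl ρ M q l s (th s z) ∂law ρ := by
      intro l
      obtain ⟨C1, k1, hb1⟩ := (h.pb_gl hM q l).2
      obtain ⟨C2, k2, hb2⟩ := ((h.pb_bar l).mul (h.pb_gl hM q l)).2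
      have e1 := (h.integral_th hs0 hsk (Mild.coord l) ((h.pb_gl hM q l).1 s hs0).measurable
        (fun θ => hb1 s θ hs0.le (ha2 s hs0.le hsk.le)) (i1 l)).2
      have i4 : Integrable (fun z => (1:ℝ) * (bar ρ s (th s z) l * gl ρ M q l s (th s z))) (law ρ) := by
        simpa using hPBi ((h.pb_bar l).mul (h.pb_gl hM q l))
      have e2 := (h.integral_th hs0 hsk (Mild.const 1)
        (ψ := fun θ => bar ρ s θ l * gl ρ M q l s θ) (((h.pb_bar l).mul (h.pb_gl hM q l)).1 s hs0).measurable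
        (fun θ => hb2 s θ hs0.le (ha2 s hs0.le hsk.le)) i4).2
      simp only [one_mul] at e2
      rw [e1, e2]
      refine integral_congr_ae (Eventually.of_forall fun θ => ?_)
      have hz := (h.zz_pos (show -kap a ≤ s by linarith) θ).ne'
      simp only [bar, pm, show mo ρ (fun _ => (1:ℝ)) s θ = zz ρ s θ by simp [mo, zz]]
      field_simp
    have hst : ∀ l, ∫ z, z.2 l * gl ρ M q l s (th s z) ∂law ρ
        = Real.sqrt s * ∫ z, gll ρ M q l s (th s z) ∂law ρ := by
      intro l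
      obtain ⟨C1, k1, hb1⟩ := (h.pb_gl hM q l).2
      obtain ⟨C2, k2, hb2⟩ := (h.pb_gll hM q l).2
      have lift : ∀ {F : ℝ → (Fin n → ℝ) → ℝ} (C : ℝ) (k : ℕ), k ≤ k1 + k2 → |C| ≤ |C1| + |C2| →
          (∀ θ, |F s θ| ≤ C * wP k θ) → ∀ θ, |F s θ| ≤ (|C1| + |C2|) * wP (k1 + k2) θ :=
        fun {F} C k hk hC hF θ => (hF θ).trans (mul_le_mul ((le_abs_self C).trans hC) (wP_mono hk θ)
          (zero_le_one.trans (one_le_wP k θ)) (by positivity))
      exact h.stein hs0 l ((h.pb_gl hM q l).1 s hs0).measurable ((h.pb_gll hM q l).1 s hs0).measurable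
        (lift (F := gl ρ M q l) C1 k1 (Nat.le_add_right _ _) (le_add_of_nonneg_right (abs_nonneg _))
          fun θ => hb1 s θ hs0.le (ha2 s hs0.le hsk.le))
        (lift (F := gll ρ M q l) C2 k2 (Nat.le_add_left _ _) (le_add_of_nonneg_left (abs_nonneg _))
          fun θ => hb2 s θ hs0.le (ha2 s hs0.le hsk.le))
        (fun θ => h.hasDerivAt_gl hM q (by linarith) θ l)
    have hval : ∫ z, F' s z ∂law ρ = ∫ z, (g0 ρ M q s (th s z)
        + (∑ l, bar ρ s (th s z) l * gl ρ M q l s (th s z))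
        + 1 / 2 * (∑ l, gll ρ M q l s (th s z))) ∂law ρ := by
      have ig0 := hPBi (h.pb_g0 hM q)
      have ib : ∀ l, Integrable (fun z => bar ρ s (th s z) l * gl ρ M q l s (th s z)) (law ρ) := fun l =>
        hPBi ((h.pb_bar l).mul (h.pb_gl hM q l))
      have ill : ∀ l, Integrable (fun z => gll ρ M q l s (th s z)) (law ρ) := fun l => hPBi (h.pb_gll hM q l)
      set κ := 1 / (2 * Real.sqrt s)
      have ic : ∀ l, Integrable (fun z => z.1 l * gl ρ M q l s (th s z)
          + κ * (z.2 l * gl ρ M q l s (th s z))) (law ρ) := fun l => (i1 l).add ((i2 l).const_mul κ)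
      have e : ∀ z, F' s z = g0 ρ M q s (th s z) + ∑ l, (z.1 l * gl ρ M q l s (th s z)
          + κ * (z.2 l * gl ρ M q l s (th s z))) := fun z => by
        simp only [F', c', κ, one_mul, add_mul, mul_assoc]
        rw [add_comm]
      have isum : Integrable (fun z => g0 ρ M q s (th s z)
          + ∑ l, bar ρ s (th s z) l * gl ρ M q l s (th s z)) (law ρ) :=
        ig0.add (integrable_finsetSum _ fun l _ => ib l)
      simp only [e]
      rw [integral_add ig0 (integrable_finsetSum _ fun l _ => ic l),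
        integral_add isum ((integrable_finsetSum _ fun l _ => ill l).const_mul _),
        integral_add ig0 (integrable_finsetSum _ fun l _ => ib l), integral_const_mul,
        integral_finsetSum _ fun l _ => ic l, integral_finsetSum _ fun l _ => ib l,
        integral_finsetSum _ fun l _ => ill l, Finset.mul_sum, add_assoc, ← Finset.sum_add_distrib]
      congr 1
      refine Finset.sum_congr rfl fun l _ => ?_
      rw [integral_add (i1 l) ((i2 l).const_mul κ), integral_const_mul, tower l, hst l]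
      have : κ * Real.sqrt s = 1 / 2 := by simp only [κ]; field_simp
      rw [← mul_assoc, this]
    rw [hval, show K / Real.sqrt s * u s = ∫ z, K / Real.sqrt s * obs ρ M q s (th s z) ∂law ρ from
      (integral_const_mul _ _).symm]
    have iPB := hPBi (F := fun r θ => g0 ρ M q r θ + (∑ l, bar ρ r θ l * gl ρ M q l r θ)
        + 1 / 2 * (∑ l, gll ρ M q l r θ))
      (((h.pb_g0 hM q).add (PB.sum _ fun l _ => (h.pb_bar l).mul (h.pb_gl hM q l))).add
        ((PB.sum _ fun l _ => h.pb_gll hM q l).const_mul _))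
    refine integral_mono iPB ((hint s hs0.le).const_mul _) fun z => ?_
    refine (h.drift_le hlc hM hq hnq hs0 (th s z)).trans (le_of_eq ?_)
    rw [Real.sqrt_div hM.le]
    simp only [K]
    ring
  set v := fun s => u s * Real.exp (-(2 * K * Real.sqrt s))
  have hvc : ContinuousOn v (Set.Icc 0 T) := hcont.mul (by fun_prop : Continuous fun s : ℝ =>
    Real.exp (-(2 * K * Real.sqrt s))).continuousOn
  have hanti : AntitoneOn v (Set.Icc 0 T) := by
    refine antitoneOn_of_deriv_nonpos (convex_Icc _ _) hvc ?_ ?_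
    · rw [interior_Icc]
      intro s hs
      obtain ⟨d, hd, -⟩ := hder s hs
      exact (hd.mul (((Real.hasDerivAt_sqrt (ne_of_gt hs.1)).const_mul (2 * K)).neg.exp)).differentiableAt.differentiableWithinAt
    · rw [interior_Icc]
      intro s hs
      obtain ⟨d, hd, hle⟩ := hder s hs
      have h2 : HasDerivAt v (d * Real.exp (-(2 * K * Real.sqrt s))
          + u s * (Real.exp (-(2 * K * Real.sqrt s)) * -(2 * K * (1 / (2 * Real.sqrt s))))) s :=
        hd.mul (((Real.hasDerivAt_sqrt (ne_of_gt hs.1)).const_mul (2 * K)).neg.exp)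
      rw [h2.deriv]
      have he := Real.exp_pos (-(2 * K * Real.sqrt s))
      have e : d * Real.exp (-(2 * K * Real.sqrt s))
          + u s * (Real.exp (-(2 * K * Real.sqrt s)) * -(2 * K * (1 / (2 * Real.sqrt s))))
          = Real.exp (-(2 * K * Real.sqrt s)) * (d - K / Real.sqrt s * u s) := by ring
      rw [e]
      exact mul_nonpos_of_nonneg_of_nonpos he.le (by linarith)
  have hmain := hanti (Set.left_mem_Icc.2 hT.le) (Set.right_mem_Icc.2 hT.le) hT.le
  have hu0 : u 0 ≤ n * (a ^ 2 / M) ^ q := by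
    have hk : -kap a ≤ (0:ℝ) := by linarith
    have hx : xq ρ M q 0 0 ≤ n * (a ^ 2 / M) ^ q := by
      rw [xq, div_pow, ← mul_div_assoc]
      refine div_le_div_of_nonneg_right ?_ (pow_nonneg hM.le q)
      refine trace_pow_le (Am_transpose 0 0) (fun w => by rw [h.quad_Am hk]; exact h.qf_nonneg hk 0 w)
        (fun w => ?_) q
      rw [h.quad_Am hk]
      have hz : zz ρ 0 (0 : Fin n → ℝ) = 1 := by simpa [zz, wt, dot] using h.one
      refine le_trans ?_ (h.sq_dir_le (v := w))
      show pm ρ (fun x => dot w x * dot w x) 0 0 - pm ρ (fun x => dot w x) 0 0 * pm ρ (fun x => dot w x) 0 0 ≤ _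
      refine le_trans (sub_le_self _ (mul_self_nonneg _)) (le_of_eq ?_)
      rw [pm, hz, div_one, mo]
      congr 1; funext x
      simp [wt, dot, sq]
    have hth : ∀ z : (Fin n → ℝ) × (Fin n → ℝ), th 0 z = 0 := fun z => by simp [th]
    have hx0 := h.xq_nonneg hM q hk (0 : Fin n → ℝ)
    simp only [u, hth, integral_const, probReal_univ, one_smul]
    exact (div_le_self hx0 (by linarith)).trans hx
  simp only [v, Real.sqrt_zero, mul_zero, neg_zero, Real.exp_zero, mul_one] at hmain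
  show u T ≤ _
  calc u T = u T * Real.exp (-(2 * K * Real.sqrt T)) * Real.exp (2 * K * Real.sqrt T) := by
        rw [mul_assoc, ← Real.exp_add, neg_add_cancel, Real.exp_zero, mul_one]
    _ ≤ n * (a ^ 2 / M) ^ q * Real.exp (2 * K * Real.sqrt T) :=
        mul_le_mul_of_nonneg_right (hmain.trans hu0) (Real.exp_pos _).le
    _ = _ := by simp only [K]; ring_nf

end SubDensity

end Vale.Agent.P245
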