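import Mathlib
import Vale.Agent.P245.Cube.Flow
import Vale.Agent.P245.Cube.Reg

/-!
The law of `θ = t X + √t G` is uniformly log-concave up to an integrable defect.
-/

namespace Vale.Agent.P245

open MeasureTheory Set Filter Topology Function Finset

variable {n : ℕ}

/-- The scale `10 ^ 10 n ^ (1/3) a ^ 2`. -/
noncomputable def sig (n : ℕ) (a : ℝ) : ℝ := 10 ^ 10 * (n:ℝ) ^ (1 / 3 : ℝ) * a ^ 2

/-- The time of the tilt. -/
noncomputable def tm (n : ℕ) (a : ℝ) : ℝ := 1 / sig n a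

/-- The logarithm of the normalising constant. -/
noncomputable def Lg (ρ : (Fin n → ℝ) → ℝ) (s : ℝ) (θ : Fin n → ℝ) : ℝ := Real.log (zz ρ s θ)

/-- The Bregman divergence of `Lg`. -/
noncomputable def Dv (ρ : (Fin n → ℝ) → ℝ) (s : ℝ) (θ g : Fin n → ℝ) : ℝ :=
  Lg ρ s (θ + g) - Lg ρ s θ - dot g (bar ρ s θ)

/-- The defect of convexity. -/
noncomputable def defect (ρ : (Fin n → ℝ) → ℝ) (a : ℝ) (q : ℕ) (θ : Fin n → ℝ) : ℝ :=
  4 * a ^ 4 / sig n a * (16448 * (tm n a * n) * obs ρ (16 * a ^ 2) q (tm n a) θ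
    + 129 * (16 * tm n a * Real.exp (sumSq θ / (16 * tm n a) - 2 * n)))

/-- Second order Taylor bound. -/
lemma taylor_le {φ φ' φ'' : ℝ → ℝ} (h1 : ∀ r, HasDerivAt φ (φ' r) r) (h2 : ∀ r, HasDerivAt φ' (φ'' r) r)
    {K : ℝ} (hK : ∀ r ∈ Set.Icc (0:ℝ) 1, φ'' r ≤ K) : φ 1 - φ 0 - φ' 0 ≤ K / 2 := by
  have hd1 : ∀ r, HasDerivAt (fun r => φ' r - K * r) (φ'' r - K) r := fun r => by
    simpa using (h2 r).fun_sub ((hasDerivAt_id' r).const_mul K)
  have hd2 : ∀ r, HasDerivAt (fun r => φ r - φ' 0 * r - K / 2 * r ^ 2) (φ' r - φ' 0 - K * r) r := fun r => by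
    refine (((h1 r).sub ((hasDerivAt_id' r).const_mul (φ' 0))).sub
      (((hasDerivAt_id' r).fun_pow 2).const_mul (K / 2))).congr_deriv ?_
    ring
  have a1 : AntitoneOn (fun r => φ' r - K * r) (Set.Icc 0 1) :=
    antitoneOn_of_hasDerivWithinAt_nonpos (convex_Icc _ _)
      (fun r _ => (hd1 r).continuousAt.continuousWithinAt) (fun r _ => (hd1 r).hasDerivWithinAt)
      fun r hr => sub_nonpos.2 (hK r (interior_subset hr))
  have a2 : AntitoneOn (fun r => φ r - φ' 0 * r - K / 2 * r ^ 2) (Set.Icc 0 1) :=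
    antitoneOn_of_hasDerivWithinAt_nonpos (convex_Icc _ _)
      (fun r _ => (hd2 r).continuousAt.continuousWithinAt) (fun r _ => (hd2 r).hasDerivWithinAt)
      fun r hr => by
        have := a1 (Set.left_mem_Icc.2 zero_le_one) (interior_subset hr) (interior_subset hr).1
        simp only [mul_zero, sub_zero] at this
        linarith
  have := a2 (Set.left_mem_Icc.2 zero_le_one) (Set.right_mem_Icc.2 zero_le_one) zero_le_one
  simp only [mul_zero, sub_zero, mul_one, one_pow, zero_pow two_ne_zero] at this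
  linarith

lemma sumSq_add_eq (θ g : Fin n → ℝ) : sumSq (θ + g) = sumSq θ + 2 * dot θ g + sumSq g := by
  simp only [sumSq, dot, Pi.add_apply, Finset.mul_sum, ← Finset.sum_add_distrib]
  exact Finset.sum_congr rfl fun i _ => by ring

lemma sumSq_smul' (r : ℝ) (θ : Fin n → ℝ) : sumSq (r • θ) = r ^ 2 * sumSq θ := by
  simp [sumSq, Finset.mul_sum, mul_pow]

lemma dot_smul' (r : ℝ) (θ x : Fin n → ℝ) : dot (r • θ) x = r * dot θ x := by
  simp [dot, Finset.mul_sum, mul_assoc]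

lemma sqrt_sumSq_add_le (θ g : Fin n → ℝ) :
    Real.sqrt (sumSq (θ + g)) ≤ Real.sqrt (sumSq θ) + Real.sqrt (sumSq g) := by
  refine Real.sqrt_le_iff.2 ⟨add_nonneg (Real.sqrt_nonneg _) (Real.sqrt_nonneg _), ?_⟩
  rw [sumSq_add_eq, add_sq, Real.sq_sqrt (sumSq_nonneg θ), Real.sq_sqrt (sumSq_nonneg g)]
  linarith [(abs_le.1 (abs_dot_le θ g)).2]

lemma sq_le_exp_of_four_le {y m : ℝ} (hm : 0 ≤ m) (hy : 4 * m ≤ y) : y ≤ Real.exp (y - 2 * m) := by
  have h1 := Real.quadratic_le_exp_of_nonneg (show 0 ≤ y / 2 by linarith)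
  have h2 : Real.exp (y / 2) ≤ Real.exp (y - 2 * m) := Real.exp_le_exp.2 (by linarith)
  nlinarith [sq_nonneg (y / 2 - 1)]

lemma root_cube (n : ℕ) : ((n:ℝ) ^ (1 / 3 : ℝ)) ^ 3 = n := by
  rw [← Real.rpow_natCast, ← Real.rpow_mul (Nat.cast_nonneg n)]
  norm_num

lemma exists_q (hn : 1 ≤ n) :
    ∃ q : ℕ, 2 ≤ q ∧ n ≤ 2 ^ q ∧ (q:ℝ) ^ 4 ≤ 194481 * (n:ℝ) ^ (1 / 3 : ℝ) := by
  refine ⟨Nat.log 2 n + 3, by omega, ?_, ?_⟩
  · exact (Nat.lt_pow_succ_log_self one_lt_two n).le.trans (Nat.pow_le_pow_right two_pos (by omega))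
  · have hn1 : (1:ℝ) ≤ n := by exact_mod_cast hn
    have h1 := Real.log_le_rpow_div (Nat.cast_nonneg n) (show (0:ℝ) < 1 / 12 by norm_num)
    have h2 : ((2:ℝ) ^ Nat.log 2 n) ≤ n := by exact_mod_cast Nat.pow_log_le_self 2 (by omega)
    have h3 := Real.log_le_log (by positivity) h2
    rw [Real.log_pow] at h3
    have h4 := Real.log_two_gt_d9
    set R := (n:ℝ) ^ (1 / 12 : ℝ)
    have hR : 1 ≤ R := Real.one_le_rpow hn1 (by norm_num)
    have h5 : ((Nat.log 2 n + 3 : ℕ) : ℝ) ≤ 21 * R := by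
      push_cast
      have : (Nat.log 2 n : ℝ) * 0.69 ≤ R / (1 / 12) :=
        (mul_le_mul_of_nonneg_left (by linarith) (Nat.cast_nonneg _)).trans (h3.trans h1)
      linarith
    refine (pow_le_pow_left₀ (Nat.cast_nonneg _) h5 4).trans (le_of_eq ?_)
    rw [mul_pow, show R ^ 4 = (n:ℝ) ^ (1 / 3 : ℝ) by
      rw [← Real.rpow_natCast, ← Real.rpow_mul (Nat.cast_nonneg n)]; norm_num]
    norm_num

namespace SubDensity

variable {ρ : (Fin n → ℝ) → ℝ} {a : ℝ} (h : SubDensity ρ a)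
include h

lemma hasDerivAt_Lg_line {s : ℝ} (hs : -kap a < s) (θ g : Fin n → ℝ) (r : ℝ) :
    HasDerivAt (fun r : ℝ => Lg ρ s (θ + r • g)) (dot g (bar ρ s (θ + r • g))) r :=
  ((h.hasDerivAt_zz_line s θ g r hs).log (h.zz_pos hs.le _).ne').congr_deriv (h.pm_dot hs.le _ g)

lemma hasDerivAt_dbar_line {s : ℝ} (hs : -kap a < s) (θ g : Fin n → ℝ) (r : ℝ) :
    HasDerivAt (fun r : ℝ => dot g (bar ρ s (θ + r • g))) (qf ρ s (θ + r • g) g) r :=
  (h.hasDerivAt_pm_line (Mild.dot_left g) s θ g r hs).congr_of_eventuallyEq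
    (Eventually.of_forall fun _ => (h.pm_dot hs.le _ g).symm)

lemma dv_le_half {s : ℝ} (hs : -kap a < s) (θ g : Fin n → ℝ) {K : ℝ}
    (hK : ∀ r ∈ Set.Icc (0:ℝ) 1, qf ρ s (θ + r • g) g ≤ K) : Dv ρ s θ g ≤ K / 2 := by
  simpa [Dv] using taylor_le (h.hasDerivAt_Lg_line hs θ g) (h.hasDerivAt_dbar_line hs θ g) hK

lemma dv_nonneg {s : ℝ} (hs : -kap a < s) (θ g : Fin n → ℝ) : 0 ≤ Dv ρ s θ g := by
  have := taylor_le (φ := fun r => -Lg ρ s (θ + r • g)) (φ' := fun r => -dot g (bar ρ s (θ + r • g)))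
    (φ'' := fun r => -qf ρ s (θ + r • g) g) (fun r => (h.hasDerivAt_Lg_line hs θ g r).neg)
    (fun r => (h.hasDerivAt_dbar_line hs θ g r).neg) (K := 0)
    fun r _ => neg_nonpos.2 (h.qf_nonneg hs.le _ g)
  simp only [one_smul, zero_smul, add_zero] at this
  unfold Dv
  linarith

lemma dv_le_inv (hlc : LogConcaveFun ρ) {s : ℝ} (hs : 0 < s) (θ g : Fin n → ℝ) :
    Dv ρ s θ g ≤ 1 / s / 2 * sumSq g := by
  refine (h.dv_le_half (by linarith [h.kap_pos]) θ g fun r _ => h.qf_le_inv hlc hs _ g).trans (le_of_eq ?_)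
  ring

lemma bar_le {s : ℝ} (hs : 0 ≤ s) (η : Fin n → ℝ) :
    Real.sqrt (sumSq (bar ρ s η)) ≤ 4 * a ^ 2 * Real.sqrt (sumSq η) + 2 * Real.sqrt (s * n) * a ^ 2 := by
  have hk : -kap a < s := by linarith [h.kap_pos]
  have ha := h.a_pos
  set b := bar ρ s η
  have h1 := h.dv_nonneg hk η ((1 / (4 * a ^ 2)) • b)
  rw [Dv, dot_smul', dot_self] at h1
  have hup : Lg ρ s (η + (1 / (4 * a ^ 2)) • b) ≤ a ^ 2 * sumSq (η + (1 / (4 * a ^ 2)) • b) :=
    (Real.log_le_iff_le_exp (h.zz_pos hk.le _)).2 (h.zz_upper hs _)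
  have hlo : -(s / 2 * (n * a ^ 2)) ≤ Lg ρ s η :=
    (Real.le_log_iff_exp_le (h.zz_pos hk.le _)).2 (h.zz_lower hs η)
  have h2 : sumSq (η + (1 / (4 * a ^ 2)) • b) ≤ 2 * sumSq η + 2 * ((1 / (4 * a ^ 2)) ^ 2 * sumSq b) := by
    rw [← sumSq_smul']
    simp only [sumSq, Finset.mul_sum, ← Finset.sum_add_distrib, Pi.add_apply]
    exact Finset.sum_le_sum fun i _ => by nlinarith [sq_nonneg (η i - ((1 / (4 * a ^ 2)) • b) i)]
  have h3 := mul_le_mul_of_nonneg_left h2 (sq_nonneg a)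
  have e : a ^ 2 * (2 * ((1 / (4 * a ^ 2)) ^ 2 * sumSq b)) = 1 / (8 * a ^ 2) * sumSq b := by field_simp; ring
  have e2 : 1 / (4 * a ^ 2) * sumSq b = 2 * (1 / (8 * a ^ 2) * sumSq b) := by field_simp; ring
  have h4 : 1 / (8 * a ^ 2) * sumSq b ≤ 2 * a ^ 2 * sumSq η + s / 2 * (n * a ^ 2) := by linarith
  rw [div_mul_eq_mul_div, one_mul, div_le_iff₀ (by positivity)] at h4
  refine Real.sqrt_le_iff.2 ⟨by positivity, ?_⟩
  have e3 : (4 * a ^ 2 * Real.sqrt (sumSq η) + 2 * Real.sqrt (s * n) * a ^ 2) ^ 2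
      = 16 * a ^ 4 * sumSq η + 4 * a ^ 4 * (s * n)
        + 16 * a ^ 4 * (Real.sqrt (sumSq η) * Real.sqrt (s * n)) := by
    linear_combination (16 * a ^ 4) * (Real.sq_sqrt (sumSq_nonneg η))
      + (4 * a ^ 4) * (Real.sq_sqrt (mul_nonneg hs (Nat.cast_nonneg n)))
  rw [e3]
  have : 0 ≤ 16 * a ^ 4 * (Real.sqrt (sumSq η) * Real.sqrt (s * n)) := by positivity
  linarith

lemma dv_le_lin {s : ℝ} (hs : 0 ≤ s) (θ g : Fin n → ℝ) :
    Dv ρ s θ g ≤ a ^ 2 * Real.sqrt (sumSq g)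
      * (4 * Real.sqrt (sumSq g) + 8 * Real.sqrt (sumSq θ) + 4 * Real.sqrt (s * n)) := by
  have hk : -kap a < s := by linarith [h.kap_pos]
  have h1 := h.dv_nonneg hk (θ + g) (-g)
  have e : dot (-g) (bar ρ s (θ + g)) = -dot g (bar ρ s (θ + g)) := by simp [dot, Finset.sum_neg_distrib]
  rw [Dv, e, add_neg_cancel_right] at h1
  have hG := Real.sqrt_nonneg (sumSq g)
  have b1 := mul_le_mul_of_nonneg_left (h.bar_le hs (θ + g)) hG
  have b2 := mul_le_mul_of_nonneg_left (h.bar_le hs θ) hG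
  have b3 := mul_le_mul_of_nonneg_left (sqrt_sumSq_add_le θ g)
    (show 0 ≤ 4 * a ^ 2 * Real.sqrt (sumSq g) by positivity)
  have d1 := (abs_le.1 (abs_dot_le g (bar ρ s (θ + g)))).2
  have d2 := (abs_le.1 (abs_dot_le g (bar ρ s θ))).1
  unfold Dv
  linarith

/-- Variances stay bounded along short segments. -/
lemma qf_segment (hlc : LogConcaveFun ρ) {s : ℝ} (hs : 0 ≤ s) (θ g : Fin n → ℝ) (hg : 0 < sumSq g)
    (h0 : qf ρ s θ g ≤ 16 * a ^ 2 * sumSq g) (hsmall : 8000 * (a * Real.sqrt (sumSq g)) ≤ 1) :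
    ∀ r ∈ Set.Icc (0:ℝ) 1, qf ρ s (θ + r • g) g ≤ 32 * a ^ 2 * sumSq g := by
  have hk : -kap a < s := by linarith [h.kap_pos]
  have ha := h.a_pos
  set y := a * Real.sqrt (sumSq g)
  have hy : 0 < y := mul_pos ha (Real.sqrt_pos.2 hg)
  have hy2 : y ^ 2 = a ^ 2 * sumSq g := by rw [mul_pow, Real.sq_sqrt hg.le]
  set p := fun r : ℝ => qf ρ s (θ + r • g) g
  have hp : ∀ r, 0 < p r + y ^ 2 := fun r =>
    add_pos_of_nonneg_of_pos (h.qf_nonneg hk.le _ g) (by positivity)
  set w := fun r : ℝ => (Real.sqrt (p r + y ^ 2))⁻¹ + 159 * r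
  have hd : ∀ r, ∃ d, HasDerivAt w d r ∧ 0 ≤ d := by
    intro r
    set S := Real.sqrt (p r + y ^ 2)
    have hS : 0 < S := Real.sqrt_pos.2 (hp r)
    have hS2 : S ^ 2 = p r + y ^ 2 := Real.sq_sqrt (hp r).le
    have h1 := h.hasDerivAt_qf_line hk θ g g r
    set d0 := pm ρ (fun x => cl ρ s (θ + r • g) g x ^ 2 * cl ρ s (θ + r • g) g x) s (θ + r • g)
    have hb : |d0| ≤ 317 * (p r + y ^ 2) * S :=
      h.qf_deriv_bound hlc hs (θ + r • g) g g (hp r) (le_add_of_nonneg_right (sq_nonneg y))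
        (le_add_of_nonneg_right (sq_nonneg y))
    refine ⟨-(d0 / (2 * S)) / S ^ 2 + 159 * 1,
      (((h1.add_const (y ^ 2)).sqrt (hp r).ne').inv hS.ne').add ((hasDerivAt_id' r).const_mul 159), ?_⟩
    have h2 : d0 / (2 * S) / S ^ 2 ≤ 159 := by
      rw [div_div, div_le_iff₀ (by positivity)]
      rw [← hS2] at hb
      nlinarith [(abs_le.1 hb).2, pow_pos hS 3]
    rw [neg_div]
    linarith
  choose d hd1 hd2 using hd
  have hmono := monotone_of_hasDerivAt_nonneg hd1 hd2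
  intro r hr
  have h1 := hmono hr.1
  simp only [w, p, zero_smul, add_zero, mul_zero] at h1
  have h2 : (5 * y)⁻¹ ≤ (Real.sqrt (qf ρ s θ g + y ^ 2))⁻¹ := by
    refine inv_anti₀ (Real.sqrt_pos.2 (by simpa [p] using hp 0)) (Real.sqrt_le_iff.2 ⟨by positivity, ?_⟩)
    rw [mul_pow (5:ℝ) y, hy2]
    have := mul_nonneg (sq_nonneg a) (sumSq_nonneg g)
    linarith
  have h3 : (56 / 10 * y)⁻¹ ≤ (Real.sqrt (p r + y ^ 2))⁻¹ := by
    have e : (5 * y)⁻¹ - (56 / 10 * y)⁻¹ = 6 / 280 / y := by field_simp; ring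
    have : (171:ℝ) ≤ 6 / 280 / y := by rw [le_div_iff₀ hy]; linarith
    have := hr.2
    simp only [p]
    linarith
  rw [inv_le_inv₀ (by positivity) (Real.sqrt_pos.2 (hp r)), Real.sqrt_le_iff] at h3
  have h4 := h3.2
  rw [mul_pow (56 / 10 : ℝ) y, hy2] at h4
  simp only [p] at h4
  have := mul_nonneg (sq_nonneg a) (sumSq_nonneg g)
  linarith

lemma sig_facts (hn : 1 ≤ n) :
    0 < sig n a ∧ 10 ^ 10 * a ^ 2 ≤ sig n a ∧ sig n a ^ 3 = 10 ^ 30 * n * a ^ 6
      ∧ 0 < tm n a ∧ tm n a < kap a := by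
  have ha := h.a_pos
  have hc : 1 ≤ (n:ℝ) ^ (1 / 3 : ℝ) := Real.one_le_rpow (by exact_mod_cast hn) (by norm_num)
  have hs1 : 10 ^ 10 * a ^ 2 ≤ sig n a :=
    mul_le_mul_of_nonneg_right (le_mul_of_one_le_right (by norm_num) hc) (sq_nonneg a)
  have hs : 0 < sig n a := lt_of_lt_of_le (by positivity) hs1
  refine ⟨hs, hs1, ?_, one_div_pos.2 hs, ?_⟩
  · rw [sig, mul_pow, mul_pow, root_cube]; ring
  · rw [tm, kap, one_div_lt_one_div hs (by positivity)]
    nlinarith

lemma tm_mul_sq_le (hn : 1 ≤ n) : tm n a * a ^ 2 ≤ 1 / 10 ^ 10 := by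
  obtain ⟨hσ, hσ1, -, -, -⟩ := h.sig_facts hn
  rw [tm, div_mul_eq_mul_div, one_mul, div_le_iff₀ hσ]
  linarith

lemma defect_nonneg (hn : 1 ≤ n) (q : ℕ) (θ : Fin n → ℝ) : 0 ≤ defect ρ a q θ := by
  obtain ⟨hσ, -, -, ht, -⟩ := h.sig_facts hn
  have ha := h.a_pos
  have := (h.obs_mem (M := 16 * a ^ 2) (by positivity) q (s := tm n a) (by linarith [h.kap_pos]) θ).1
  unfold defect
  positivity

/-- The curvature of `Lg` up to the defect. -/
theorem dv_bound (hlc : LogConcaveFun ρ) (hn : 1 ≤ n) {q : ℕ} (hq : q ≠ 0) (θ g : Fin n → ℝ) :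
    Dv ρ (tm n a) θ g ≤ sig n a / 8 * sumSq g + defect ρ a q θ := by
  obtain ⟨hσ, hσ1, hσ3, ht, htk⟩ := h.sig_facts hn
  have hk : -kap a ≤ tm n a := by linarith [h.kap_pos]
  have ha := h.a_pos
  have hD := h.defect_nonneg hn q θ
  set σ := sig n a with hσdef
  set t := tm n a with htdef
  set N := Real.sqrt (t * n)
  set G := Real.sqrt (sumSq g)
  set T := Real.sqrt (sumSq θ)
  have hG2 : G ^ 2 = sumSq g := Real.sq_sqrt (sumSq_nonneg g)
  have hT2 : T ^ 2 = sumSq θ := Real.sq_sqrt (sumSq_nonneg θ)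
  have hN2 : N ^ 2 = t * n := Real.sq_sqrt (by positivity)
  have hG0 : 0 ≤ G := Real.sqrt_nonneg _
  have hT0 : 0 ≤ T := Real.sqrt_nonneg _
  have hN0 : 0 ≤ N := Real.sqrt_nonneg _
  have hlin : Dv ρ t θ g ≤ a ^ 2 * G * (4 * G + 8 * T + 4 * N) := h.dv_le_lin ht.le θ g
  by_cases hgood : sumSq θ ≤ 64 * (t * n) ∧ ∀ u, qf ρ t θ u ≤ 16 * a ^ 2 * sumSq u
  · refine le_trans ?_ (le_add_of_nonneg_right hD)
    rcases le_or_gt (8000 * (a * G)) 1 with hsm | hbig
    · rcases (sumSq_nonneg g).eq_or_lt with hg | hg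
      · refine hlin.trans ?_
        rw [show G = 0 by simp [G, ← hg]]
        simp [← hg]
      · refine (h.dv_le_half (by linarith [h.kap_pos]) θ g
          (h.qf_segment hlc ht.le θ g hg (hgood.2 g) hsm)).trans ?_
        nlinarith
    · have hTN : T ≤ 8 * N := by
        refine Real.sqrt_le_iff.2 ⟨by positivity, ?_⟩
        rw [mul_pow, hN2]; linarith [hgood.1]
      have hkey : 68 * a ^ 2 * N * (16 * (8000 * a)) ≤ σ := by
        refine le_of_pow_le_pow_left₀ two_ne_zero hσ.le ?_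
        have e : (68 * a ^ 2 * N * (16 * (8000 * a))) ^ 2 = (68 * 16 * 8000) ^ 2 * (n * a ^ 6) / σ := by
          rw [mul_pow, mul_pow, hN2, htdef, tm, ← hσdef]
          field_simp
        rw [e, div_le_iff₀ hσ, ← pow_succ, hσ3, show (10:ℝ) ^ 30 * n * a ^ 6 = 10 ^ 30 * (n * a ^ 6) by ring]
        exact mul_le_mul_of_nonneg_right (by norm_num) (by positivity)
      have h1 : a ^ 2 * (68 * N) ≤ σ / 16 * G := by
        have h2 : 68 * a ^ 2 * N * 1 ≤ 68 * a ^ 2 * N * (8000 * (a * G)) :=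
          mul_le_mul_of_nonneg_left hbig.le (by positivity)
        nlinarith [mul_le_mul_of_nonneg_right hkey hG0]
      have h3 : a ^ 2 * G * (4 * G + 8 * T + 4 * N) ≤ a ^ 2 * G * (4 * G + 68 * N) :=
        mul_le_mul_of_nonneg_left (by linarith) (by positivity)
      have h4 := mul_le_mul_of_nonneg_left h1 hG0
      have h5 : a ^ 2 * 4 * G ^ 2 ≤ σ / 16 * G ^ 2 :=
        mul_le_mul_of_nonneg_right (by linarith [sq_nonneg a]) (sq_nonneg G)
      rw [← hG2]
      nlinarith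
  · have hM : (0:ℝ) < 16 * a ^ 2 := by positivity
    obtain ⟨ho0, ho1⟩ := h.obs_mem hM q (s := t) hk θ
    have hR : 128 * sumSq θ + 32 * (t * n) ≤ 16448 * (t * n) * obs ρ (16 * a ^ 2) q t θ
        + 129 * (16 * t * Real.exp (sumSq θ / (16 * t) - 2 * n)) := by
      have hexp : 0 ≤ 129 * (16 * t * Real.exp (sumSq θ / (16 * t) - 2 * n)) := by positivity
      have hob : 0 ≤ 16448 * (t * n) * obs ρ (16 * a ^ 2) q t θ := by positivity
      rcases le_or_gt (sumSq θ) (64 * (t * n)) with hθ | hθ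
      · obtain ⟨u, hu⟩ : ∃ u, 16 * a ^ 2 * sumSq u < qf ρ t θ u := by
          by_contra hcon
          push Not at hcon
          exact hgood ⟨hθ, hcon⟩
        obtain ⟨lam, hlam, hlamq, hlamu⟩ := exists_top (Am_transpose (ρ := ρ) t θ)
          (fun u => by rw [h.quad_Am hk]; exact h.qf_nonneg hk θ u) hq
        have hlM : 16 * a ^ 2 ≤ lam := by
          by_contra hlt
          push Not at hlt
          have := hlamu u
          rw [h.quad_Am hk] at this
          nlinarith [sumSq_nonneg u]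
        have hx : 1 ≤ xq ρ (16 * a ^ 2) q t θ := by
          rw [xq, one_le_div (pow_pos hM q)]
          exact (pow_le_pow_left₀ hM.le hlM q).trans hlamq
        have hobs : 1 / 2 ≤ obs ρ (16 * a ^ 2) q t θ := by
          rw [obs, div_le_div_iff₀ two_pos (by linarith)]; linarith
        nlinarith [mul_le_mul_of_nonneg_left hobs (show 0 ≤ 16448 * (t * n) by positivity)]
      · have h1 : 4 * (n:ℝ) ≤ sumSq θ / (16 * t) := by rw [le_div_iff₀ (by positivity)]; linarith
        have h2 := mul_le_mul_of_nonneg_left (sq_le_exp_of_four_le (Nat.cast_nonneg n) h1)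
          (show 0 ≤ 16 * t by positivity)
        have e : 16 * t * (sumSq θ / (16 * t)) = sumSq θ := by field_simp
        rw [e] at h2
        linarith
    have h1 : a ^ 2 * G * (4 * G + 8 * T + 4 * N)
        ≤ σ / 8 * G ^ 2 + 4 * a ^ 4 / σ * (8 * T + 4 * N) ^ 2 := by
      set R := 8 * T + 4 * N
      rw [show 4 * G + 8 * T + 4 * N = 4 * G + R by simp only [R]; ring]
      have h5 : a ^ 2 * 4 * G ^ 2 ≤ σ / 16 * G ^ 2 :=
        mul_le_mul_of_nonneg_right (by linarith [sq_nonneg a]) (sq_nonneg G)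
      have e : σ / 16 * G ^ 2 + 4 * a ^ 4 / σ * R ^ 2 - a ^ 2 * G * R = (σ * G - 8 * a ^ 2 * R) ^ 2 / (16 * σ) := by
        field_simp; ring
      have : 0 ≤ (σ * G - 8 * a ^ 2 * R) ^ 2 / (16 * σ) := by positivity
      linarith
    have h2 : (8 * T + 4 * N) ^ 2 ≤ 128 * sumSq θ + 32 * (t * n) := by
      rw [← hT2, ← hN2]; nlinarith [sq_nonneg (8 * T - 4 * N)]
    refine hlin.trans (h1.trans ?_)
    rw [← hG2]
    exact add_le_add le_rfl (mul_le_mul_of_nonneg_left (h2.trans hR) (by positivity))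

/-- The law of `θ` as a probability density. -/
lemma integral_nu (φ : (Fin n → ℝ) → ℝ) (hφ : Measurable φ) {C : ℝ} (hC : ∀ θ, |φ θ| ≤ C)
    {s : ℝ} (hs : 0 < s) (hs' : s < kap a) :
    ∫ θ, gaussS s θ * zz ρ s θ * φ θ = ∫ z, φ (th s z) ∂law ρ := by
  have hP := h.law_prob
  have hi : Integrable (fun z => (1:ℝ) * φ (th s z)) (law ρ) :=
    (integrable_const C).mono' ((measurable_const.mul (hφ.comp (continuous_th s).measurable)).aestronglyMeasurable)
      (Eventually.of_forall fun z => by simpa using hC (th s z))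
  have e := (h.integral_th hs hs' (Mild.const 1) hφ (k := 0) (fun θ => by simpa [wP] using hC θ) hi).2
  simp only [one_mul] at e
  rw [e]
  refine integral_congr_ae (Eventually.of_forall fun θ => ?_)
  simp [mo, zz, mul_comm, mul_left_comm]

theorem exists_pot (hlc : LogConcaveFun ρ) (hn : 1 ≤ n) :
    ∃ U : Pot n, (∀ θ, Real.exp (-U.V θ) = gaussS (tm n a) θ * zz ρ (tm n a) θ)
      ∧ ∃ tau, tau ≤ 600 / sig n a ∧ Test.Good U tau := by
  obtain ⟨hσ, hσ1, hσ3, ht, htk⟩ := h.sig_facts hn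
  have hkl : -kap a < tm n a := by linarith [h.kap_pos]
  have hk := hkl.le
  have ha := h.a_pos
  have hta := h.tm_mul_sq_le hn
  set σ := sig n a with hσdef
  set t := tm n a with htdef
  have hσt : 1 / t = σ := by rw [htdef, tm, one_div_one_div]
  set c0 := (n:ℝ) * Real.log (Real.sqrt (2 * Real.pi * t))
  set V := fun θ : Fin n → ℝ => σ / 2 * sumSq θ - Lg ρ t θ + c0
  have hVexp : ∀ θ, Real.exp (-V θ) = gaussS t θ * zz ρ t θ := by
    intro θ
    simp only [V, c0, gaussS, Lg, neg_add, neg_neg, sub_eq_add_neg, Real.exp_add]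
    rw [Real.exp_log (h.zz_pos hk θ), Real.exp_neg (_ * Real.log _), Real.exp_nat_mul, Real.exp_log (by positivity),
      show -(1 / (2 * t)) * sumSq θ = -(σ / 2 * sumSq θ) by rw [← hσt]; field_simp]
    ring
  have hLc : Continuous fun θ => Lg ρ t θ := (h.continuous_zz hkl).log fun θ => (h.zz_pos hk θ).ne'
  have hVc : Continuous V := by fun_prop
  have hbar : ∀ i θ, |bar ρ t θ i| ≤ (4 * a ^ 2 + 2 * Real.sqrt (t * n) * a ^ 2) * (1 + sumSq θ) := by
    intro i θ
    have h1 : |bar ρ t θ i| ≤ Real.sqrt (sumSq (bar ρ t θ)) := by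
      rw [← Real.sqrt_sq_eq_abs]; exact Real.sqrt_le_sqrt (sq_le_sumSq _ i)
    refine h1.trans ((h.bar_le ht.le θ).trans ?_)
    have h2 : Real.sqrt (sumSq θ) ≤ 1 + sumSq θ := by
      refine Real.sqrt_le_iff.2 ⟨by linarith [sumSq_nonneg θ], by nlinarith [sumSq_nonneg θ]⟩
    rw [add_mul]
    refine add_le_add (mul_le_mul_of_nonneg_left h2 (by positivity))
      (le_mul_of_one_le_right (by positivity) (by linarith [sumSq_nonneg θ]))
  have htan : ∀ b g : Fin n → ℝ, V (b + g) - V b - ∑ i, (σ * b i - bar ρ t b i) * g i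
      = σ / 2 * sumSq g - Dv ρ t b g := by
    intro b g
    have e : ∑ i, (σ * b i - bar ρ t b i) * g i = σ * dot b g - dot g (bar ρ t b) := by
      simp only [dot, Finset.mul_sum, ← Finset.sum_sub_distrib]
      exact Finset.sum_congr rfl fun i _ => by ring
    simp only [V, Dv, e, sumSq_add_eq]
    ring
  let U : Pot n :=
    { V := V
      G := fun i θ => σ * θ i - bar ρ t θ i
      contV := hVc
      lower := by
        refine ⟨|c0|, σ / 4, by positivity, fun θ => ?_⟩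
        have h1 : Lg ρ t θ ≤ a ^ 2 * sumSq θ :=
          (Real.log_le_iff_le_exp (h.zz_pos hk _)).2 (h.zz_upper ht.le θ)
        have h2 := mul_le_mul_of_nonneg_right (show a ^ 2 ≤ σ / 4 by linarith [sq_nonneg a]) (sumSq_nonneg θ)
        simp only [V]
        linarith [neg_abs_le c0]
      upper := by
        refine ⟨σ / 2 + t / 2 * (n * a ^ 2) + |c0|, fun θ => ?_⟩
        have h1 : -(t / 2 * (n * a ^ 2)) ≤ Lg ρ t θ :=
          (Real.le_log_iff_exp_le (h.zz_pos hk _)).2 (h.zz_lower ht.le θ)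
        have h2 := sumSq_nonneg θ
        have h3 : 0 ≤ (t / 2 * (n * a ^ 2) + |c0|) * sumSq θ := by positivity
        have h4 : (0:ℝ) ≤ σ / 2 := by positivity
        simp only [V]
        linarith [le_abs_self c0]
      Gmeas := fun i => ((measurable_pi_apply i).const_mul σ).sub
        (h.continuous_pm (Mild.coord i) hkl).measurable
      Gbound := by
        refine ⟨σ + (4 * a ^ 2 + 2 * Real.sqrt (t * n) * a ^ 2), fun i θ => ?_⟩
        refine (abs_sub _ _).trans ?_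
        rw [add_mul σ]
        refine add_le_add ?_ (hbar i θ)
        rw [abs_mul, abs_of_pos hσ]
        exact mul_le_mul_of_nonneg_left (by nlinarith [sq_le_sumSq θ i, sq_abs (θ i), sq_nonneg (|θ i| - 1)]) hσ.le
      deriv := fun i θ => by
        set e : Fin n → ℝ := Pi.single i 1
        have hu : ∀ r, update θ i r = θ + (r - θ i) • e := fun r => by
          funext j
          rcases eq_or_ne j i with rfl | hj
          · simp [e]
          · simp [e, hj]
        have h1 := HasDerivAt.comp (θ i) (h := fun r : ℝ => r - θ i) (h.hasDerivAt_Lg_line hkl θ e (θ i - θ i))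
          ((hasDerivAt_id' (θ i)).sub_const (θ i))
        have h2 : HasDerivAt (fun r => sumSq (update θ i r)) (2 * θ i) (θ i) := by
          have e2 : ∀ r, sumSq (update θ i r) = sumSq θ - θ i ^ 2 + r ^ 2 := fun r => by
            simp only [sumSq]
            rw [← Finset.add_sum_erase _ _ (Finset.mem_univ i), ← Finset.add_sum_erase _ (fun j => θ j ^ 2)
              (Finset.mem_univ i), update_self, Finset.sum_congr rfl fun j hj => by
                rw [update_of_ne (Finset.ne_of_mem_erase hj)]]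
            ring
          simp only [e2]
          simpa using (((hasDerivAt_id' (θ i)).fun_pow 2).const_add (sumSq θ - θ i ^ 2))
        have h3 := ((h2.const_mul (σ / 2)).sub h1).add_const c0
        simp only [sub_self, zero_smul, add_zero, e, dot_single, mul_one] at h3
        refine (h3.congr_deriv (by ring)).congr_of_eventuallyEq (Eventually.of_forall fun r => ?_)
        simp [V, hu, comp, e]
      tangent := fun p b => by
        have h1 := htan p (b - p)
        rw [add_sub_cancel] at h1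
        have h2 := h.dv_le_inv hlc ht p (b - p)
        rw [hσt] at h2
        have e : ∑ i, (σ * p i - bar ρ t p i) * (p i - b i) = -∑ i, (σ * p i - bar ρ t p i) * (b - p) i := by
          rw [← Finset.sum_neg_distrib]
          exact Finset.sum_congr rfl fun i _ => by rw [Pi.sub_apply]; ring
        rw [e]
        linarith
      one := by
        have := h.law_prob
        simp only [hVexp]
        simpa using h.integral_nu (fun _ => 1) measurable_const (C := 1) (fun _ => by simp) ht htk }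
  refine ⟨U, hVexp, ?_⟩
  obtain ⟨q, hq2, hnq, hq4⟩ := exists_q hn
  set Df := defect ρ a q
  have hD0 : ∀ θ, 0 ≤ Df θ := h.defect_nonneg hn q
  have hM : (0:ℝ) < 16 * a ^ 2 := by positivity
  have hflow : (n:ℝ) * ∫ z, obs ρ (16 * a ^ 2) q t (th t z) ∂law ρ ≤ 8 := by
    refine (mul_le_mul_of_nonneg_left (h.flow_bound hlc hM hq2 hnq ht htk) (Nat.cast_nonneg n)).trans ?_
    have e1 : a ^ 2 / (16 * a ^ 2) = 1 / 16 := by field_simp
    have e2 : Real.exp (64 * (q:ℝ) ^ 2 * Real.sqrt (16 * a ^ 2) * Real.sqrt t) ≤ 8 := by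
      have hx : 64 * (q:ℝ) ^ 2 * Real.sqrt (16 * a ^ 2) * Real.sqrt t ≤ 2 := by
        rw [mul_assoc _ (Real.sqrt _), ← Real.sqrt_mul hM.le]
        have hb : Real.sqrt (16 * a ^ 2 * t) * (q:ℝ) ^ 2 ≤ 2 / 64 := by
          refine le_of_pow_le_pow_left₀ two_ne_zero (by norm_num) ?_
          rw [mul_pow, Real.sq_sqrt (by positivity), ← pow_mul]
          have h1 : t * a ^ 2 * (n:ℝ) ^ (1 / 3 : ℝ) = 1 / 10 ^ 10 := by
            have : (n:ℝ) ^ (1 / 3 : ℝ) ≠ 0 := by positivity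
            rw [htdef, tm, sig]; field_simp
          have h2 := mul_le_mul_of_nonneg_left hq4 (show 0 ≤ 16 * (t * a ^ 2) by positivity)
          rw [show 16 * (t * a ^ 2) * (194481 * (n:ℝ) ^ (1 / 3 : ℝ))
            = 16 * 194481 * (t * a ^ 2 * (n:ℝ) ^ (1 / 3 : ℝ)) by ring, h1] at h2
          refine le_trans (le_of_eq (by ring)) (h2.trans ?_)
          norm_num
        linarith
      refine (Real.exp_le_exp.2 hx).trans ?_
      rw [show (2:ℝ) = 1 + 1 by norm_num, Real.exp_add]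
      nlinarith [Real.exp_pos (1:ℝ), Real.exp_one_lt_d9]
    rw [e1, one_div, inv_pow]
    have h1 : (n:ℝ) * n ≤ (16:ℝ) ^ q := by
      have : (n:ℝ) ≤ (2:ℝ) ^ q := by exact_mod_cast hnq
      refine (mul_le_mul this this (Nat.cast_nonneg n) (by positivity)).trans ?_
      rw [← mul_pow]; exact pow_le_pow_left₀ (by norm_num) (by norm_num) q
    have h2 : (n:ℝ) * (n * (16 ^ q)⁻¹) ≤ 1 := by
      rw [← mul_assoc, mul_inv_le_iff₀ (by positivity)]; linarith
    calc (n:ℝ) * (n * (16 ^ q)⁻¹ * _) = (n * (n * (16 ^ q)⁻¹)) * _ := (mul_assoc _ _ _).symm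
      _ ≤ 1 * 8 := mul_le_mul h2 e2 (Real.exp_pos _).le zero_le_one
      _ = 8 := one_mul 8
  have hom : Measurable (obs ρ (16 * a ^ 2) q t) :=
    ((h.pb_xq (16 * a ^ 2) q).1 t ht).measurable.div
      (measurable_const.add ((h.pb_xq (16 * a ^ 2) q).1 t ht).measurable)
  have hob : ∀ θ, |obs ρ (16 * a ^ 2) q t θ| ≤ 1 := fun θ => by
    obtain ⟨h0, h1⟩ := h.obs_mem hM q (s := t) hk θ
    rwa [abs_of_nonneg h0]
  set E := fun θ : Fin n → ℝ => Real.exp (sumSq θ / (16 * t) - 2 * n)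
  have hEi : Integrable E U.dens.meas ∧ ∫ θ, E θ ∂U.dens.meas ≤ 1 := by
    have hb : 0 < 3 / (8 * t) := by positivity
    set F := fun θ : Fin n → ℝ => Real.exp (-(2 * (n:ℝ))) / Real.sqrt (2 * Real.pi * t) ^ n
      * Real.exp (-(3 / (8 * t)) * sumSq θ)
    have hFi : Integrable F := (integrable_gauss (ι := Fin n) hb).const_mul _
    have hle : ∀ θ, U.dens.p θ * E θ ≤ F θ := by
      intro θ
      rw [Pot.dens_p, hVexp]
      refine (mul_le_mul_of_nonneg_right (mul_le_mul_of_nonneg_left (h.zz_upper ht.le θ)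
        (gaussS_pos ht θ).le) (Real.exp_pos _).le).trans ?_
      simp only [gaussS, F, sub_eq_add_neg, Real.exp_add]
      rw [show ∀ A S B C D : ℝ, A / S * B * (C * D) = D / S * (A * B * C) from fun A S B C D => by ring,
        ← Real.exp_add, ← Real.exp_add]
      refine mul_le_mul_of_nonneg_left (Real.exp_le_exp.2 ?_) (by positivity)
      have e : -(3 / (8 * t)) * sumSq θ
          = -(1 / (2 * t)) * sumSq θ + 1 / (16 * t) * sumSq θ + 1 / (16 * t) * sumSq θ := by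
        field_simp; ring
      have h16 : a ^ 2 ≤ 1 / (16 * t) := by rw [le_div_iff₀ (by positivity)]; linarith
      have := mul_le_mul_of_nonneg_right h16 (sumSq_nonneg θ)
      rw [e, show sumSq θ / (16 * t) = 1 / (16 * t) * sumSq θ by ring]
      linarith
    have hEm : Measurable E := by fun_prop
    have hpi : Integrable fun θ => U.dens.p θ * E θ :=
      hFi.mono' (U.dens.cont.measurable.mul hEm).aestronglyMeasurable (Eventually.of_forall fun θ => by
        rw [Real.norm_eq_abs, abs_of_nonneg (mul_nonneg (U.dens.pos θ).le (Real.exp_pos _).le)]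
        exact hle θ)
    refine ⟨(U.dens.integrable_meas_iff E).2 hpi, ?_⟩
    rw [Dens.integral_meas]
    refine (integral_mono hpi hFi hle).trans ?_
    have e : ∀ g : Fin n → ℝ, Real.exp (-(3 / (8 * t)) * sumSq g)
        = ∏ i, Real.exp (-(3 / (8 * t)) * g i ^ 2) := fun g => by
      rw [← Real.exp_sum, sumSq, Finset.mul_sum]
    simp only [F, e]
    rw [integral_const_mul, integral_fintype_prod_volume_eq_pow (fun r : ℝ => Real.exp (-(3 / (8 * t)) * r ^ 2)),
      integral_gaussian, Fintype.card_fin, show -(2 * (n:ℝ)) = n * (-2 : ℝ) by ring, Real.exp_nat_mul,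
      ← div_pow, ← mul_pow]
    refine pow_le_one₀ (by positivity) ?_
    rw [div_mul_eq_mul_div, div_le_one (by positivity)]
    have h2 : Real.sqrt (Real.pi / (3 / (8 * t))) ≤ 2 * Real.sqrt (2 * Real.pi * t) := by
      rw [show (2:ℝ) * Real.sqrt (2 * Real.pi * t) = Real.sqrt (4 * (2 * Real.pi * t)) by
        rw [Real.sqrt_mul (by norm_num : (0:ℝ) ≤ 4) (2 * Real.pi * t), show (4:ℝ) = 2 ^ 2 by norm_num,
          Real.sqrt_sq (by norm_num : (0:ℝ) ≤ 2)]]
      refine Real.sqrt_le_sqrt ?_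
      rw [div_le_iff₀ hb]
      field_simp
      norm_num
    have h3 : Real.exp (-2) ≤ 1 / 2 := by
      rw [Real.exp_neg, ← one_div, one_div_le_one_div (Real.exp_pos 2) two_pos]
      linarith [Real.add_one_le_exp (2:ℝ)]
    calc Real.exp (-2) * Real.sqrt (Real.pi / (3 / (8 * t))) ≤ 1 / 2 * (2 * Real.sqrt (2 * Real.pi * t)) :=
          mul_le_mul h3 h2 (Real.sqrt_nonneg _) (by norm_num)
      _ = _ := by ring
  have hoi : Integrable (obs ρ (16 * a ^ 2) q t) U.dens.meas := U.integrable_bdd hom hob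
  have hDi : Integrable Df U.dens.meas :=
    ((hoi.const_mul (16448 * (t * n))).add ((hEi.1.const_mul (16 * t)).const_mul 129)).const_mul _
  have hDle : ∫ θ, Df θ ∂U.dens.meas ≤ 1 := by
    have e : ∫ θ, Df θ ∂U.dens.meas = 4 * a ^ 4 / σ * (16448 * (t * n) * ∫ θ, obs ρ (16 * a ^ 2) q t θ ∂U.dens.meas
        + 129 * (16 * t * ∫ θ, E θ ∂U.dens.meas)) := by
      show ∫ θ, 4 * a ^ 4 / σ * (16448 * (t * n) * obs ρ (16 * a ^ 2) q t θ + 129 * (16 * t * E θ)) ∂U.dens.meas = _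
      rw [integral_const_mul, integral_add (hoi.const_mul _) ((hEi.1.const_mul (16 * t)).const_mul 129),
        integral_const_mul, integral_const_mul, integral_const_mul]
    have e2 : ∫ θ, obs ρ (16 * a ^ 2) q t θ ∂U.dens.meas = ∫ z, obs ρ (16 * a ^ 2) q t (th t z) ∂law ρ := by
      rw [Dens.integral_meas, ← h.integral_nu _ hom hob ht htk]
      refine integral_congr_ae (Eventually.of_forall fun θ => ?_)
      show Real.exp (-V θ) * _ = _
      rw [hVexp]
    rw [e, e2]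
    have h1 := mul_le_mul_of_nonneg_left hflow (show 0 ≤ 16448 * t by positivity)
    have h2 := mul_le_mul_of_nonneg_left hEi.2 (show 0 ≤ 129 * (16 * t) by positivity)
    refine (mul_le_mul_of_nonneg_left (show _ ≤ 133648 * t by linarith) (by positivity)).trans ?_
    have h3 : a ^ 4 / σ * t = (t * a ^ 2) ^ 2 := by rw [htdef, tm, ← hσdef]; field_simp
    rw [show 4 * a ^ 4 / σ * (133648 * t) = 4 * 133648 * (a ^ 4 / σ * t) by ring, h3]
    refine (mul_le_mul_of_nonneg_left (pow_le_pow_left₀ (by positivity) hta 2) (by norm_num)).trans ?_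
    norm_num
  have hU : NearConvex U (3 * σ / 8) Df := by
    intro b p
    have h1 := htan b (p - b)
    rw [add_sub_cancel] at h1
    have h2 := h.dv_bound hlc hn (q := q) (by omega) b (p - b)
    simp only [Pi.sub_apply, sumSq] at h1 h2
    show V b + _ + _ - _ ≤ V p
    linarith
  refine ⟨_, ?_, good_of_nearConvex U (by positivity) hD0 hDi hU⟩
  rw [show 100 * (1 + ∫ θ, Df θ ∂U.dens.meas) / (3 * σ / 8)
    = 800 / 3 * (1 + ∫ θ, Df θ ∂U.dens.meas) / σ by ring]
  exact div_le_div_of_nonneg_right (by linarith) hσ.le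

end SubDensity

end Vale.Agent.P245
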