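import Mathlib
import Vale.Agent.P245.Cube.Def

/-!
The logarithmic Sobolev inequality with constant of order `n ^ (1/3) a ^ 2`.
-/

namespace Vale.Agent.P245

open MeasureTheory Set Filter Topology Function Finset

variable {n : ℕ}

/-- `√(g ^ 2 + δ)` as a test function. -/
noncomputable def Test.lift (T : Test n) {δ : ℝ} (hδ : 0 < δ) : Test n where
  g x := Real.sqrt (T.g x ^ 2 + δ)
  Dg i x := T.g x / Real.sqrt (T.g x ^ 2 + δ) * T.Dg i x
  cont := by have := T.cont; fun_prop
  meas i := by have := T.cont.measurable; have := T.meas i; fun_prop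
  deriv i x := by
    have hp : T.g (update x i (x i)) ^ 2 + δ ≠ 0 := (by positivity : 0 < T.g _ ^ 2 + δ).ne'
    refine ((((T.deriv i x).fun_pow 2).add_const δ).sqrt hp).congr_deriv ?_
    rw [update_eq_self]
    field_simp
    ring
  bdd := by
    obtain ⟨B, hB⟩ := T.bdd
    refine ⟨max B (Real.sqrt (B ^ 2 + δ)), fun x => ⟨?_, fun i => ?_⟩⟩
    · rw [abs_of_nonneg (Real.sqrt_nonneg _)]
      refine le_trans ?_ (le_max_right _ _)
      exact Real.sqrt_le_sqrt (add_le_add (by rw [← sq_abs]; exact pow_le_pow_left₀ (abs_nonneg _) (hB x).1 2) le_rfl)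
    · refine le_trans ?_ (((hB x).2 i).trans (le_max_left _ _))
      rw [abs_mul, abs_div, abs_of_nonneg (Real.sqrt_nonneg _)]
      refine mul_le_of_le_one_left (abs_nonneg _) ((div_le_one (by positivity)).2 ?_)
      rw [← Real.sqrt_sq_eq_abs]
      exact Real.sqrt_le_sqrt (by linarith)

lemma Test.lift_sq (T : Test n) {δ : ℝ} (hδ : 0 < δ) (x : Fin n → ℝ) :
    (T.lift hδ).g x ^ 2 = T.g x ^ 2 + δ := Real.sq_sqrt (by positivity)

lemma Test.lift_sumD (T : Test n) {δ : ℝ} (hδ : 0 < δ) (x : Fin n → ℝ) :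
    ∑ i, (T.lift hδ).Dg i x ^ 2 = T.g x ^ 2 / (T.g x ^ 2 + δ) * ∑ i, T.Dg i x ^ 2 := by
  rw [Finset.mul_sum]
  refine Finset.sum_congr rfl fun i _ => ?_
  show (T.g x / Real.sqrt (T.g x ^ 2 + δ) * T.Dg i x) ^ 2 = _
  rw [mul_pow, div_pow, Real.sq_sqrt (by positivity)]

lemma Test.mild_data (T : Test n) (hDc : Continuous fun x => ∑ i, T.Dg i x ^ 2) :
    ∃ B : ℝ, 0 ≤ B ∧ (∀ x, |T.g x ^ 2| ≤ B) ∧ (∀ x, |nlog (T.g x ^ 2)| ≤ B)
      ∧ (∀ x, |∑ i, T.Dg i x ^ 2| ≤ B) ∧ Mild (fun x => T.g x ^ 2)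
      ∧ Mild (fun x => nlog (T.g x ^ 2)) ∧ Mild (fun x => ∑ i, T.Dg i x ^ 2) := by
  obtain ⟨B, hB⟩ := T.bdd
  obtain ⟨B2, hB2⟩ := T.exists_sq_bound
  obtain ⟨C2, hC2⟩ := exists_bound_nlog B2
  set K := |B2| + |C2| + n * B ^ 2
  have hn : 0 ≤ (n:ℝ) * B ^ 2 := by positivity
  have h1 : ∀ x, |T.g x ^ 2| ≤ K := fun x => by
    rw [abs_of_nonneg (hB2 x).1]
    linarith [(hB2 x).2, le_abs_self B2, abs_nonneg C2]
  have h2 : ∀ x, |nlog (T.g x ^ 2)| ≤ K := fun x => by
    linarith [hC2 _ (hB2 x), le_abs_self C2, abs_nonneg B2]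
  have h3 : ∀ x, |∑ i, T.Dg i x ^ 2| ≤ K := fun x => by
    rw [abs_of_nonneg (Finset.sum_nonneg fun i _ => sq_nonneg _)]
    refine (Finset.sum_le_sum fun i _ => show T.Dg i x ^ 2 ≤ B ^ 2 by
      rw [← sq_abs]; exact pow_le_pow_left₀ (abs_nonneg _) ((hB x).2 i) 2).trans ?_
    simp only [Finset.sum_const, Finset.card_univ, Fintype.card_fin, nsmul_eq_mul]
    linarith [abs_nonneg B2, abs_nonneg C2]
  exact ⟨K, by positivity, h1, h2, h3, Mild.bdd (T.cont.pow 2) h1,
    Mild.bdd (continuous_nlog.comp (T.cont.pow 2)) h2, Mild.bdd hDc h3⟩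

namespace SubDensity

variable {ρ : (Fin n → ℝ) → ℝ} {a : ℝ} (h : SubDensity ρ a)
include h

omit h in
lemma mild_exp_dot (v : Fin n → ℝ) (c : ℝ) : Mild fun x : Fin n → ℝ => Real.exp (dot v x - c) := by
  refine ⟨by fun_prop, fun k hk => ⟨Real.exp (sumSq v / (4 * k) - c), fun x => ?_⟩⟩
  rw [abs_of_pos (Real.exp_pos _), ← Real.exp_add]
  exact Real.exp_le_exp.2 (by linarith [dot_le_sumSq v x hk])

/-- Duality bound for covariances with linear functions. -/
lemma cov_dual (hlc : LogConcaveFun ρ) {s : ℝ} (hs : 0 < s) (θ : Fin n → ℝ) {f : (Fin n → ℝ) → ℝ}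
    (hf : Mild f) (hf' : Mild fun x => nlog (f x)) (hpos : ∀ x, 0 < f x) (hm : 0 < pm ρ f s θ)
    (v : Fin n → ℝ) :
    ∑ i, v i * pcov ρ f (fun x => x i) s θ
      ≤ pm ρ (fun x => nlog (f x)) s θ - nlog (pm ρ f s θ) + pm ρ f s θ * (1 / s / 2 * sumSq v) := by
  have hk : -kap a < s := by linarith [h.kap_pos]
  set m := pm ρ f s θ
  set c := Lg ρ s (θ + v) - Lg ρ s θ
  have hfd : Mild fun x => f x * dot v x := hf.mul (Mild.dot_left v)
  have he := mild_exp_dot v c
  have hψ : pm ρ (fun x => Real.exp (dot v x - c)) s θ = 1 := by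
    have e : mo ρ (fun x => Real.exp (dot v x - c)) s θ = Real.exp (-c) * zz ρ s (θ + v) := by
      rw [mo, zz, ← integral_const_mul]
      congr 1; funext x
      simp only [wt]
      rw [← mul_assoc, ← mul_assoc, ← Real.exp_add, ← Real.exp_add]
      congr 2
      simp only [dot, Pi.add_apply, add_mul, Finset.sum_add_distrib]
      ring
    rw [pm, e, show Real.exp (-c) = zz ρ s θ / zz ρ s (θ + v) by
      simp only [c, Lg, neg_sub]
      rw [Real.exp_sub, Real.exp_log (h.zz_pos hk.le _), Real.exp_log (h.zz_pos hk.le _)]]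
    have := (h.zz_pos hk.le θ).ne'
    have := (h.zz_pos hk.le (θ + v)).ne'
    field_simp
  have hle : pm ρ (fun x => (Real.log m - c) * f x + f x * dot v x + (f x - m * Real.exp (dot v x - c))) s θ
      ≤ pm ρ (fun x => nlog (f x)) s θ := by
    refine h.pm_mono (((hf.const_mul _).add hfd).add (hf.sub (he.const_mul m))) hf' hk.le θ fun x => ?_
    have hb := breg_nonneg (hpos x).le (mul_pos hm (Real.exp_pos (dot v x - c)))
    rw [breg, Real.log_mul hm.ne' (Real.exp_pos _).ne', Real.log_exp] at hb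
    linarith
  rw [h.pm_add ((hf.const_mul _).add hfd) (hf.sub (he.const_mul m)) hk.le,
    h.pm_add (hf.const_mul _) hfd hk.le, h.pm_sub hf (he.const_mul m) hk.le, pm_const_mul, pm_const_mul,
    hψ] at hle
  have e2 : pm ρ (fun x => f x * dot v x) s θ = ∑ i, v i * pm ρ (fun x => f x * x i) s θ := by
    rw [show (fun x => f x * dot v x) = fun x => ∑ i, v i * (f x * x i) from funext fun x => by
        rw [dot, Finset.mul_sum]; exact Finset.sum_congr rfl fun i _ => by ring,
      h.pm_sum Finset.univ (fun i => (hf.mul (Mild.coord i)).const_mul (v i)) hk.le θ]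
    exact Finset.sum_congr rfl fun i _ => pm_const_mul _ _ _ _
  have e3 : ∑ i, v i * pcov ρ f (fun x => x i) s θ
      = pm ρ (fun x => f x * dot v x) s θ - m * dot v (bar ρ s θ) := by
    rw [e2, dot, Finset.mul_sum, ← Finset.sum_sub_distrib]
    exact Finset.sum_congr rfl fun i _ => by simp only [pcov, bar, m]; ring
  have hD := mul_le_mul_of_nonneg_left (h.dv_le_inv hlc hs θ v) hm.le
  rw [Dv] at hD
  simp only [nlog, c] at hle ⊢
  linarith

/-- The marginal of the first variable. -/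
lemma integral_fst {φ : (Fin n → ℝ) → ℝ} (hφ : Mild φ) {B : ℝ} (hB : ∀ x, |φ x| ≤ B) {s : ℝ}
    (hs : 0 < s) (hs' : s < kap a) : ∫ θ, gaussS s θ * mo ρ φ s θ = ∫ x, φ x * ρ x := by
  have hP := h.law_prob
  have hi : Integrable (fun z => φ z.1 * (1:ℝ)) (law ρ) :=
    (integrable_const B).mono' ((hφ.cont.measurable.comp measurable_fst).mul measurable_const).aestronglyMeasurable
      (Eventually.of_forall fun z => by simpa using hB z.1)
  have e := (h.integral_th hs hs' hφ (ψ := fun _ => (1:ℝ)) measurable_const (C := 1) (k := 0)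
    (fun θ => by simp [wP]) hi).2
  rw [h.integral_law hi] at e
  simp only [one_mul, mul_one, integral_mul_const, integral_gauss] at e
  rw [← e]
  exact integral_congr_ae (Eventually.of_forall fun x => mul_comm _ _)

/-- The inequality for test functions bounded away from zero. -/
theorem lsi_cube_pos (hlc : LogConcaveFun ρ) (hn : 1 ≤ n) (T : Test n)
    (hDc : Continuous fun x => ∑ i, T.Dg i x ^ 2) {δ : ℝ} (hδ : 0 < δ) (hTδ : ∀ x, δ ≤ T.g x ^ 2) :
    (∫ x, nlog (T.g x ^ 2) * ρ x) - nlog (∫ x, T.g x ^ 2 * ρ x)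
      ≤ 7000000000 * sig n a * ∫ x, (∑ i, T.Dg i x ^ 2) * ρ x := by
  obtain ⟨hσ, -, -, ht, htk⟩ := h.sig_facts hn
  obtain ⟨U, hU, tau, htau, hgood⟩ := h.exists_pot hlc hn
  obtain ⟨K, hK0, hKf, hKl, hKd, mf, ml, md⟩ := T.mild_data hDc
  set σ := sig n a with hσdef
  set t := tm n a with htdef
  have hσt : 1 / t = σ := by rw [htdef, tm, one_div_one_div]
  have hkl : -kap a < t := by linarith [h.kap_pos]
  have hk := hkl.le
  set f := fun x => T.g x ^ 2
  set F := fun x => ∑ i, T.Dg i x ^ 2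
  set m := fun θ => pm ρ f t θ
  set El := fun θ => pm ρ (fun x => nlog (f x)) t θ
  set Ed := fun θ => pm ρ F t θ
  set En := fun θ => El θ - nlog (m θ)
  have hmδ : ∀ θ, δ ≤ m θ := fun θ => by
    have := h.pm_mono (Mild.const δ) mf hk θ hTδ
    rwa [h.pm_const hk] at this
  have hm0 : ∀ θ, 0 < m θ := fun θ => lt_of_lt_of_le hδ (hmδ θ)
  have hbd : ∀ (φ : (Fin n → ℝ) → ℝ), Mild φ → (∀ x, |φ x| ≤ K) → ∀ θ, |pm ρ φ t θ| ≤ K := fun φ hφ hb θ => by
    have := h.abs_pm_le hφ (Mild.const K) hk θ hb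
    rwa [h.pm_const hk] at this
  set C := fun i θ => pcov ρ f (fun x => x i) t θ
  have henergy : ∀ θ, ∑ i, (C i θ / (2 * Real.sqrt (m θ))) ^ 2 ≤ σ / 2 * En θ := by
    intro θ
    have hd := h.cov_dual hlc ht θ mf ml (fun x => lt_of_lt_of_le hδ (hTδ x)) (hm0 θ)
      fun i => C i θ / (m θ * σ)
    rw [hσt] at hd
    have hm := hm0 θ
    have e1 : ∑ i, C i θ / (m θ * σ) * pcov ρ f (fun x => x i) t θ = (∑ i, C i θ ^ 2) / (m θ * σ) := by
      rw [Finset.sum_div]; exact Finset.sum_congr rfl fun i _ => by simp only [C]; ring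
    have e2 : sumSq (fun i => C i θ / (m θ * σ)) = (∑ i, C i θ ^ 2) / (m θ * σ) ^ 2 := by
      rw [Finset.sum_div]; exact Finset.sum_congr rfl fun i _ => div_pow _ _ _
    have e3 : ∑ i, (C i θ / (2 * Real.sqrt (m θ))) ^ 2 = (∑ i, C i θ ^ 2) / (4 * m θ) := by
      rw [Finset.sum_div]
      exact Finset.sum_congr rfl fun i _ => by rw [div_pow, mul_pow, Real.sq_sqrt hm.le]; norm_num
    rw [e1, e2] at hd
    rw [e3]
    set S := ∑ i, C i θ ^ 2
    have e4 : pm ρ f t θ * (σ / 2 * (S / (m θ * σ) ^ 2)) = S / (2 * (m θ * σ)) := by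
      simp only [m] at hm ⊢
      field_simp
    rw [e4] at hd
    have e5 : S / (4 * m θ) = σ / 2 * (S / (m θ * σ) - S / (2 * (m θ * σ))) := by field_simp; ring
    rw [e5]
    exact mul_le_mul_of_nonneg_left (by simp only [En, El, m] at hd ⊢; linarith) (by positivity)
  have hlsi : ∀ θ, En θ ≤ 64000 * σ * Ed θ := fun θ => by
    have := post_lsi h hlc ht θ T hDc
    rw [show (64000:ℝ) / t = 64000 * σ by rw [← hσt]; ring] at this
    exact this
  have hEd : ∀ θ, |Ed θ| ≤ K := hbd _ md hKd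
  let R : Test n :=
    { g := fun θ => Real.sqrt (m θ)
      Dg := fun i θ => C i θ / (2 * Real.sqrt (m θ))
      cont := (h.continuous_pm mf hkl).sqrt
      meas := fun i => (((h.continuous_pm (mf.mul (Mild.coord i)) hkl).sub ((h.continuous_pm mf hkl).mul
        (h.continuous_pm (Mild.coord i) hkl))).measurable).div ((h.continuous_pm mf hkl).sqrt.measurable.const_mul 2)
      deriv := fun i θ => by
        set e : Fin n → ℝ := Pi.single i 1
        have hu : ∀ r, update θ i r = θ + (r - θ i) • e := fun r => by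
          funext j
          rcases eq_or_ne j i with rfl | hj
          · simp [e]
          · simp [e, hj]
        have h1 := HasDerivAt.comp (θ i) (h := fun r : ℝ => r - θ i)
          (h.hasDerivAt_pm_line mf t θ e (θ i - θ i) hkl) ((hasDerivAt_id' (θ i)).sub_const (θ i))
        have h2 := h1.sqrt (by simpa [comp] using (hm0 θ).ne')
        simp only [sub_self, zero_smul, add_zero, e, dot_single, mul_one, comp] at h2
        refine h2.congr_of_eventuallyEq (Eventually.of_forall fun r => ?_)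
        simp only [m, hu, e]
      bdd := by
        refine ⟨Real.sqrt K + Real.sqrt (σ / 2 * (64000 * σ * K)), fun θ => ⟨?_, fun i => ?_⟩⟩
        · rw [abs_of_nonneg (Real.sqrt_nonneg _)]
          exact le_add_of_le_of_nonneg (Real.sqrt_le_sqrt ((le_abs_self _).trans (hbd _ mf hKf θ)))
            (Real.sqrt_nonneg _)
        · refine le_trans ?_ (le_add_of_nonneg_left (Real.sqrt_nonneg _))
          rw [← Real.sqrt_sq_eq_abs]
          refine Real.sqrt_le_sqrt ((Finset.single_le_sum (f := fun i => (C i θ / (2 * Real.sqrt (m θ))) ^ 2)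
            (fun j _ => sq_nonneg _) (Finset.mem_univ i)).trans ((henergy θ).trans ?_))
          exact mul_le_mul_of_nonneg_left ((hlsi θ).trans (mul_le_mul_of_nonneg_left
            ((le_abs_self _).trans (hEd θ)) (by positivity))) (by positivity) }
  have hint : ∀ (φ : (Fin n → ℝ) → ℝ), Mild φ → (∀ x, |φ x| ≤ K) →
      Integrable (fun θ => pm ρ φ t θ) U.dens.meas ∧
        ∫ θ, pm ρ φ t θ ∂U.dens.meas = ∫ x, φ x * ρ x := fun φ hφ hb => by
    refine ⟨U.integrable_bdd (h.continuous_pm hφ hkl).measurable (hbd φ hφ hb), ?_⟩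
    rw [Dens.integral_meas, ← h.integral_fst hφ hb ht htk]
    refine integral_congr_ae (Eventually.of_forall fun θ => ?_)
    show Real.exp (-U.V θ) * pm ρ φ t θ = _
    have := (h.zz_pos hk θ).ne'
    rw [hU, pm]
    field_simp
  obtain ⟨il, el⟩ := hint _ ml hKl
  obtain ⟨im, em⟩ := hint _ mf hKf
  obtain ⟨id', ed⟩ := hint _ md hKd
  obtain ⟨Cn, hCn⟩ := exists_bound_nlog K
  have inm : Integrable (fun θ => nlog (m θ)) U.dens.meas :=
    U.integrable_bdd (continuous_nlog.comp (h.continuous_pm mf hkl)).measurable fun θ =>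
      hCn _ ⟨(hm0 θ).le, (le_abs_self _).trans (hbd _ mf hKf θ)⟩
  have iEn : Integrable En U.dens.meas := il.sub inm
  have hEn_le : ∫ θ, En θ ∂U.dens.meas ≤ 64000 * σ * ∫ x, F x * ρ x := by
    rw [← ed, ← integral_const_mul]
    exact integral_mono iEn (id'.const_mul _) hlsi
  have hRsq : ∀ θ, R.g θ ^ 2 = m θ := fun θ => Real.sq_sqrt (hm0 θ).le
  have hen : R.energy U ≤ σ / 2 * ∫ θ, En θ ∂U.dens.meas := by
    rw [← integral_const_mul]
    exact integral_mono_of_nonneg (Eventually.of_forall fun θ => Finset.sum_nonneg fun i _ => sq_nonneg _)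
      (iEn.const_mul _) (Eventually.of_forall henergy)
  have hR := R.logSobolev hgood
  simp only [hRsq, entro] at hR
  rw [em] at hR
  have hsplit : ∫ θ, En θ ∂U.dens.meas = (∫ x, nlog (f x) * ρ x) - ∫ θ, nlog (m θ) ∂U.dens.meas := by
    rw [← el]; exact integral_sub il inm
  have hE0 : 0 ≤ R.energy U := R.energy_nonneg U
  have h1 : 320 * tau * R.energy U ≤ 96000 * ∫ θ, En θ ∂U.dens.meas := by
    refine (mul_le_mul (mul_le_mul_of_nonneg_left htau (by norm_num)) hen hE0 (by positivity)).trans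
      (le_of_eq ?_)
    field_simp
    ring
  have hF0 : 0 ≤ ∫ x, F x * ρ x :=
    integral_nonneg fun x => mul_nonneg (Finset.sum_nonneg fun i _ => sq_nonneg _) (h.nonneg x)
  show (∫ x, nlog (f x) * ρ x) - nlog (∫ x, f x * ρ x) ≤ 7000000000 * σ * ∫ x, F x * ρ x
  have h2 : 0 ≤ σ * ∫ x, F x * ρ x := mul_nonneg hσ.le hF0
  linarith

/-- The logarithmic Sobolev inequality. -/
theorem lsi_cube (hlc : LogConcaveFun ρ) (hn : 1 ≤ n) (T : Test n)
    (hDc : Continuous fun x => ∑ i, T.Dg i x ^ 2) :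
    (∫ x, nlog (T.g x ^ 2) * ρ x) - nlog (∫ x, T.g x ^ 2 * ρ x)
      ≤ 7000000000 * sig n a * ∫ x, (∑ i, T.Dg i x ^ 2) * ρ x := by
  obtain ⟨hσ, -, -, -, -⟩ := h.sig_facts hn
  obtain ⟨B, hB⟩ := T.exists_sq_bound
  obtain ⟨K, -, -, -, hKd, -, -, md⟩ := T.mild_data hDc
  set d : ℕ → ℝ := fun k => 1 / ((k:ℝ) + 1)
  have hd : ∀ k, 0 < d k := fun k => by positivity
  have hd1 : ∀ k, d k ≤ 1 := fun k => by
    rw [div_le_one (by positivity)]; linarith [(Nat.cast_nonneg k : (0:ℝ) ≤ k)]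
  set μ : Measure (Fin n → ℝ) := volume.withDensity fun x => ENNReal.ofReal (ρ x)
  have hμ : IsProbabilityMeasure μ := by
    constructor
    rw [withDensity_apply _ MeasurableSet.univ, Measure.restrict_univ,
      ← ofReal_integral_eq_lintegral_ofReal h.int (Eventually.of_forall h.nonneg), h.one, ENNReal.ofReal_one]
  have hμi : ∀ φ : (Fin n → ℝ) → ℝ, ∫ x, φ x ∂μ = ∫ x, φ x * ρ x := fun φ => by
    rw [integral_withDensity_eq_integral_toReal_smul h.meas.ennreal_ofReal
      (Eventually.of_forall fun x => ENNReal.ofReal_lt_top)]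
    congr 1; funext x
    rw [ENNReal.toReal_ofReal (h.nonneg x), smul_eq_mul, mul_comm]
  have hlim := tendsto_integral_nlog (μ := μ) (f := fun k x => T.g x ^ 2 + d k)
    (g := fun x => T.g x ^ 2) (B := B + 1) (fun k => (T.cont.measurable.pow_const 2).add_const _)
    (fun k x => ⟨add_nonneg (hB x).1 (hd k).le, add_le_add (hB x).2 (hd1 k)⟩)
    (fun x => by simpa [d] using (tendsto_one_div_add_atTop_nhds_zero_nat (𝕜 := ℝ)).const_add (T.g x ^ 2))
  have hk : ∀ k, entro μ (fun x => T.g x ^ 2 + d k)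
      ≤ 7000000000 * sig n a * ∫ x, (∑ i, T.Dg i x ^ 2) * ρ x := by
    intro k
    have hc : Continuous fun x => ∑ i, (T.lift (hd k)).Dg i x ^ 2 := by
      simp only [T.lift_sumD]
      refine (((T.cont.pow 2).div₀ ((T.cont.pow 2).add continuous_const) fun x => ?_).mul hDc)
      show T.g x ^ 2 + d k ≠ 0
      have := hd k
      positivity
    have := h.lsi_cube_pos hlc hn (T.lift (hd k)) hc (hd k) fun x => by
      rw [T.lift_sq]; exact le_add_of_nonneg_left (sq_nonneg _)
    simp only [T.lift_sq] at this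
    rw [entro, hμi, hμi]
    refine this.trans (mul_le_mul_of_nonneg_left (integral_mono_of_nonneg
      (Eventually.of_forall fun x => mul_nonneg (Finset.sum_nonneg fun i _ => sq_nonneg _) (h.nonneg x)) ?_
      (Eventually.of_forall fun x => ?_)) (by positivity))
    · refine (h.int.const_mul K).mono' ((hDc.measurable.mul h.meas).aestronglyMeasurable)
        (Eventually.of_forall fun x => ?_)
      rw [Real.norm_eq_abs, abs_mul, abs_of_nonneg (h.nonneg x)]
      exact mul_le_mul_of_nonneg_right (hKd x) (h.nonneg x)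
    · refine mul_le_mul_of_nonneg_right ?_ (h.nonneg x)
      rw [T.lift_sumD]
      exact mul_le_of_le_one_left (Finset.sum_nonneg fun i _ => sq_nonneg _)
        ((div_le_one (by have := hd k; positivity)).2 (le_add_of_nonneg_right (hd k).le))
  have := le_of_tendsto' hlim hk
  rwa [entro, hμi, hμi] at this

end SubDensity

end Vale.Agent.P245
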